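import Vale.Agent.P120.Spec

/-!
# P120: normalised sequences for the improvement lemma (interface of 12a and 12b)

A counterexample sequence of chains is moved by similarities to measures `m k` on `ℝᵈ`: the best
plane becomes the plane of the first `n` coordinates, the projection of the centre becomes `0` (so
the support comes within `o (1)` of `0`) and the top radius one.
All constants are uniform in `k`, since they are those of the original measure.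
-/

open MeasureTheory Metric Filter Topology
open scoped ENNReal NNReal

namespace Vale.Agent.P120

variable {n d : ℕ}

/-- The first `n` coordinates. -/
noncomputable def tPart (h : n ≤ d) (y : Sp d) : Sp n := WithLp.toLp 2 fun i => y (Fin.castLE h i)

/-- The plane of the first `n` coordinates, as a map. -/
noncomputable def tEmb (x : Sp n) : Sp d :=
  WithLp.toLp 2 fun i => if h : (i : ℕ) < n then x ⟨i, h⟩ else 0

/-- The remaining coordinates. -/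
noncomputable def nPart (n : ℕ) (y : Sp d) : Sp d :=
  WithLp.toLp 2 fun i => if (i : ℕ) < n then 0 else y i

/-- The conclusion of `TouchSpec` for given constants. -/
def TouchAt (n : ℕ) (μ : Measure (Sp d)) (η : ℝ) (N : ℕ) (κ : ℝ) : Prop :=
  ∀ (z x : Sp d) (ρ : ℝ), 0 < ρ → ENNReal.ofReal ρ ≤ Metric.ediam μ.support →
    x ∈ μ.support → dist z x = ρ → Disjoint (ball z ρ) μ.support →
    (∀ k ≤ N, bT n μ 1 x (ρ / 8 ^ k) ≤ κ) →
    ∃ k ≤ N, ∀ y ∈ μ.support ∩ ball x (ρ / 8 ^ k),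
      |inner ℝ (ρ⁻¹ • (z - x)) (y - x)| ≤ η * (ρ / 8 ^ k)

/-- A normalised sequence along which the improvement lemma fails. -/
structure Blow (n d : ℕ) (C₀ : ℝ) where
  le : n ≤ d
  m : ℕ → Measure (Sp d)
  G : ℕ → ℝ
  lf : ∀ k, IsLocallyFiniteMeasure (m k)
  reg : ∀ k, Reg n C₀ (m k)
  point : ∀ δ : ℝ, 0 < δ → ∀ᶠ k in atTop, ∃ z ∈ (m k).support, ‖z‖ ≤ δ
  diam : ∀ A : ℝ, ∀ᶠ k in atTop, ENNReal.ofReal A ≤ Metric.ediam (m k).support
  G_pos : ∀ k, 0 < G k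
  G_lim : Tendsto G atTop (𝓝 0)
  /-- The growth integrals. -/
  Cg : ℝ
  near : ∀ (k : ℕ) (x : Sp d) (R : ℝ), 0 < R →
    IntegrableOn (fun z => ‖x - z‖ / ‖x - z‖ ^ n) (ball x R) (m k) ∧
      ∫ z in ball x R, ‖x - z‖ / ‖x - z‖ ^ n ∂m k ≤ Cg * R
  far : ∀ a : ℕ, a = 1 ∨ a = 2 → ∀ (k : ℕ) (x : Sp d) (R : ℝ), 0 < R →
    IntegrableOn (fun z => (‖x - z‖ ^ (n + a))⁻¹) (ball x R)ᶜ (m k) ∧
      ∫ z in (ball x R)ᶜ, (‖x - z‖ ^ (n + a))⁻¹ ∂m k ≤ Cg / R ^ a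
  /-- The heights have growth `3 / 2` against the top flatness. -/
  D : ℝ
  moment : ∀ (k : ℕ) (A : ℝ), 1 ≤ A →
    ∫ y in ball 0 A, ‖nPart n y‖ ^ 2 ∂m k ≤ D * A ^ (n + 3) * G k ^ 2
  /-- The heights have energy of the order of the squared top flatness. -/
  energy : ∀ A : ℝ, 1 ≤ A → ∃ E : ℝ, ∀ᶠ k in atTop, ∀ i : Fin d, n ≤ (i : ℕ) →
    ∫ y in ball 0 A, ∫ z in ball 0 A, (y i - z i) ^ 2 / ‖y - z‖ ^ (n + 1) ∂m k ∂m k ≤ E * G k ^ 2
  /-- Fixed tests are little against the top flatness. -/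
  test : ∀ (A : ℝ) (L : ℝ≥0) (δ : ℝ), 1 ≤ A → 0 < δ → ∀ᶠ k in atTop, ∀ φ : Sp d → Sp d,
    (∀ y, A ≤ dist y 0 → φ y = 0) → (∀ y, ‖φ y‖ ≤ 1) → LipschitzWith L φ →
      ∫ y, φ y ∂m k = 0 → |pair n (m k) 0 A φ| ≤ δ * G k
  /-- The touching constants. -/
  touch : ∀ η : ℝ, 0 < η → ∃ (N : ℕ) (κ : ℝ), 0 < κ ∧ ∀ k, TouchAt n (m k) η N κ

/-- The flattened measures tend to a multiple of Lebesgue measure on the plane (12a). -/
def LimitSpec (n d : ℕ) : Prop :=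
  ∀ (C₀ : ℝ) (B : Blow n d C₀) (U : Ultrafilter ℕ), (U : Filter ℕ) ≤ atTop → ∃ a : ℝ, 0 < a ∧
    ∀ (g : Sp n → ℝ) (A : ℝ), Continuous g → 1 ≤ A → (∀ x, A ≤ ‖x‖ → g x = 0) →
      Tendsto (fun k => ∫ y in ball 0 (2 * A), g (tPart B.le y) ∂B.m k) U (𝓝 (a * ∫ x, g x))

/-- The linearised flatness vanishes (12b): a plane of defect `o (G ²)`. -/
def LineariseSpec (n d : ℕ) : Prop :=
  ∀ (C₀ : ℝ) (B : Blow n d C₀) (δ : ℝ), 0 < δ → ∃ᶠ k in atTop, ∃ L : Plane n d,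
    dist L.base 0 ≤ 1 / 2 ∧ defect n (B.m k) 0 2 L ≤ δ * B.G k ^ 2

end Vale.Agent.P120
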