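import Vale.Agent.P120.Improve.Pairs
import Vale.Agent.P120.Linear.Base
import Mathlib.MeasureTheory.Group.Integral
import Mathlib.MeasureTheory.Measure.Haar.Unique
import Mathlib.Topology.MetricSpace.Lipschitz

/-!
# P120: the tests of a normalised sequence against its heights
-/

open MeasureTheory Metric Filter Topology
open scoped ENNReal NNReal RealInnerProductSpace

namespace Vale.Agent.P120

variable {n d : ℕ}

/-- Translations keep integrals over balls. -/
lemma setIntegral_ball_sub (g : Sp n → ℝ) (x : Sp n) (R : ℝ) :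
    ∫ z in ball x R, g (x - z) = ∫ z in ball 0 R, g z := by
  have hme : MeasurableEmbedding fun z : Sp n => x - z :=
    (Homeomorph.subLeft x).measurableEmbedding
  have hset : (fun z : Sp n => x - z) ⁻¹' ball 0 R = ball x R := by
    ext z; simp [mem_ball, dist_eq_norm, norm_sub_rev]
  rw [← hset]
  exact (Measure.measurePreserving_sub_left volume x).setIntegral_preimage_emb hme g _

lemma integrableOn_ball_sub {g : Sp n → ℝ} {x : Sp n} {R : ℝ}
    (hg : IntegrableOn g (ball 0 R)) : IntegrableOn (fun z => g (x - z)) (ball x R) := by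
  have hme : MeasurableEmbedding fun z : Sp n => x - z :=
    (Homeomorph.subLeft x).measurableEmbedding
  have hset : (fun z : Sp n => x - z) ⁻¹' ball 0 R = ball x R := by
    ext z; simp [mem_ball, dist_eq_norm, norm_sub_rev]
  rw [← hset]
  exact ((Measure.measurePreserving_sub_left volume x).integrableOn_comp_preimage hme).2 hg

namespace Blow

variable {C₀ : ℝ} (B : Blow n d C₀)

lemma gag_le (i : Fin d) (k : ℕ) (W : ℝ) :
    IntegrableOn (fun q : Sp d × Sp d => B.quot i k q.1 q.2) (ball 0 W ×ˢ ball 0 W)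
      ((B.m k).prod (B.m k)) ∧
    ∫ q in ball 0 W ×ˢ ball 0 W, B.quot i k q.1 q.2 ∂(B.m k).prod (B.m k) =
      ∫ y in ball 0 W, ∫ z in ball 0 W, B.quot i k y z ∂B.m k ∂B.m k := by
  have := B.lf k
  have h : IntegrableOn (fun q : Sp d × Sp d => B.quot i k q.1 q.2) (ball 0 W ×ˢ ball 0 W)
      ((B.m k).prod (B.m k)) := by
    rw [IntegrableOn, ← Measure.prod_restrict]
    refine (integrable_prod_iff (B.measurable_quot i k).aestronglyMeasurable).2
      ⟨Eventually.of_forall fun y => B.integrableOn_quot i k y W, ?_⟩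
    simp only [Real.norm_eq_abs, abs_of_nonneg (B.quot_nonneg i k _ _)]
    exact B.integrableOn_quot_inner i k W
  exact ⟨h, setIntegral_prod _ h⟩

/-- The heights over `G`, as heights. -/
lemma heights {i : Fin d} (hi : n ≤ (i : ℕ)) (k : ℕ) :
    Heights n (B.m k) (B.ht i k) C₀ B.Cg B.D where
  meas := (B.continuous_ht i k).measurable
  mass := (B.reg k).upper
  near := B.near k
  moment A hA := ⟨B.intOn (f := fun y => B.ht i k y ^ 2) ((B.continuous_ht i k).pow 2) k A,
    B.integral_ht_sq hi k hA⟩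
  gag W := (B.gag_le i k W).1

/-- The limit, as heights on the plane. -/
lemma heights_vlim (hn : 1 ≤ n) {U : Ultrafilter ℕ} (hU : (U : Filter ℕ) ≤ atTop) {a : ℝ}
    (ha : 0 < a) (hlim : B.Conv U a) {i : Fin d} (hi : n ≤ (i : ℕ)) :
    ∃ Cg D : ℝ, Heights n (volume : Measure (Sp n)) (B.vlim U a i) (Linear.unitVol n) Cg D := by
  obtain ⟨Cg, -, hnear⟩ := Linear.near_bound hn
  refine ⟨Cg, 2 * |B.D| * 4 ^ (n + 3) / a, (B.stronglyMeasurable_vlim hU ha hi).measurable,
    fun x r hr => le_of_eq (by rw [Linear.vol_ball x hr, mul_comm]), fun x R hR => ?_,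
    fun A hA => B.moment_vlim hU ha hlim hi hA, fun W => B.energy_vlim hU ha hlim hi W⟩
  have e : (fun z : Sp n => ‖x - z‖ / ‖x - z‖ ^ n) =
      fun z => ‖x - z‖ ^ 2 * Linear.ker (x - z) := funext fun z => by
    rcases eq_or_ne ‖x - z‖ 0 with h | h
    · simp [h]
    · rw [Linear.ker, pow_succ ‖x - z‖ n]; field_simp
  rw [e]
  exact ⟨integrableOn_ball_sub (hnear R hR).1,
    (setIntegral_ball_sub (fun z => ‖z‖ ^ 2 * Linear.ker z) x R).trans_le (hnear R hR).2⟩

/-! ### The tests -/

/-- The correction making the mean of a test zero. -/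
noncomputable def corr (φ : Sp n → ℝ) (R : ℝ) (k : ℕ) : ℝ :=
  (∫ y, φ (tPart B.le y) * cut (R + 1) y ∂B.m k) /
    ∫ y, tent 1 (tPart B.le y) * cut (R + 1) y ∂B.m k

/-- The test on `B.m k` made from a test on the plane. -/
noncomputable def psi (φ : Sp n → ℝ) (R : ℝ) (k : ℕ) (y : Sp d) : ℝ :=
  (φ (tPart B.le y) - B.corr φ R k * tent 1 (tPart B.le y)) * cut (R + 1) y

lemma psi_eq_zero (φ : Sp n → ℝ) {R : ℝ} (k : ℕ) {y : Sp d} (hy : R + 2 ≤ ‖y‖) :
    B.psi φ R k y = 0 := by
  rw [psi, cut_eq_zero (by linarith), mul_zero]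

/-- Near the plane the cutoff of a test does nothing. -/
lemma cut_mul_eq {g : Sp n → ℝ} {R : ℝ} (hg : ∀ x, R ≤ ‖x‖ → g x = 0) {k : ℕ} {W : ℝ}
    (hthin : ∀ y ∈ (B.m k).support, ‖y‖ < W → ‖nPart n y‖ ≤ 1) {y : Sp d}
    (hy : y ∈ (B.m k).support) (hyW : ‖y‖ < W) :
    g (tPart B.le y) * cut (R + 1) y = g (tPart B.le y) := by
  rcases le_or_gt R ‖tPart B.le y‖ with h | h
  · rw [hg _ h, zero_mul]
  · rw [cut_eq_one (by linarith [hthin y hy hyW, norm_le_parts B.le y]), mul_one]

variable {U : Ultrafilter ℕ} (hU : (U : Filter ℕ) ≤ atTop) {a : ℝ} (ha : 0 < a)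
  (hlim : B.Conv U a)
include hU hlim

lemma tendsto_cut_integral {g : Sp n → ℝ} (hgc : Continuous g) {R : ℝ} (hR : 1 ≤ R)
    (hg : ∀ x, R ≤ ‖x‖ → g x = 0) :
    Tendsto (fun k => ∫ y, g (tPart B.le y) * cut (R + 1) y ∂B.m k) U (𝓝 (a * ∫ x, g x)) := by
  refine (hlim g (R + 2) hgc (by linarith) fun x hx => hg x (by linarith)).congr' ?_
  filter_upwards [hU (B.thin (A := 2 * (R + 2)) (show 1 ≤ 2 * (R + 2) by linarith) one_pos)] with k hk
  have e : ∫ y, g (tPart B.le y) * cut (R + 1) y ∂B.m k =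
      ∫ y in ball 0 (2 * (R + 2)), g (tPart B.le y) * cut (R + 1) y ∂B.m k :=
    (setIntegral_eq_integral_of_forall_compl_eq_zero fun y hy => by
      rw [mem_ball_zero_iff, not_lt] at hy
      rw [cut_eq_zero (by linarith), mul_zero]).symm
  rw [e]
  refine setIntegral_congr_ae measurableSet_ball ?_
  filter_upwards [B.ae_support k] with y hy hyW
  rw [B.cut_mul_eq hg hk hy (mem_ball_zero_iff.1 hyW)]

include ha

lemma tendsto_corr {φ : Sp n → ℝ} (hφ : Continuous φ) {R : ℝ} (hR : 1 ≤ R)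
    (hφ0 : ∀ x, R ≤ ‖x‖ → φ x = 0) (hint : ∫ x, φ x = 0) :
    Tendsto (B.corr φ R) U (𝓝 0) := by
  have hI : 0 < a * tentMass n 1 := mul_pos ha (tentMass_pos one_pos)
  have h := (B.tendsto_cut_integral hU hlim hφ hR hφ0).div
    (B.tendsto_cut_integral hU hlim (continuous_tent 1) hR
      fun x hx => tent_eq_zero one_pos (hR.trans hx)) hI.ne'
  rw [hint, mul_zero, zero_div] at h
  exact h

/-- **The tests are little**: the pairings of the heights with them tend to zero. -/
theorem jform_small {φ : Sp n → ℝ} {L : ℝ≥0} (hφ : LipschitzWith L φ) {R M : ℝ} (hR : 1 ≤ R)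
    (hφ0 : ∀ x, R ≤ ‖x‖ → φ x = 0) (hM : ∀ x, |φ x| ≤ M) (hint : ∫ x, φ x = 0) {i : Fin d}
    {ε : ℝ} (hε : 0 < ε) :
    ∀ᶠ k in (U : Filter ℕ), LipschitzWith (L + 1 + Real.toNNReal (M + 1)) (B.psi φ R k) ∧
      (∀ y, |B.psi φ R k y| ≤ M + 1) ∧ ∫ y, B.psi φ R k y ∂B.m k = 0 ∧
      |B.corr φ R k| ≤ 1 ∧ |Jform n (B.m k) (B.ht i k) (R + 2) (B.psi φ R k)| ≤ ε := by
  have hM0 : 0 ≤ M := (abs_nonneg _).trans (hM 0)
  set K := M + 1 with hK
  have hK0 : 0 < K := by linarith
  set L' : ℝ≥0 := L + 1 + Real.toNNReal K with hL'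
  have hden : ∀ᶠ k in (U : Filter ℕ),
      0 < ∫ y, tent 1 (tPart B.le y) * cut (R + 1) y ∂B.m k :=
    (B.tendsto_cut_integral hU hlim (continuous_tent 1) hR
      fun x hx => tent_eq_zero one_pos (hR.trans hx)).eventually_const_lt
      (show (0:ℝ) < a * ∫ x, tent 1 x from mul_pos ha (tentMass_pos one_pos))
  filter_upwards [hden, (B.tendsto_corr hU ha hlim hφ.continuous hR hφ0 hint).eventually
      (closedBall_mem_nhds (0 : ℝ) one_pos),
    hU (B.test (R + 2) (Real.toNNReal K⁻¹ * L') (ε / K) (by linarith) (by positivity))] with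
    k hkd hkc htest
  rw [Real.dist_eq, sub_zero] at hkc
  set c := B.corr φ R k with hc
  have hct := (lipschitz_tPart (n := n) B.le).continuous
  set g : Sp d → ℝ := fun y => φ (tPart B.le y) - c * tent 1 (tPart B.le y) with hg
  have hgb : ∀ y, |g y| ≤ K := fun y => by
    refine (abs_sub _ _).trans (add_le_add (hM _) ?_)
    rw [abs_mul, abs_of_nonneg (tent_nonneg _ _)]
    exact mul_le_one₀ hkc (tent_nonneg _ _) (tent_le_one one_pos _)
  have hgl : ∀ y z, |g y - g z| ≤ ((L : ℝ) + 1) * ‖y - z‖ := fun y z => by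
    have h1 := hφ.norm_sub_le (tPart B.le y) (tPart B.le z)
    have h2 := abs_tent_sub_le one_pos (tPart B.le y) (tPart B.le z)
    have h3 : ‖tPart B.le y - tPart B.le z‖ ≤ ‖y - z‖ := by
      rw [← tPart_sub]; exact norm_tPart_le B.le _
    rw [Real.norm_eq_abs] at h1
    rw [inv_one, one_mul] at h2
    calc |g y - g z| = |(φ (tPart B.le y) - φ (tPart B.le z)) -
          c * (tent 1 (tPart B.le y) - tent 1 (tPart B.le z))| := by simp only [hg]; ring_nf
      _ ≤ |φ (tPart B.le y) - φ (tPart B.le z)| +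
          |c| * |tent 1 (tPart B.le y) - tent 1 (tPart B.le z)| := by
          rw [← abs_mul]; exact abs_sub _ _
      _ ≤ (L : ℝ) * ‖y - z‖ + 1 * ‖y - z‖ :=
          add_le_add (h1.trans (mul_le_mul_of_nonneg_left h3 L.2))
            (mul_le_mul hkc (h2.trans h3) (abs_nonneg _) zero_le_one)
      _ = _ := by ring
  have hψb : ∀ y, |B.psi φ R k y| ≤ K := fun y => by
    rw [psi, abs_mul, abs_of_nonneg (cut_nonneg _ _)]
    exact (mul_le_of_le_one_right (abs_nonneg _) (cut_le_one _ _)).trans (hgb y)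
  have hψl : LipschitzWith L' (B.psi φ R k) := LipschitzWith.of_dist_le_mul fun y z => by
    rw [Real.dist_eq, dist_eq_norm]
    have h4 : |cut (R + 1) y - cut (R + 1) z| ≤ ‖y - z‖ := by
      refine (abs_max_sub_max_le_max _ _ _ _).trans (max_le (by simp) ?_)
      refine (abs_min_sub_min_le_max _ _ _ _).trans (max_le (by simp) ?_)
      rw [sub_sub_sub_cancel_left, abs_sub_comm]
      exact abs_norm_sub_norm_le y z
    calc |B.psi φ R k y - B.psi φ R k z|
        = |(g y - g z) * cut (R + 1) y + g z * (cut (R + 1) y - cut (R + 1) z)| := by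
          simp only [psi, hg, ← hc]; ring_nf
      _ ≤ |g y - g z| * 1 + |g z| * |cut (R + 1) y - cut (R + 1) z| := by
          refine (abs_add_le _ _).trans ?_
          rw [abs_mul, abs_mul, abs_of_nonneg (cut_nonneg _ _)]
          gcongr
          exact cut_le_one _ _
      _ ≤ ((L : ℝ) + 1) * ‖y - z‖ * 1 + K * ‖y - z‖ := by
          gcongr
          · exact hgl y z
          · exact hgb z
      _ = _ := by rw [hL']; push_cast [Real.coe_toNNReal _ hK0.le]; ring
  have hψ0 : ∫ y, B.psi φ R k y ∂B.m k = 0 := by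
    have hi : ∀ g' : Sp n → ℝ, Continuous g' →
        Integrable (fun y => g' (tPart B.le y) * cut (R + 1) y) (B.m k) := fun g' hg' => by
      have := B.lf k
      exact ((hg'.comp hct).mul (continuous_cut _)).integrable_of_hasCompactSupport
        (HasCompactSupport.intro (isCompact_closedBall 0 (R + 2)) fun y hy => by
          rw [mem_closedBall_zero_iff, not_le] at hy
          show _ * _ = (0:ℝ)
          rw [cut_eq_zero (by linarith), mul_zero])
    simp only [psi, sub_mul, mul_assoc, ← hc]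
    rw [integral_sub (hi φ hφ.continuous) ((hi _ (continuous_tent 1)).const_mul c),
      integral_const_mul, hc, corr, div_mul_cancel₀ _ hkd.ne', sub_self]
  refine ⟨hψl, hψb, hψ0, hkc, ?_⟩
  set e : Sp d := EuclideanSpace.single i 1 with he
  have hnorm : ‖e‖ = 1 := by simp [he]
  have htp := htest (fun y => (K⁻¹ * B.psi φ R k y) • e) (fun y hy => by
      rw [dist_zero_right] at hy
      rw [B.psi_eq_zero φ k (by linarith), mul_zero, zero_smul])
    (fun y => by
      rw [norm_smul, hnorm, mul_one, Real.norm_eq_abs, abs_mul, abs_of_pos (inv_pos.2 hK0),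
        inv_mul_le_iff₀ hK0, mul_one]
      exact hψb y)
    (LipschitzWith.of_dist_le_mul fun y z => by
      rw [dist_eq_norm, ← sub_smul, norm_smul, hnorm, mul_one, ← mul_sub, Real.norm_eq_abs,
        abs_mul, abs_of_pos (inv_pos.2 hK0), NNReal.coe_mul, Real.coe_toNNReal _
        (inv_nonneg.2 hK0.le), mul_assoc]
      have h := hψl.dist_le_mul y z
      rw [Real.dist_eq] at h
      exact mul_le_mul_of_nonneg_left h (inv_nonneg.2 hK0.le))
    (by rw [integral_smul_const, integral_const_mul, hψ0, mul_zero, zero_smul])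
  have hG := B.G_pos k
  have hp : pair n (B.m k) 0 (R + 2) (fun y => (K⁻¹ * B.psi φ R k y) • e) =
      B.G k * K⁻¹ * Jform n (B.m k) (B.ht i k) (R + 2) (B.psi φ R k) := by
    have hin : ∀ (s : ℝ) (v : Sp d), ⟪s • e, v⟫ = s * v i := fun s v => by
      rw [real_inner_smul_left, he, EuclideanSpace.inner_single_left]; simp
    have hker : ∀ v : Sp d, (rieszKernel n v) i = v i / ‖v‖ ^ (n + 1) := fun v => by
      simp [rieszKernel, div_eq_inv_mul]
    have hh : ∀ y : Sp d, y i = B.G k * B.ht i k y := fun y => by rw [ht]; field_simp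
    have e1 : ∀ y z : Sp d, ⟪(K⁻¹ * B.psi φ R k y) • e - (K⁻¹ * B.psi φ R k z) • e,
        rieszKernel n (y - z)⟫ = (B.G k * K⁻¹) *
          ((B.psi φ R k y - B.psi φ R k z) * (B.ht i k y - B.ht i k z) / ‖y - z‖ ^ (n + 1)) :=
      fun y z => by
        rw [← sub_smul, hin, hker, PiLp.sub_apply, hh y, hh z]; ring
    have e2 : ∀ y z : Sp d, ⟪(K⁻¹ * B.psi φ R k y) • e,
        rieszKernel n (y - z) - rieszKernel n (0 - z)⟫ = (B.G k * K⁻¹) *
          (B.psi φ R k y * ((B.ht i k y - B.ht i k z) / ‖y - z‖ ^ (n + 1) +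
            B.ht i k z / ‖z‖ ^ (n + 1))) := fun y z => by
      rw [hin, PiLp.sub_apply, hker, hker, zero_sub, norm_neg, PiLp.neg_apply, PiLp.sub_apply,
        hh y, hh z]
      ring
    simp only [pair, Jform, e1, e2, integral_const_mul]
    ring
  rw [hp, abs_mul, abs_of_pos (mul_pos hG (inv_pos.2 hK0))] at htp
  calc |Jform n (B.m k) (B.ht i k) (R + 2) (B.psi φ R k)|
      ≤ ε / K * B.G k / (B.G k * K⁻¹) := by rw [le_div_iff₀ (by positivity), mul_comm]; exact htp
    _ = ε := by field_simp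

end Blow

end Vale.Agent.P120
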