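import Vale.Agent.P120.Improve.Pairs

/-!
# P120: the pairing of the heights against the kernel of the projection
-/

open MeasureTheory Metric Filter Topology Set
open scoped ENNReal NNReal

namespace Vale.Agent.P120

variable {n N : ℕ}

/-- The kernels of `t` and of a nearby shorter `τ` cut off at `δ`. -/
lemma kcut_compare (n : ℕ) {t τ δ : ℝ} (ht : 0 < t) (hτt : τ ≤ t)
    (htτ : t ≤ τ + δ ^ 2) (hδ : 0 < δ) (hδ1 : δ ≤ 1) :
    |(t ^ (n + 1))⁻¹ - (max τ δ ^ (n + 1))⁻¹| ≤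
      2 ^ (n + 1) * (t ^ (n + 1))⁻¹ * (δ + if t < 2 * δ then 1 else 0) := by
  rcases le_or_gt δ τ with h | h
  · have hp : 0 < τ := hδ.trans_le h
    rw [max_eq_left h, abs_sub_comm]
    have h1 : t ≤ τ * (1 + δ) := by nlinarith
    have h2 : (1 + δ) ^ (n + 1) - 1 ≤ 2 ^ (n + 1) * δ := by
      have hexp : ∀ k : ℕ, (1 + δ) ^ k ≤ 1 + (2 ^ k - 1) * δ := by
        intro k
        induction k with
        | zero => simp
        | succ k ih =>
          have : (1 + δ) ^ k * (1 + δ) ≤ (1 + (2 ^ k - 1) * δ) * (1 + δ) := by gcongr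
          rw [pow_succ, pow_succ]
          nlinarith [mul_le_mul_of_nonneg_left hδ1 (mul_nonneg
            (sub_nonneg.2 (one_le_pow₀ (by norm_num : (1 : ℝ) ≤ 2) (n := k))) hδ.le)]
      nlinarith [hexp (n + 1)]
    have h5 : 0 < t ^ (n + 1) := by positivity
    have h6 : 0 < τ ^ (n + 1) := by positivity
    rw [abs_of_nonneg (sub_nonneg.2 (by gcongr))]
    have h7 : t ^ (n + 1) ≤ τ ^ (n + 1) * (1 + δ) ^ (n + 1) := by
      rw [← mul_pow]
      gcongr
    calc (τ ^ (n + 1))⁻¹ - (t ^ (n + 1))⁻¹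
        = (t ^ (n + 1))⁻¹ * (t ^ (n + 1) / τ ^ (n + 1) - 1) := by field_simp
      _ ≤ (t ^ (n + 1))⁻¹ * (2 ^ (n + 1) * δ) := by
          gcongr
          refine le_trans (sub_le_sub_right ?_ 1) h2
          rw [div_le_iff₀ h6]
          linarith
      _ ≤ _ := by
          rw [mul_comm (2 ^ (n + 1) : ℝ) (t ^ (n + 1))⁻¹, mul_assoc]
          gcongr
          split_ifs <;> linarith
  · have ht2 : t < 2 * δ := by nlinarith
    rw [if_pos ht2, max_eq_right h.le]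
    have h1 : (δ ^ (n + 1))⁻¹ ≤ 2 ^ (n + 1) * (t ^ (n + 1))⁻¹ := by
      rw [← inv_inv (2 ^ (n + 1) : ℝ), ← mul_inv]
      refine inv_anti₀ (by positivity) ?_
      rw [inv_mul_le_iff₀ (by positivity), ← mul_pow]
      gcongr
    have h2 : (t ^ (n + 1))⁻¹ ≤ 2 ^ (n + 1) * (t ^ (n + 1))⁻¹ :=
      le_mul_of_one_le_left (by positivity) (one_le_pow₀ (by norm_num))
    have h3 : 0 ≤ 2 ^ (n + 1) * (t ^ (n + 1))⁻¹ * δ := by positivity
    refine (abs_sub_le_of_nonneg_of_le (by positivity) h2 (by positivity) h1).trans ?_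
    rw [mul_add, mul_one]
    linarith

/-- The near part of the kernel on a square. -/
lemma near_prod {C₀ Cg D : ℝ} {m : Measure (Sp N)} [IsLocallyFiniteMeasure m] {h : Sp N → ℝ}
    (H : Heights n m h C₀ Cg D) {W ρ : ℝ} (hW : 0 < W) (hρ : 0 < ρ) :
    Integrable (fun q : Sp N × Sp N =>
        if ‖q.1 - q.2‖ < ρ then ‖q.1 - q.2‖ / ‖q.1 - q.2‖ ^ n else 0)
        ((m.restrict (ball 0 W)).prod (m.restrict (ball 0 W))) ∧
      ∫ q, (if ‖q.1 - q.2‖ < ρ then ‖q.1 - q.2‖ / ‖q.1 - q.2‖ ^ n else 0)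
          ∂((m.restrict (ball 0 W)).prod (m.restrict (ball 0 W))) ≤ C₀ * W ^ n * (Cg * ρ) := by
  have : Fact (m (ball (0 : Sp N) W) < ⊤) := ⟨measure_ball_lt_top⟩
  set F : Sp N × Sp N → ℝ :=
    fun q => if ‖q.1 - q.2‖ < ρ then ‖q.1 - q.2‖ / ‖q.1 - q.2‖ ^ n else 0 with hF
  have hm : Measurable F :=
    Measurable.ite (measurableSet_lt (by fun_prop) measurable_const) (by fun_prop) measurable_const
  have hsec : ∀ y, IntegrableOn (fun z => F (y, z)) (ball 0 W) m ∧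
      ∫ z in ball 0 W, F (y, z) ∂m ≤ Cg * ρ := by
    intro y
    have e1 : (fun z => F (y, z)) = (ball y ρ).indicator fun z => ‖y - z‖ / ‖y - z‖ ^ n := by
      funext z
      simp only [hF, indicator, mem_ball, dist_eq_norm, norm_sub_rev z y]
    have hi : Integrable ((ball y ρ).indicator fun z => ‖y - z‖ / ‖y - z‖ ^ n) m :=
      (integrable_indicator_iff measurableSet_ball).2 (H.near y ρ hρ).1
    rw [e1]
    refine ⟨hi.integrableOn, (setIntegral_le_integral hi (Eventually.of_forall fun z =>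
      indicator_nonneg (fun z _ => by positivity) z)).trans ?_⟩
    rw [integral_indicator measurableSet_ball]
    exact (H.near y ρ hρ).2
  have hF0 : ∀ q, 0 ≤ F q := fun q => by
    simp only [hF]
    split_ifs <;> positivity
  have hint : Integrable F ((m.restrict (ball 0 W)).prod (m.restrict (ball 0 W))) := by
    rw [integrable_prod_iff hm.aestronglyMeasurable]
    refine ⟨Eventually.of_forall fun y => (hsec y).1, ?_⟩
    refine Integrable.of_bound hm.aestronglyMeasurable.norm.integral_prod_right' (Cg * ρ)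
      (Eventually.of_forall fun y => ?_)
    rw [Real.norm_eq_abs, abs_of_nonneg (integral_nonneg fun z => norm_nonneg _)]
    refine le_trans (le_of_eq ?_) (hsec y).2
    refine integral_congr_ae (Eventually.of_forall fun z => ?_)
    simp only [Real.norm_eq_abs, abs_of_nonneg (hF0 _)]
  refine ⟨hint, ?_⟩
  have hCg : 0 ≤ Cg * ρ := (integral_nonneg fun z => hF0 _).trans (hsec 0).2
  rw [integral_prod _ hint]
  refine (integral_mono hint.integral_prod_left (integrable_const (Cg * ρ))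
    fun y => (hsec y).2).trans ?_
  rw [integral_const, smul_eq_mul, measureReal_restrict_apply_univ]
  exact mul_le_mul_of_nonneg_right (H.mass 0 W hW) hCg

/-- The difference of the two pairings at one pair of points. -/
lemma compare_point {h f : Sp N → ℝ} {p : Sp N → Sp n} {L : ℝ≥0} (hf : LipschitzWith L f)
    {δ : ℝ} (hδ : 0 < δ) (hδ1 : δ ≤ 1) (q : Sp N × Sp N) {b : ℝ} (hb : |b| ≤ 1)
    (hp : ‖p q.1 - p q.2‖ ≤ ‖q.1 - q.2‖) (hq : ‖q.1 - q.2‖ ≤ ‖p q.1 - p q.2‖ + δ ^ 2) :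
    |b * (f q.1 - f q.2) * slope' n h q -
        b * (f q.1 - f q.2) * ((h q.1 - h q.2) * kcut n δ (p q.1 - p q.2))| ≤
      2 ^ (n + 1) * L / 2 *
        (δ * (‖q.1 - q.2‖ / ‖q.1 - q.2‖ ^ n) +
          (√δ)⁻¹ * (if ‖q.1 - q.2‖ < 2 * δ then ‖q.1 - q.2‖ / ‖q.1 - q.2‖ ^ n else 0) +
          2 * √δ * ((h q.1 - h q.2) ^ 2 / ‖q.1 - q.2‖ ^ (n + 1))) := by
  set t := ‖q.1 - q.2‖ with htdef
  set u := |h q.1 - h q.2| with hu
  have hs : 0 < √δ := Real.sqrt_pos.2 hδ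
  rcases (norm_nonneg (q.1 - q.2)).eq_or_lt with h0 | ht
  · have e1 : q.1 = q.2 := sub_eq_zero.1 (norm_eq_zero.1 h0.symm)
    have et : t = 0 := h0.symm
    simp [slope', e1, et]
  have hK := kcut_compare n ht hp hq hδ hδ1
  have hdf : |f q.1 - f q.2| ≤ L * t := by
    rw [← Real.dist_eq, htdef, ← dist_eq_norm]
    exact hf.dist_le_mul _ _
  have am : ∀ s : ℝ, 0 < s → t * u * (t ^ (n + 1))⁻¹ ≤
      (s * (t / t ^ n) + s⁻¹ * ((h q.1 - h q.2) ^ 2 / t ^ (n + 1))) / 2 := by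
    intro s hs'
    have e1 : t / t ^ n = t ^ 2 * (t ^ (n + 1))⁻¹ := by
      rw [pow_succ t n]
      field_simp
    rw [e1, ← sq_abs (h q.1 - h q.2), ← hu, div_eq_mul_inv (u ^ 2)]
    have h2 : 2 * (t * u) ≤ s * t ^ 2 + s⁻¹ * u ^ 2 := by
      have h3 : 0 ≤ s⁻¹ * (s * t - u) ^ 2 := by positivity
      have h4 : s⁻¹ * (s * t - u) ^ 2 = s * t ^ 2 - 2 * (t * u) + s⁻¹ * u ^ 2 := by
        field_simp
        ring
      linarith
    have h5 : 0 ≤ (t ^ (n + 1))⁻¹ := by positivity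
    nlinarith [mul_le_mul_of_nonneg_right h2 h5]
  have hG : 0 ≤ (h q.1 - h q.2) ^ 2 / t ^ (n + 1) := by positivity
  have hT : 0 ≤ t / t ^ n := by positivity
  have hL : (0 : ℝ) ≤ L := L.2
  calc |b * (f q.1 - f q.2) * slope' n h q -
        b * (f q.1 - f q.2) * ((h q.1 - h q.2) * kcut n δ (p q.1 - p q.2))|
      = |b| * |f q.1 - f q.2| * u * |(t ^ (n + 1))⁻¹ - (max ‖p q.1 - p q.2‖ δ ^ (n + 1))⁻¹| := by
        rw [hu, ← abs_mul, ← abs_mul, ← abs_mul]
        congr 1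
        simp only [slope', kcut, htdef]
        ring
    _ ≤ 1 * (L * t) * u *
          (2 ^ (n + 1) * (t ^ (n + 1))⁻¹ * (δ + if t < 2 * δ then 1 else 0)) := by
        gcongr
    _ = 2 ^ (n + 1) * L * (δ * (t * u * (t ^ (n + 1))⁻¹) +
          (if t < 2 * δ then 1 else 0) * (t * u * (t ^ (n + 1))⁻¹)) := by ring
    _ ≤ 2 ^ (n + 1) * L *
          ((δ * (t / t ^ n) + √δ * ((h q.1 - h q.2) ^ 2 / t ^ (n + 1))) / 2 +
          ((√δ)⁻¹ * (if t < 2 * δ then t / t ^ n else 0) +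
            √δ * ((h q.1 - h q.2) ^ 2 / t ^ (n + 1))) / 2) := by
        gcongr
        · have hds : δ ≤ √δ := Real.le_sqrt_of_sq_le (by nlinarith)
          have h1 := mul_le_mul_of_nonneg_left (am 1 one_pos) hδ.le
          have h2 := mul_le_mul_of_nonneg_right hds hG
          rw [one_mul, inv_one, one_mul] at h1
          linarith
        · split_ifs with hc
          · rw [one_mul]
            have h1 := am (√δ)⁻¹ (inv_pos.2 hs)
            rwa [inv_inv] at h1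
          · rw [zero_mul]
            positivity
    _ = _ := by ring

/-- The pairing is that of the kernel of the projection, up to `√δ`. -/
theorem compare (n N : ℕ) (C₀ Cg E W : ℝ) (L : ℝ≥0) (hW : 1 ≤ W) :
    ∃ K : ℝ, ∀ (m : Measure (Sp N)) [IsLocallyFiniteMeasure m] (h : Sp N → ℝ) (D : ℝ),
      Heights n m h C₀ Cg D →
      ∫ q in ball 0 W ×ˢ ball 0 W, (h q.1 - h q.2) ^ 2 / ‖q.1 - q.2‖ ^ (n + 1) ∂m.prod m ≤ E →
      ∀ (p : Sp N → Sp n), Continuous p → (∀ y z, ‖p y - p z‖ ≤ ‖y - z‖) →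
      ∀ (f : Sp N → ℝ), LipschitzWith L f →
      ∀ (β : Sp N × Sp N → ℝ), Measurable β → (∀ q, |β q| ≤ 1) →
      ∀ δ : ℝ, 0 < δ → δ ≤ 1 →
        (∀ᵐ q ∂(m.prod m).restrict (ball 0 W ×ˢ ball 0 W),
          ‖q.1 - q.2‖ ≤ ‖p q.1 - p q.2‖ + δ ^ 2) →
        |(∫ q in ball 0 W ×ˢ ball 0 W, β q * (f q.1 - f q.2) * slope' n h q ∂m.prod m) -
          ∫ q in ball 0 W ×ˢ ball 0 W,
            β q * (f q.1 - f q.2) * ((h q.1 - h q.2) * kcut n δ (p q.1 - p q.2)) ∂m.prod m| ≤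
          K * √δ := by
  refine ⟨2 ^ (n + 1) * L * (C₀ * W ^ n * Cg * (W + 1) + E), ?_⟩
  intro m _ h D H hE p hpc hp f hf β hβm hβ δ hδ hδ1 hae
  have hW0 : (0 : ℝ) < W := by linarith
  have hs : 0 < √δ := Real.sqrt_pos.2 hδ
  have hgag : Integrable (fun q : Sp N × Sp N => (h q.1 - h q.2) ^ 2 / ‖q.1 - q.2‖ ^ (n + 1))
      ((m.restrict (ball 0 W)).prod (m.restrict (ball 0 W))) := by
    rw [Measure.prod_restrict]
    exact H.gag W
  rw [← Measure.prod_restrict] at hae hE ⊢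
  obtain ⟨i1, v1⟩ := near_prod H hW0 (by linarith : 0 < 2 * W)
  obtain ⟨i2, v2⟩ := near_prod H hW0 (by linarith : 0 < 2 * δ)
  set μ := (m.restrict (ball 0 W)).prod (m.restrict (ball 0 W)) with hμ
  have hball : ∀ᵐ q ∂μ, ‖q.1 - q.2‖ < 2 * W := by
    have h1 : ∀ᵐ q : Sp N × Sp N ∂μ, q.1 ∈ ball (0 : Sp N) W :=
      Measure.quasiMeasurePreserving_fst.ae (ae_restrict_mem measurableSet_ball)
    have h2 : ∀ᵐ q : Sp N × Sp N ∂μ, q.2 ∈ ball (0 : Sp N) W :=
      Measure.quasiMeasurePreserving_snd.ae (ae_restrict_mem measurableSet_ball)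
    filter_upwards [h1, h2] with q a b
    rw [mem_ball_zero_iff] at a b
    linarith [norm_sub_le q.1 q.2]
  have hL : (0 : ℝ) ≤ L := L.2
  have hfm : Measurable f := hf.continuous.measurable
  have hpm : Measurable p := hpc.measurable
  have hhm : Measurable h := H.meas
  have hkm : Measurable (kcut n δ) := (continuous_kcut hδ).measurable
  set A : Sp N × Sp N → ℝ := fun q => β q * (f q.1 - f q.2) * slope' n h q with hA
  set B : Sp N × Sp N → ℝ :=
    fun q => β q * (f q.1 - f q.2) * ((h q.1 - h q.2) * kcut n δ (p q.1 - p q.2)) with hB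
  set T : Sp N × Sp N → ℝ :=
    fun q => if ‖q.1 - q.2‖ < 2 * W then ‖q.1 - q.2‖ / ‖q.1 - q.2‖ ^ n else 0 with hT
  set S : Sp N × Sp N → ℝ :=
    fun q => if ‖q.1 - q.2‖ < 2 * δ then ‖q.1 - q.2‖ / ‖q.1 - q.2‖ ^ n else 0 with hS
  set G : Sp N × Sp N → ℝ :=
    fun q => (h q.1 - h q.2) ^ 2 / ‖q.1 - q.2‖ ^ (n + 1) with hG
  have hdiff : ∀ᵐ q ∂μ, ‖A q - B q‖ ≤
      2 ^ (n + 1) * L / 2 * (δ * T q + (√δ)⁻¹ * S q + 2 * √δ * G q) := by
    filter_upwards [hball, hae] with q hq hq'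
    simp only [hT, if_pos hq, Real.norm_eq_abs]
    exact compare_point hf hδ hδ1 q (hβ q) (hp _ _) hq'
  have hAm : Measurable A := by
    simp only [hA, slope']
    fun_prop
  have hBm : Measurable B := by
    simp only [hB]
    fun_prop
  have hAi : Integrable A μ := by
    refine ((i1.add hgag).const_mul (L : ℝ)).mono' hAm.aestronglyMeasurable ?_
    filter_upwards [hball] with q hq
    simp only [Pi.add_apply, hT, hG, if_pos hq, hA, slope', Real.norm_eq_abs, abs_mul, abs_div, abs_pow,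
      abs_norm]
    rcases (norm_nonneg (q.1 - q.2)).eq_or_lt with h0 | ht
    · have e1 : q.1 = q.2 := sub_eq_zero.1 (norm_eq_zero.1 h0.symm)
      simp [e1]
    have hdf : |f q.1 - f q.2| ≤ L * ‖q.1 - q.2‖ := by
      rw [← Real.dist_eq, ← dist_eq_norm]
      exact hf.dist_le_mul _ _
    set t := ‖q.1 - q.2‖
    set u := |h q.1 - h q.2| with hu
    calc |β q| * |f q.1 - f q.2| * (u / t ^ (n + 1))
        ≤ 1 * (L * t) * (u / t ^ (n + 1)) := by gcongr; exact hβ q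
      _ = L * (t * u / t ^ (n + 1)) := by ring
      _ ≤ L * ((t ^ 2 + u ^ 2) / t ^ (n + 1)) := by
          gcongr
          nlinarith [sq_nonneg (t - u), abs_nonneg (h q.1 - h q.2)]
      _ = _ := by
          rw [hu, sq_abs, add_div]
          congr 2
          rw [pow_succ t n]
          field_simp
  have hDi : Integrable (fun q => A q - B q) μ :=
    ((((i1.const_mul δ).add (i2.const_mul (√δ)⁻¹)).add (hgag.const_mul (2 * √δ))).const_mul
      (2 ^ (n + 1) * (L : ℝ) / 2)).mono' (hAm.sub hBm).aestronglyMeasurable hdiff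
  have hBi : Integrable B μ := by
    refine (hAi.sub hDi).congr (Eventually.of_forall fun q => ?_)
    simp only [Pi.sub_apply]
    ring
  rw [← integral_sub hAi hBi, ← Real.norm_eq_abs]
  have hI : Integrable (fun q => δ * T q + (√δ)⁻¹ * S q + 2 * √δ * G q) μ :=
    ((i1.const_mul δ).add (i2.const_mul (√δ)⁻¹)).add (hgag.const_mul (2 * √δ))
  refine (norm_integral_le_of_norm_le (hI.const_mul (2 ^ (n + 1) * (L : ℝ) / 2)) hdiff).trans ?_
  have hTS : Integrable (fun q => δ * T q + (√δ)⁻¹ * S q) μ :=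
    (i1.const_mul δ).add (i2.const_mul (√δ)⁻¹)
  rw [integral_const_mul, integral_add hTS (hgag.const_mul (2 * √δ)),
    integral_add (i1.const_mul δ) (i2.const_mul (√δ)⁻¹), integral_const_mul, integral_const_mul,
    integral_const_mul]
  have hMC : 0 ≤ C₀ * W ^ n := measureReal_nonneg.trans (H.mass 0 W hW0)
  have hCg : 0 ≤ Cg := by
    have := (setIntegral_nonneg (μ := m) measurableSet_ball fun z _ =>
      (by positivity : (0 : ℝ) ≤ ‖(0 : Sp N) - z‖ / ‖(0 : Sp N) - z‖ ^ n)).trans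
      (H.near 0 1 one_pos).2
    linarith
  have hds : δ ≤ √δ := Real.le_sqrt_of_sq_le (by nlinarith)
  have h1 : (√δ)⁻¹ * δ = √δ := by
    rw [inv_mul_eq_iff_eq_mul₀ hs.ne', Real.mul_self_sqrt hδ.le]
  have e2 : (√δ)⁻¹ * (C₀ * W ^ n * (Cg * (2 * δ))) = 2 * (C₀ * W ^ n * Cg) * √δ := by
    calc (√δ)⁻¹ * (C₀ * W ^ n * (Cg * (2 * δ)))
        = 2 * (C₀ * W ^ n * Cg) * ((√δ)⁻¹ * δ) := by ring
      _ = _ := by rw [h1]
  have b1 : δ * ∫ q, T q ∂μ ≤ 2 * (C₀ * W ^ n * Cg) * W * √δ := by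
    refine (mul_le_mul_of_nonneg_left v1 hδ.le).trans ?_
    calc δ * (C₀ * W ^ n * (Cg * (2 * W))) = 2 * (C₀ * W ^ n * Cg) * W * δ := by ring
      _ ≤ _ := by gcongr
  have b2 : (√δ)⁻¹ * ∫ q, S q ∂μ ≤ 2 * (C₀ * W ^ n * Cg) * √δ :=
    (mul_le_mul_of_nonneg_left v2 (by positivity)).trans_eq e2
  have b3 : 2 * √δ * ∫ q, G q ∂μ ≤ 2 * √δ * E := mul_le_mul_of_nonneg_left hE (by positivity)
  calc 2 ^ (n + 1) * (L : ℝ) / 2 *
        (δ * (∫ q, T q ∂μ) + (√δ)⁻¹ * (∫ q, S q ∂μ) + 2 * √δ * ∫ q, G q ∂μ)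
      ≤ 2 ^ (n + 1) * (L : ℝ) / 2 * (2 * (C₀ * W ^ n * Cg) * W * √δ +
          2 * (C₀ * W ^ n * Cg) * √δ + 2 * √δ * E) := by gcongr
    _ = _ := by ring

end Vale.Agent.P120
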