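import Vale.Agent.P120.Improve.Pairs
import Vale.Agent.P120.Linear.Base

/-!
# P120: the pairing as a weighted double integral over a large ball
-/

open MeasureTheory Metric Filter
open scoped ENNReal NNReal Topology

namespace Vale.Agent.P120

open Linear (cover_bound inv_pow_sub_le)

variable {n N : ℕ}

namespace SplitAux

lemma ball_mass {m : Measure (Sp N)} {h : Sp N → ℝ} {C₀ Cg D : ℝ}
    (H : Heights n m h C₀ Cg D) {X : ℝ} (hX : 0 < X) :
    m.real (ball 0 X) ≤ |C₀| * X ^ n :=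
  (H.mass 0 X hX).trans (mul_le_mul_of_nonneg_right (le_abs_self _) (by positivity))

lemma abs_height {m : Measure (Sp N)} [IsLocallyFiniteMeasure m] {h : Sp N → ℝ} {C₀ Cg D : ℝ}
    (H : Heights n m h C₀ Cg D) {X : ℝ} (hX : 1 ≤ X) :
    ∫ y in ball 0 X, |h y| ∂m ≤ (|C₀| + |D|) * (√X * X ^ (n + 1)) := by
  have hX0 : (0 : ℝ) < X := by linarith
  obtain ⟨hi, hm⟩ := H.moment X hX
  set t : ℝ := √X * X with ht
  have ht0 : 0 < t := by positivity
  have hc : IntegrableOn (fun _ : Sp N => t) (ball 0 X) m :=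
    integrableOn_const measure_ball_lt_top.ne
  calc ∫ y in ball 0 X, |h y| ∂m ≤ ∫ y in ball 0 X, (t + t⁻¹ * h y ^ 2) ∂m := by
        refine setIntegral_mono (H.abs_int X) (hc.add (hi.const_mul _)) fun y => ?_
        rw [← sub_nonneg]
        have e : t + t⁻¹ * h y ^ 2 - |h y| = t⁻¹ * (t * t + h y ^ 2 - t * |h y|) := by field_simp
        rw [e]
        refine mul_nonneg (by positivity) ?_
        nlinarith [sq_nonneg (t - |h y|), sq_abs (h y), mul_nonneg ht0.le (abs_nonneg (h y))]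
    _ = m.real (ball 0 X) * t + t⁻¹ * ∫ y in ball 0 X, h y ^ 2 ∂m := by
        rw [integral_add hc (hi.const_mul _), setIntegral_const, integral_const_mul, smul_eq_mul]
    _ ≤ |C₀| * X ^ n * t + t⁻¹ * (|D| * X ^ (n + 3)) := by
        gcongr
        · exact ball_mass H hX0
        · exact hm.trans (mul_le_mul_of_nonneg_right (le_abs_self _) (by positivity))
    _ = _ := by
        have hs : √X * √X = X := Real.mul_self_sqrt hX0.le
        have hs0 : (0 : ℝ) < √X := Real.sqrt_pos.2 hX0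
        have e : t⁻¹ * (|D| * X ^ (n + 3)) = |D| * (√X * X ^ (n + 1)) := by
          rw [inv_mul_eq_iff_eq_mul₀ ht0.ne', ht]
          linear_combination (-(|D| * X ^ (n + 2))) * hs
        rw [e, ht]; ring

lemma shell {m : Measure (Sp N)} [IsLocallyFiniteMeasure m] {g : Sp N → ℝ} (hg : Measurable g)
    (h0 : ∀ z, 0 ≤ g z) (j : ℕ) {A c X : ℝ} (hX0 : 0 < X) (hc : 0 ≤ c) (hc1 : c < 1)
    (hi : ∀ Y : ℝ, IntegrableOn g (ball 0 Y) m)
    (hb : ∀ k : ℕ, (∫ z in ball 0 (2 * (2 ^ k * X)), g z ∂m) / (2 ^ k * X) ^ j ≤ A * c ^ k) :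
    IntegrableOn (fun z => g z / ‖z‖ ^ j) (ball 0 X)ᶜ m ∧
      ∫ z in (ball 0 X)ᶜ, g z / ‖z‖ ^ j ∂m ≤ A * (1 - c)⁻¹ := by
  have key : ∀ k : ℕ, IntegrableOn (fun z => g z / ‖z‖ ^ j)
      (ball 0 (2 * (2 ^ k * X)) \ ball (0 : Sp N) (2 ^ k * X)) m ∧
      ∫ z in ball 0 (2 * (2 ^ k * X)) \ ball (0 : Sp N) (2 ^ k * X), g z / ‖z‖ ^ j ∂m
        ≤ A * c ^ k := by
    intro k
    have hk : 0 < 2 ^ k * X := by positivity
    have hd : ∀ z ∈ ball 0 (2 * (2 ^ k * X)) \ ball (0 : Sp N) (2 ^ k * X),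
        g z / ‖z‖ ^ j ≤ g z / (2 ^ k * X) ^ j := by
      intro z hz
      have : 2 ^ k * X ≤ ‖z‖ := not_lt.1 fun hlt => hz.2 (mem_ball_zero_iff.2 hlt)
      gcongr
      exact h0 z
    have hi' := ((hi (2 * (2 ^ k * X))).mono_set
      (Set.sdiff_subset (t := ball (0 : Sp N) (2 ^ k * X)))).div_const ((2 ^ k * X) ^ j)
    have hiS : IntegrableOn (fun z => g z / ‖z‖ ^ j)
        (ball 0 (2 * (2 ^ k * X)) \ ball (0 : Sp N) (2 ^ k * X)) m := by
      refine hi'.mono' (hg.div (by fun_prop)).aestronglyMeasurable ?_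
      filter_upwards [ae_restrict_mem (measurableSet_ball.diff measurableSet_ball)] with z hz
      rw [Real.norm_of_nonneg (div_nonneg (h0 z) (by positivity))]
      exact hd z hz
    refine ⟨hiS, (setIntegral_mono_on hiS hi' (measurableSet_ball.diff measurableSet_ball) hd).trans
      ((le_of_eq (integral_div _ _)).trans (le_trans ?_ (hb k)))⟩
    refine div_le_div_of_nonneg_right ?_ (by positivity)
    exact setIntegral_mono_set (hi _) (Eventually.of_forall h0) Set.sdiff_subset.eventuallyLE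
  have hcov : (ball (0 : Sp N) X)ᶜ ⊆
      ⋃ k : ℕ, ball 0 (2 * (2 ^ k * X)) \ ball (0 : Sp N) (2 ^ k * X) := by
    intro z hz
    have hzR : X ≤ ‖z‖ := not_lt.1 fun hlt => hz (mem_ball_zero_iff.2 hlt)
    obtain ⟨k, hk1, hk2⟩ := exists_nat_pow_near ((one_le_div hX0).2 hzR) (one_lt_two (α := ℝ))
    rw [le_div_iff₀ hX0] at hk1
    rw [div_lt_iff₀ hX0, pow_succ] at hk2
    refine Set.mem_iUnion.2 ⟨k, mem_ball_zero_iff.2 (by linarith), fun hlt => ?_⟩
    rw [mem_ball_zero_iff] at hlt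
    linarith
  obtain ⟨h1, h2⟩ := cover_bound (m := m) (g := fun z => g z / ‖z‖ ^ j)
    (hg.div (by fun_prop)).aestronglyMeasurable
    (fun z => div_nonneg (h0 z) (by positivity)) hcov.eventuallyLE
    ((summable_geometric_of_lt_one hc hc1).mul_left _) key
  refine ⟨h1, h2.trans_eq ?_⟩
  rw [tsum_mul_left, tsum_geometric_of_lt_one hc hc1]

variable {m : Measure (Sp N)} [IsLocallyFiniteMeasure m] {h : Sp N → ℝ} {C₀ Cg D : ℝ}

lemma tails (H : Heights n m h C₀ Cg D) {X : ℝ} (hX : 1 ≤ X) :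
    (IntegrableOn (fun z => 1 / ‖z‖ ^ (n + 1)) (ball 0 X)ᶜ m ∧
      ∫ z in (ball 0 X)ᶜ, 1 / ‖z‖ ^ (n + 1) ∂m ≤ |C₀| * 2 ^ n * 2 / √X) ∧
    IntegrableOn (fun z => |h z| / ‖z‖ ^ (n + 2)) (ball 0 X)ᶜ m ∧
      ∫ z in (ball 0 X)ᶜ, |h z| / ‖z‖ ^ (n + 2) ∂m ≤
        (|C₀| + |D|) * √2 * 2 ^ (n + 1) * (1 - √2 / 2)⁻¹ / √X := by
  have hX0 : 0 < X := by linarith
  have hsX : √X * √X = X := Real.mul_self_sqrt hX0.le
  have hsX1 : 1 ≤ √X := Real.one_le_sqrt.2 hX
  have h2 : √2 * √2 = 2 := Real.mul_self_sqrt (by norm_num)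
  have h2' : √2 < 2 := by nlinarith [Real.sqrt_nonneg (2 : ℝ)]
  constructor
  · obtain ⟨ha, hb⟩ := shell (m := m) (g := fun _ => (1 : ℝ)) measurable_const
      (fun _ => zero_le_one) (n + 1) (A := |C₀| * 2 ^ n / √X) (c := 1 / 2) hX0
      (by norm_num) (by norm_num) (fun Y => integrableOn_const measure_ball_lt_top.ne) fun k => by
        rw [setIntegral_const, smul_eq_mul, mul_one]
        refine (div_le_div_of_nonneg_right (ball_mass H (by positivity)) (by positivity)).trans ?_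
        calc |C₀| * (2 * (2 ^ k * X)) ^ n / (2 ^ k * X) ^ (n + 1)
            = |C₀| * 2 ^ n / X * (1 / 2) ^ k := by
              simp only [mul_pow, pow_succ, div_pow, one_pow]; field_simp
          _ ≤ |C₀| * 2 ^ n / √X * (1 / 2) ^ k := by
              refine mul_le_mul_of_nonneg_right ?_ (by positivity)
              gcongr
              nlinarith
    exact ⟨ha, hb.trans_eq (by ring)⟩
  · obtain ⟨ha, hb⟩ := shell (m := m) (g := fun z => |h z|)
      (continuous_abs.measurable.comp H.meas) (fun z => abs_nonneg _) (n + 2)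
      (A := (|C₀| + |D|) * √2 * 2 ^ (n + 1) / √X) (c := √2 / 2) hX0 (by positivity)
      (by linarith) (fun Y => H.abs_int Y) fun k => by
        have hk1 : (1 : ℝ) ≤ 2 ^ k := one_le_pow₀ (by norm_num)
        refine (div_le_div_of_nonneg_right (abs_height H (by nlinarith)) (by positivity)).trans
          (le_of_eq ?_)
        have hs : √(2 * (2 ^ k * X)) = √2 * √2 ^ k * √X := by
          rw [Real.sqrt_eq_iff_eq_sq (by positivity) (by positivity), mul_pow, mul_pow, ← pow_mul,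
            mul_comm k 2, pow_mul, Real.sq_sqrt (by norm_num : (0 : ℝ) ≤ 2), Real.sq_sqrt hX0.le]
          ring
        rw [hs]
        simp only [mul_pow, div_pow, pow_succ]
        field_simp
        linear_combination (|C₀| + |D|) * hsX
    exact ⟨ha, hb.trans_eq (by ring)⟩

lemma tails_int (H : Heights n m h C₀ Cg D) {X : ℝ} (hX : 0 < X) :
    IntegrableOn (fun z => 1 / ‖z‖ ^ (n + 1)) (ball 0 X)ᶜ m ∧
      IntegrableOn (fun z => |h z| / ‖z‖ ^ (n + 2)) (ball 0 X)ᶜ m := by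
  obtain ⟨⟨t1, -⟩, t2, -⟩ := tails H (le_refl (1 : ℝ))
  have key : ∀ (g : Sp N → ℝ) (j : ℕ), Measurable g → (∀ z, 0 ≤ g z) → IntegrableOn g (ball 0 1) m →
      IntegrableOn (fun z => g z / ‖z‖ ^ j) (ball 0 1)ᶜ m →
      IntegrableOn (fun z => g z / ‖z‖ ^ j) (ball 0 X)ᶜ m := by
    intro g j hg h0 h1 h2
    have h3 : IntegrableOn (fun z => g z / ‖z‖ ^ j) (ball 0 1 \ ball 0 X) m := by
      refine ((h1.mono_set Set.sdiff_subset).div_const (X ^ j)).mono'
        (hg.div (by fun_prop)).aestronglyMeasurable ?_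
      filter_upwards [ae_restrict_mem (measurableSet_ball.diff measurableSet_ball)] with z hz
      have : X ≤ ‖z‖ := not_lt.1 fun hlt => hz.2 (mem_ball_zero_iff.2 hlt)
      rw [Real.norm_of_nonneg (div_nonneg (h0 z) (by positivity))]
      gcongr
      exact h0 z
    refine (h2.union h3).mono_set fun z hz => ?_
    by_cases h' : z ∈ ball (0 : Sp N) 1
    · exact Or.inr ⟨h', hz⟩
    · exact Or.inl h'
  exact ⟨key _ _ measurable_const (fun _ => zero_le_one)
    (integrableOn_const measure_ball_lt_top.ne) t1,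
    key _ _ (continuous_abs.measurable.comp H.meas) (fun z => abs_nonneg _) (H.abs_int 1) t2⟩

lemma kernel_bound {R : ℝ} {y z : Sp N} (hy : ‖y‖ ≤ R) (hz : 2 * R ≤ ‖z‖)
    (hz0 : 0 < ‖z‖) (h : Sp N → ℝ) :
    |slope' n h (y, z) + h z / ‖z‖ ^ (n + 1)| ≤
      2 ^ (n + 1) * |h y| * (1 / ‖z‖ ^ (n + 1)) +
        (n + 1 : ℕ) * 16 ^ (n + 1) * R * (|h z| / ‖z‖ ^ (n + 2)) := by
  have h1 := norm_sub_norm_le z y
  have h2 := norm_sub_le y z
  rw [norm_sub_rev] at h1
  have ha : 0 < ‖y - z‖ := by linarith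
  have e : slope' n h (y, z) + h z / ‖z‖ ^ (n + 1) = h y * (‖y - z‖ ^ (n + 1))⁻¹ -
      h z * ((‖y - z‖ ^ (n + 1))⁻¹ - (‖z‖ ^ (n + 1))⁻¹) := by
    simp only [slope', div_eq_mul_inv]; ring
  rw [e]
  refine (abs_sub _ _).trans (add_le_add ?_ ?_)
  · rw [abs_mul, abs_inv, abs_of_pos (pow_pos ha _)]
    refine (mul_le_mul_of_nonneg_left (inv_anti₀ (by positivity)
      (pow_le_pow_left₀ (by positivity) (show ‖z‖ / 2 ≤ ‖y - z‖ by linarith) _))
      (abs_nonneg _)).trans_eq ?_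
    rw [div_pow, inv_div]; ring
  · rw [abs_mul]
    refine (mul_le_mul_of_nonneg_left (inv_pow_sub_le ha hz0 (by linarith) (by linarith) (n + 1))
      (abs_nonneg _)).trans ?_
    have h3 : |‖y - z‖ - ‖z‖| ≤ R := by rw [abs_le]; constructor <;> linarith
    have h4 : 0 ≤ |h z| * (((n + 1 : ℕ) : ℝ) * 16 ^ (n + 1)) / ‖z‖ ^ (n + 1 + 1) := by positivity
    calc |h z| * (((n + 1 : ℕ) : ℝ) * 16 ^ (n + 1) * |‖y - z‖ - ‖z‖| / ‖z‖ ^ (n + 1 + 1))
        = |h z| * (((n + 1 : ℕ) : ℝ) * 16 ^ (n + 1)) / ‖z‖ ^ (n + 1 + 1) * |‖y - z‖ - ‖z‖| := by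
          ring
      _ ≤ |h z| * (((n + 1 : ℕ) : ℝ) * 16 ^ (n + 1)) / ‖z‖ ^ (n + 1 + 1) * R :=
          mul_le_mul_of_nonneg_left h3 h4
      _ = _ := by ring

lemma measurable_slope (hh : Measurable h) : Measurable (slope' n h) := by
  unfold slope'
  exact ((hh.comp measurable_fst).sub (hh.comp measurable_snd)).div (by fun_prop)

/-- The near part is integrable. -/
lemma near_int (H : Heights n m h C₀ Cg D) {f : Sp N → ℝ} {L : ℝ≥0} (hf : LipschitzWith L f)
    {W : ℝ} (hW : 0 < W) :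
    IntegrableOn (fun q : Sp N × Sp N => (f q.1 - f q.2) * slope' n h q)
      (ball 0 W ×ˢ ball 0 W) (m.prod m) := by
  have hfin : IsFiniteMeasure (m.restrict (ball 0 W)) :=
    isFiniteMeasure_restrict.2 measure_ball_lt_top.ne
  have hsub : ∀ y ∈ ball (0 : Sp N) W, ball (0 : Sp N) W ⊆ ball y (2 * W) := fun y hy z hz => by
    simp only [mem_ball_zero_iff] at hy hz
    rw [mem_ball, dist_eq_norm]
    linarith [norm_sub_le z y]
  have hk : IntegrableOn (fun q : Sp N × Sp N => ‖q.1 - q.2‖ / ‖q.1 - q.2‖ ^ n)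
      (ball 0 W ×ˢ ball 0 W) (m.prod m) := by
    have hm : AEStronglyMeasurable (fun q : Sp N × Sp N => ‖q.1 - q.2‖ / ‖q.1 - q.2‖ ^ n)
        ((m.restrict (ball 0 W)).prod (m.restrict (ball 0 W))) :=
      (by fun_prop : Measurable fun q : Sp N × Sp N =>
        ‖q.1 - q.2‖ / ‖q.1 - q.2‖ ^ n).aestronglyMeasurable
    rw [IntegrableOn, ← Measure.prod_restrict, integrable_prod_iff hm]
    constructor
    · filter_upwards [ae_restrict_mem measurableSet_ball] with y hy
      exact (H.near y (2 * W) (by linarith)).1.mono_set (hsub y hy)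
    · refine Integrable.mono' (integrable_const (Cg * (2 * W)))
        hm.norm.integral_prod_right' ?_
      filter_upwards [ae_restrict_mem measurableSet_ball] with y hy
      obtain ⟨hi, hb⟩ := H.near y (2 * W) (by linarith)
      have e : ∀ z, ‖(‖y - z‖ / ‖y - z‖ ^ n)‖ = ‖y - z‖ / ‖y - z‖ ^ n := fun z =>
        Real.norm_of_nonneg (by positivity)
      simp only [e]
      rw [Real.norm_of_nonneg (integral_nonneg fun z => by positivity)]
      exact (setIntegral_mono_set hi (Eventually.of_forall fun z => by positivity)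
        (hsub y hy).eventuallyLE).trans hb
  refine Integrable.mono' (((H.gag W).add hk).const_mul (L : ℝ))
    (((hf.continuous.measurable.comp measurable_fst).sub
      (hf.continuous.measurable.comp measurable_snd)).mul
        (measurable_slope H.meas)).aestronglyMeasurable ?_
  refine Eventually.of_forall fun q => ?_
  simp only [Pi.add_apply, Real.norm_eq_abs, abs_mul]
  have h1 : |f q.1 - f q.2| ≤ L * ‖q.1 - q.2‖ := by
    have := hf.dist_le_mul q.1 q.2
    rwa [Real.dist_eq, dist_eq_norm] at this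
  refine (mul_le_mul_of_nonneg_right h1 (abs_nonneg _)).trans ?_
  rw [mul_assoc]
  refine mul_le_mul_of_nonneg_left ?_ L.coe_nonneg
  set a := ‖q.1 - q.2‖ with hadef
  have ha0 : 0 ≤ a := norm_nonneg _
  rcases ha0.eq_or_lt with ha | ha
  · rw [← ha]; simp
  · rw [slope', ← hadef, abs_div, abs_of_pos (pow_pos ha _)]
    set d := h q.1 - h q.2
    have e1 : a * (|d| / a ^ (n + 1)) = a * |d| / a ^ (n + 1) := by ring
    have e2 : a / a ^ n = a ^ 2 / a ^ (n + 1) := by field_simp; ring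
    rw [e1, e2, ← add_div]
    refine div_le_div_of_nonneg_right ?_ (by positivity)
    nlinarith [sq_nonneg (a - |d|), sq_abs d, mul_nonneg ha.le (abs_nonneg d)]

/-- The far part, with a weight vanishing on `B (0, S)`. -/
lemma far (H : Heights n m h C₀ Cg D) {f : Sp N → ℝ} {R S M : ℝ} (hR : 0 < R) (hS : 2 * R ≤ S)
    (hf : Measurable f) (hsupp : ∀ y, R ≤ ‖y‖ → f y = 0) (hM : ∀ y, |f y| ≤ M)
    {w : Sp N → ℝ} (hw : Measurable w) (hw1 : ∀ z, 0 ≤ w z ∧ w z ≤ 1)
    (hwS : ∀ z, ‖z‖ < S → w z = 0) :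
    IntegrableOn (fun q : Sp N × Sp N => w q.2 * (f q.1 * (slope' n h q + h q.2 / ‖q.2‖ ^ (n + 1))))
      (ball 0 (2 * R) ×ˢ (ball 0 (2 * R))ᶜ) (m.prod m) ∧ (1 ≤ S →
    |∫ q in ball 0 (2 * R) ×ˢ (ball 0 (2 * R))ᶜ,
        w q.2 * (f q.1 * (slope' n h q + h q.2 / ‖q.2‖ ^ (n + 1))) ∂m.prod m| ≤
      (|M| * ((|C₀| + |D|) * (√(max (2 * R) 1) * max (2 * R) 1 ^ (n + 1))) *
        (2 ^ (n + 1) * (|C₀| * 2 ^ n * 2)) +
        |M| * (|C₀| * (2 * R) ^ n) * ((n + 1 : ℕ) * 16 ^ (n + 1) * R *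
          ((|C₀| + |D|) * √2 * 2 ^ (n + 1) * (1 - √2 / 2)⁻¹))) / √S) := by
  obtain ⟨t1i, t2i⟩ := tails_int H (show 0 < S by linarith)
  set T : Set (Sp N) := (ball 0 S)ᶜ with hT
  have hTm : MeasurableSet T := measurableSet_ball.compl
  set c : ℝ := ((n + 1 : ℕ) : ℝ) * 16 ^ (n + 1) * R with hc
  have hc0 : 0 ≤ c := by rw [hc]; positivity
  let P₁ : Sp N → ℝ := fun y => |M| * |h y|
  let Q₁ : Sp N → ℝ := T.indicator fun z => 2 ^ (n + 1) * (1 / ‖z‖ ^ (n + 1))
  let Q₂ : Sp N → ℝ := T.indicator fun z => c * (|h z| / ‖z‖ ^ (n + 2))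
  have hP₁ : Integrable P₁ (m.restrict (ball 0 (2 * R))) := (H.abs_int _).const_mul _
  have hfin : IsFiniteMeasure (m.restrict (ball (0 : Sp N) (2 * R))) :=
    isFiniteMeasure_restrict.2 measure_ball_lt_top.ne
  have hsub : T ⊆ (ball 0 (2 * R))ᶜ := Set.compl_subset_compl.2 (ball_subset_ball hS)
  have hQ₁ : Integrable Q₁ (m.restrict (ball 0 (2 * R))ᶜ) :=
    (IntegrableOn.integrable_indicator (t1i.const_mul _) hTm).restrict
  have hQ₂ : Integrable Q₂ (m.restrict (ball 0 (2 * R))ᶜ) :=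
    (IntegrableOn.integrable_indicator (t2i.const_mul _) hTm).restrict
  have hG : Integrable (fun q : Sp N × Sp N => P₁ q.1 * Q₁ q.2 + |M| * Q₂ q.2)
      ((m.restrict (ball 0 (2 * R))).prod (m.restrict (ball 0 (2 * R))ᶜ)) :=
    (hP₁.mul_prod hQ₁).add ((integrable_const |M|).mul_prod hQ₂)
  have hmeas : AEStronglyMeasurable
      (fun q : Sp N × Sp N => w q.2 * (f q.1 * (slope' n h q + h q.2 / ‖q.2‖ ^ (n + 1))))
      ((m.restrict (ball 0 (2 * R))).prod (m.restrict (ball 0 (2 * R))ᶜ)) :=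
    ((hw.comp measurable_snd).mul ((hf.comp measurable_fst).mul ((measurable_slope H.meas).add
      ((H.meas.comp measurable_snd).div (by fun_prop))))).aestronglyMeasurable
  have hle : ∀ q : Sp N × Sp N,
      ‖w q.2 * (f q.1 * (slope' n h q + h q.2 / ‖q.2‖ ^ (n + 1)))‖ ≤
        P₁ q.1 * Q₁ q.2 + |M| * Q₂ q.2 := by
    rintro ⟨y, z⟩
    simp only [P₁, Q₁, Q₂, Real.norm_eq_abs]
    by_cases hz : z ∈ T
    · rw [Set.indicator_of_mem hz, Set.indicator_of_mem hz]
      have hzS : S ≤ ‖z‖ := not_lt.1 fun hlt => hz (mem_ball_zero_iff.2 hlt)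
      by_cases hy : R ≤ ‖y‖
      · simp only [hsupp y hy, zero_mul, mul_zero, abs_zero]
        positivity
      · have hk := kernel_bound (n := n) (not_le.1 hy).le
          (show 2 * R ≤ ‖z‖ by linarith) (show 0 < ‖z‖ by linarith) h
        rw [abs_mul, abs_mul, abs_of_nonneg (hw1 z).1]
        calc w z * (|f y| * |slope' n h (y, z) + h z / ‖z‖ ^ (n + 1)|)
            ≤ 1 * (|M| * (2 ^ (n + 1) * |h y| * (1 / ‖z‖ ^ (n + 1)) +
              c * (|h z| / ‖z‖ ^ (n + 2)))) :=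
              mul_le_mul (hw1 z).2 (mul_le_mul ((hM y).trans (le_abs_self _)) hk (abs_nonneg _)
                (abs_nonneg _)) (by positivity) zero_le_one
          _ = _ := by ring
    · have hzS : ‖z‖ < S := mem_ball_zero_iff.1 (Set.notMem_compl_iff.1 hz)
      simp [hwS z hzS, Set.indicator_of_notMem hz]
  rw [IntegrableOn, ← Measure.prod_restrict]
  refine ⟨hG.mono' hmeas (Eventually.of_forall hle), fun hS1 => ?_⟩
  obtain ⟨⟨-, t1b⟩, -, t2b⟩ := tails H hS1
  rw [← Real.norm_eq_abs]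
  refine (norm_integral_le_of_norm_le hG (Eventually.of_forall hle)).trans ?_
  rw [integral_add (hP₁.mul_prod hQ₁) ((integrable_const |M|).mul_prod hQ₂), integral_prod_mul,
    integral_prod_mul (fun _ : Sp N => |M|) Q₂, integral_const, smul_eq_mul,
    measureReal_restrict_apply_univ, add_div]
  have hS0 : 0 < √S := Real.sqrt_pos.2 (by linarith)
  refine add_le_add ?_ ?_
  · rw [mul_div_assoc]
    refine mul_le_mul ?_ ?_ (integral_nonneg fun z => Set.indicator_nonneg (fun z _ => by positivity) z)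
      (by positivity)
    · rw [integral_const_mul]
      exact mul_le_mul_of_nonneg_left ((setIntegral_mono_set (H.abs_int _)
        (Eventually.of_forall fun y => abs_nonneg _)
        (ball_subset_ball (le_max_left _ _)).eventuallyLE).trans
        (abs_height H (le_max_right _ _))) (abs_nonneg _)
    · simp only [Q₁]
      rw [setIntegral_indicator hTm, Set.inter_eq_right.2 hsub, integral_const_mul, mul_div_assoc]
      exact mul_le_mul_of_nonneg_left t1b (by positivity)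
  · rw [mul_div_assoc]
    refine mul_le_mul ?_ ?_ (integral_nonneg fun z => Set.indicator_nonneg (fun z _ => by positivity) z)
      (by positivity)
    · rw [mul_comm |M|]
      exact mul_le_mul_of_nonneg_right (ball_mass H (by linarith)) (abs_nonneg _)
    · simp only [Q₂]
      rw [setIntegral_indicator hTm, Set.inter_eq_right.2 hsub, integral_const_mul, mul_div_assoc]
      exact mul_le_mul_of_nonneg_left t2b hc0

end SplitAux

open SplitAux in
/-- The pairing is the weighted double integral over any `B (0, W)`, `2 S ≤ W`, up to `K / √S`. -/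
theorem split (n N : ℕ) (C₀ D R M : ℝ) (hR : 0 < R) : ∃ K : ℝ,
    ∀ (m : Measure (Sp N)) [IsLocallyFiniteMeasure m] (h : Sp N → ℝ) (Cg : ℝ),
    Heights n m h C₀ Cg D → ∀ (f : Sp N → ℝ) (L : ℝ≥0), LipschitzWith L f →
    (∀ y, R ≤ ‖y‖ → f y = 0) → (∀ y, |f y| ≤ M) → ∫ y, f y ∂m = 0 →
    ∀ S : ℝ, 2 * R + 1 ≤ S → ∀ W : ℝ, 2 * S ≤ W → ∀ b : Sp N → ℝ, Measurable b → (∀ y, 0 ≤ b y ∧ b y ≤ 1) →
    (∀ y, ‖y‖ ≤ S → b y = 1) →
    |Jform n m h R f - 2⁻¹ * ∫ q in ball 0 W ×ˢ ball 0 W,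
        b q.1 * b q.2 * (f q.1 - f q.2) * slope' n h q ∂m.prod m| ≤ K / √S := by
  refine ⟨|M| * ((|C₀| + |D|) * (√(max (2 * R) 1) * max (2 * R) 1 ^ (n + 1))) *
      (2 ^ (n + 1) * (|C₀| * 2 ^ n * 2)) +
      |M| * (|C₀| * (2 * R) ^ n) * ((n + 1 : ℕ) * 16 ^ (n + 1) * R *
        ((|C₀| + |D|) * √2 * 2 ^ (n + 1) * (1 - √2 / 2)⁻¹)), ?_⟩
  intro m _ h Cg H f L hf hsupp hM hzero S hS ρ hρ b hb hb01 hb1
  set B : Set (Sp N) := ball 0 (2 * R) with hB
  set W : Set (Sp N) := ball 0 ρ with hW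
  set C : Set (Sp N) := W \ B with hC
  have hBW : B ⊆ W := ball_subset_ball (by linarith)
  have hBm : MeasurableSet B := measurableSet_ball
  have hWm : MeasurableSet W := measurableSet_ball
  have hCm : MeasurableSet C := hWm.diff hBm
  have hCB : C ⊆ Bᶜ := fun z hz => hz.2
  have hfB : ∀ z ∈ C, f z = 0 := fun z hz => hsupp z (by
    have : 2 * R ≤ ‖z‖ := not_lt.1 fun hlt => hz.2 (mem_ball_zero_iff.2 hlt)
    linarith)
  have hbB : ∀ y ∈ B, b y = 1 := fun y hy => hb1 y (by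
    have := mem_ball_zero_iff.1 hy; linarith)
  set Φ : Sp N × Sp N → ℝ := fun q => (f q.1 - f q.2) * slope' n h q with hΦ
  set Δ : Sp N × Sp N → ℝ := fun q => f q.1 * (slope' n h q + h q.2 / ‖q.2‖ ^ (n + 1)) with hΔ
  set k : Sp N → ℝ := fun z => b z * (h z / ‖z‖ ^ (n + 1)) with hk
  set Ψ : Sp N × Sp N → ℝ := fun q => b q.1 * b q.2 * (f q.1 - f q.2) * slope' n h q with hΨ
  have hΦi : IntegrableOn Φ (W ×ˢ W) (m.prod m) := near_int H hf (by linarith)
  have hΨi : IntegrableOn Ψ (W ×ˢ W) (m.prod m) := by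
    refine hΦi.norm.mono' (((hb.comp measurable_fst).mul (hb.comp measurable_snd)).mul
      ((hf.continuous.measurable.comp measurable_fst).sub
        (hf.continuous.measurable.comp measurable_snd)) |>.mul
        (measurable_slope H.meas)).aestronglyMeasurable (Eventually.of_forall fun q => ?_)
    simp only [hΨ, hΦ, mul_assoc, Real.norm_eq_abs, abs_mul, abs_of_nonneg (hb01 q.1).1,
      abs_of_nonneg (hb01 q.2).1]
    exact (mul_le_of_le_one_left (by
      have := (hb01 q.2).1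
      positivity) (hb01 q.1).2).trans
      (mul_le_of_le_one_left (by positivity) (hb01 q.2).2)
  -- the far integrands
  obtain ⟨hΔi', -⟩ := far H (S := 2 * R) hR le_rfl hf.continuous.measurable hsupp hM
    (w := fun z => Bᶜ.indicator (fun _ => 1) z) (measurable_const.indicator hBm.compl)
    (fun z => ⟨Set.indicator_nonneg (fun _ _ => zero_le_one) z,
      Set.indicator_le_self' (fun _ _ => zero_le_one) z⟩)
    (fun z hz => Set.indicator_of_notMem (Set.notMem_compl_iff.2 (mem_ball_zero_iff.2 hz)) _)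
  have hΔi : IntegrableOn Δ (B ×ˢ Bᶜ) (m.prod m) := by
    refine hΔi'.congr_fun (fun q hq => ?_) (hBm.prod hBm.compl)
    simp only [hΔ]
    rw [Set.indicator_of_mem (show q.2 ∈ Bᶜ from hq.2), one_mul]
  obtain ⟨hai, habound'⟩ := far H hR (show 2 * R ≤ S by linarith) hf.continuous.measurable hsupp hM
    (w := fun z => 1 - W.indicator b z) (measurable_const.sub (hb.indicator hWm))
    (fun z => by
      by_cases hz : z ∈ W
      · rw [Set.indicator_of_mem hz]; constructor <;> linarith [hb01 z]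
      · rw [Set.indicator_of_notMem hz]; norm_num)
    (fun z hz => by
      rw [Set.indicator_of_mem (mem_ball_zero_iff.2 (by linarith)), hb1 z hz.le, sub_self])
  have habound := habound' (by linarith)
  replace hai : IntegrableOn (fun q => (1 - W.indicator b q.2) * Δ q) (B ×ˢ Bᶜ) (m.prod m) := hai
  -- the pairing as product integrals
  have hJ : Jform n m h R f = 2⁻¹ * (∫ q in B ×ˢ B, Φ q ∂m.prod m) +
      ∫ q in B ×ˢ Bᶜ, Δ q ∂m.prod m := by
    rw [setIntegral_prod Φ (hΦi.mono_set (Set.prod_mono hBW hBW)), setIntegral_prod Δ hΔi, Jform]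
    simp only [hΦ, hΔ, slope', hB, mul_div_assoc]
  have hfi : ∫ y in B, f y ∂m = 0 := by
    rw [setIntegral_eq_integral_of_forall_compl_eq_zero fun y hy => hsupp y ?_, hzero]
    have : 2 * R ≤ ‖y‖ := not_lt.1 fun hlt => hy (mem_ball_zero_iff.2 hlt)
    linarith
  have hk0 : ∫ q in B ×ˢ C, f q.1 * k q.2 ∂m.prod m = 0 := by
    rw [setIntegral_prod_mul, hfi, zero_mul]
  have hWeq : W = B ∪ C := (Set.union_sdiff_cancel hBW).symm
  have hdis : Disjoint B C := Set.disjoint_sdiff_right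
  have s1 : ∫ q in W ×ˢ W, Ψ q ∂m.prod m =
      (∫ q in B ×ˢ B, Ψ q ∂m.prod m) + (∫ q in B ×ˢ C, Ψ q ∂m.prod m) +
        ((∫ q in C ×ˢ B, Ψ q ∂m.prod m) + ∫ q in C ×ˢ C, Ψ q ∂m.prod m) := by
    have hBB := hΨi.mono_set (Set.prod_mono hBW hBW)
    have hBC := hΨi.mono_set (Set.prod_mono hBW (Set.sdiff_subset (t := B)))
    have hCB' := hΨi.mono_set (Set.prod_mono (Set.sdiff_subset (t := B)) hBW)
    have hCC := hΨi.mono_set (Set.prod_mono (Set.sdiff_subset (t := B)) (Set.sdiff_subset (t := B)))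
    rw [hWeq, Set.union_prod, Set.prod_union, Set.prod_union,
      setIntegral_union (Disjoint.union_left
        (Disjoint.union_right (Set.disjoint_prod.2 (Or.inl hdis)) (Set.disjoint_prod.2 (Or.inl hdis)))
        (Disjoint.union_right (Set.disjoint_prod.2 (Or.inl hdis)) (Set.disjoint_prod.2 (Or.inl hdis))))
        ((hCm.prod hBm).union (hCm.prod hCm)) (hBB.union hBC) (hCB'.union hCC),
      setIntegral_union (Set.disjoint_prod.2 (Or.inr hdis)) (hBm.prod hCm) hBB hBC,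
      setIntegral_union (Set.disjoint_prod.2 (Or.inr hdis)) (hCm.prod hCm) hCB' hCC]
  have s2 : ∫ q in B ×ˢ B, Ψ q ∂m.prod m = ∫ q in B ×ˢ B, Φ q ∂m.prod m :=
    setIntegral_congr_fun (hBm.prod hBm) fun q hq => by
      simp only [hΨ, hΦ, hbB _ hq.1, hbB _ hq.2]; ring
  have s3 : ∫ q in C ×ˢ C, Ψ q ∂m.prod m = 0 :=
    setIntegral_eq_zero_of_forall_eq_zero fun q hq => by
      simp [hΨ, hfB _ hq.1, hfB _ hq.2]
  have s4 : ∫ q in C ×ˢ B, Ψ q ∂m.prod m = ∫ q in B ×ˢ C, Ψ q ∂m.prod m := by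
    rw [← setIntegral_prod_swap C B Ψ]
    refine setIntegral_congr_fun (hBm.prod hCm) fun q _ => ?_
    simp only [hΨ, slope', Prod.fst_swap, Prod.snd_swap, norm_sub_rev q.2 q.1]
    ring
  have s5 : ∫ q in B ×ˢ C, Ψ q ∂m.prod m = ∫ q in B ×ˢ C, b q.2 * Δ q ∂m.prod m := by
    have hbD : IntegrableOn (fun q => b q.2 * Δ q) (B ×ˢ C) (m.prod m) := by
      have hi := hΔi.mono_set (Set.prod_mono le_rfl hCB)
      refine hi.norm.mono' (((hb.comp measurable_snd).aestronglyMeasurable).mul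
        hi.aestronglyMeasurable) (Eventually.of_forall fun q => ?_)
      rw [norm_mul, Real.norm_of_nonneg (hb01 q.2).1]
      exact mul_le_of_le_one_left (norm_nonneg _) (hb01 q.2).2
    have hΨC := hΨi.mono_set (Set.prod_mono hBW (Set.sdiff_subset (t := B)))
    have e : ∫ q in B ×ˢ C, f q.1 * k q.2 ∂m.prod m =
        ∫ q in B ×ˢ C, (b q.2 * Δ q - Ψ q) ∂m.prod m :=
      setIntegral_congr_fun (hBm.prod hCm) fun q hq => by
        simp only [hk, hΔ, hΨ, hbB _ hq.1, hfB _ hq.2]; ring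
    rw [hk0, integral_sub hbD hΨC] at e
    linarith
  have s6 : ∫ q in B ×ˢ C, b q.2 * Δ q ∂m.prod m =
      (∫ q in B ×ˢ Bᶜ, Δ q ∂m.prod m) -
        ∫ q in B ×ˢ Bᶜ, (1 - W.indicator b q.2) * Δ q ∂m.prod m := by
    rw [← integral_sub hΔi hai, setIntegral_eq_of_subset_of_forall_sdiff_eq_zero (hBm.prod hBm.compl)
      (Set.prod_mono le_rfl hCB) (f := fun q => Δ q - (1 - W.indicator b q.2) * Δ q)
      (fun q hq => ?_)]
    · refine setIntegral_congr_fun (hBm.prod hCm) fun q hq => ?_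
      simp only [Set.indicator_of_mem hq.2.1]; ring
    · have : q.2 ∉ W := fun hW' => hq.2 ⟨hq.1.1, hW', hq.1.2⟩
      simp only [Set.indicator_of_notMem this]; ring
  have hI : 2⁻¹ * ∫ q in W ×ˢ W, Ψ q ∂m.prod m = 2⁻¹ * (∫ q in B ×ˢ B, Φ q ∂m.prod m) +
      ∫ q in B ×ˢ C, Ψ q ∂m.prod m := by
    rw [s1, s2, s3, s4]; ring
  rw [hJ, hI, s5, s6]
  refine le_trans (le_of_eq ?_) habound
  congr 1
  simp only [hΔ]
  ring

end Vale.Agent.P120
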