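import Vale.Agent.P120.Improve.Bridge
import Vale.Agent.P120.Improve.Split
import Vale.Agent.P120.Improve.Compare

/-!
# P120: the limit of the heights solves the linear equation
-/

open MeasureTheory Metric Filter Topology
open scoped ENNReal NNReal

namespace Vale.Agent.P120

/-- An antisymmetric weight against a difference. -/
lemma anti_double {α : Type*} [MeasurableSpace α] {μ : Measure α} [IsFiniteMeasure μ]
    {w : α × α → ℝ} (hw : Measurable w) {M : ℝ} (hM : ∀ q, |w q| ≤ M)
    (hanti : ∀ q : α × α, w q.swap = -w q) {h : α → ℝ} (hh : Integrable h μ) :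
    ∫ q, w q * (h q.1 - h q.2) ∂μ.prod μ = 2 * ∫ y, h y * ∫ z, w (y, z) ∂μ ∂μ := by
  have h1 : Integrable (fun q : α × α => w q * h q.1) (μ.prod μ) :=
    (hh.comp_fst μ).bdd_mul hw.aestronglyMeasurable (Eventually.of_forall hM)
  have h2 : Integrable (fun q : α × α => w q * h q.2) (μ.prod μ) :=
    (hh.comp_snd μ).bdd_mul hw.aestronglyMeasurable (Eventually.of_forall hM)
  have e2 : ∫ q, w q * h q.2 ∂μ.prod μ = -∫ q, w q * h q.1 ∂μ.prod μ := by
    rw [← integral_neg, ← integral_prod_swap (fun q : α × α => w q * h q.2)]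
    refine integral_congr_ae (Eventually.of_forall fun q => ?_)
    simp only [Prod.snd_swap, hanti q, neg_mul]
  have e1 : ∫ q, w q * h q.1 ∂μ.prod μ = ∫ y, h y * ∫ z, w (y, z) ∂μ ∂μ := by
    rw [integral_prod _ h1]
    refine integral_congr_ae (Eventually.of_forall fun y => ?_)
    simp only [← integral_const_mul]
    exact integral_congr_ae (Eventually.of_forall fun z => mul_comm _ _)
  simp only [mul_sub]
  rw [integral_sub h1 h2, e2, e1]
  ring

variable {n d : ℕ}

/-- The weight of a test inside `B (0, S + 1)`, with the kernel cut off at `δ`. -/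
noncomputable def wlin (S δ : ℝ) (f : Sp n → ℝ) (q : Sp n × Sp n) : ℝ :=
  cut S q.1 * cut S q.2 * (f q.1 - f q.2) * kcut n δ (q.1 - q.2)

lemma continuous_wlin {S δ : ℝ} (hδ : 0 < δ) {f : Sp n → ℝ} (hf : Continuous f) :
    Continuous (wlin S δ f) :=
  ((((continuous_cut S).comp continuous_fst).mul ((continuous_cut S).comp continuous_snd)).mul
    ((hf.comp continuous_fst).sub (hf.comp continuous_snd))).mul
    ((continuous_kcut hδ).comp (continuous_fst.sub continuous_snd))

lemma wlin_eq_zero {S : ℝ} (δ : ℝ) (f : Sp n → ℝ) (q : Sp n × Sp n) (hq : S + 1 ≤ ‖q‖) :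
    wlin S δ f q = 0 := by
  rw [Prod.norm_def] at hq
  rcases le_max_iff.1 hq with h | h <;> simp [wlin, cut_eq_zero h]

lemma wlin_swap (S δ : ℝ) (f : Sp n → ℝ) (q : Sp n × Sp n) :
    wlin S δ f q.swap = -wlin S δ f q := by
  simp only [wlin, Prod.fst_swap, Prod.snd_swap, kcut, norm_sub_rev q.2 q.1]
  ring

lemma abs_wlin_le {S δ : ℝ} (hδ : 0 < δ) {f : Sp n → ℝ} {M : ℝ} (hM : ∀ x, |f x| ≤ M)
    (q : Sp n × Sp n) : |wlin S δ f q| ≤ 2 * M * (δ ^ (n + 1))⁻¹ := by
  have hM0 : 0 ≤ M := (abs_nonneg _).trans (hM q.1)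
  rw [wlin, abs_mul, abs_mul, abs_of_nonneg (mul_nonneg (cut_nonneg _ _) (cut_nonneg _ _)),
    abs_of_nonneg (kcut_nonneg hδ _)]
  refine mul_le_mul ?_ (kcut_le hδ _) (kcut_nonneg hδ _) (by positivity)
  calc cut S q.1 * cut S q.2 * |f q.1 - f q.2| ≤ 1 * |f q.1 - f q.2| :=
        mul_le_mul_of_nonneg_right
          (mul_le_one₀ (cut_le_one _ _) (cut_nonneg _ _) (cut_le_one _ _)) (abs_nonneg _)
    _ ≤ 2 * M := by linarith [abs_sub (f q.1) (f q.2), hM q.1, hM q.2]

namespace Blow

variable {C₀ : ℝ} (B : Blow n d C₀) {U : Ultrafilter ℕ} (hU : (U : Filter ℕ) ≤ atTop) {a : ℝ}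
  (ha : 0 < a) (hlim : B.Conv U a) {i : Fin d} (hi : n ≤ (i : ℕ))
include hU ha hlim hi

/-- Weak convergence for a family converging uniformly. -/
lemma weak_uniform {A T : ℝ} (hA : 1 ≤ A) (hT : 2 * A ≤ T) {F : ℕ → Sp n → ℝ} {G : Sp n → ℝ}
    (hF : ∀ k, Continuous (F k)) (hG : Continuous G) (hG0 : ∀ x, A ≤ ‖x‖ → G x = 0)
    (hu : ∀ ε : ℝ, 0 < ε → ∀ᶠ k in (U : Filter ℕ), ∀ x, |F k x - G x| ≤ ε) :
    Tendsto (fun k => ∫ y in ball 0 T, F k (tPart B.le y) * B.ht i k y ∂B.m k) U
      (𝓝 (a * ∫ x, G x * B.vlim U a i x)) := by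
  rw [Metric.tendsto_nhds]
  intro ε hε
  set K := |C₀ * T ^ n + B.D * T ^ (n + 3)| + 1 with hK
  have hK0 : 0 < K := by positivity
  filter_upwards [hu (ε / (2 * K)) (by positivity),
    Metric.tendsto_nhds.1 (B.weak hU ha hlim hi hG hA hG0 hT) (ε / 2) (half_pos hε)] with k h1 h2
  rw [Real.dist_eq] at h2 ⊢
  have hc := (lipschitz_tPart (n := n) B.le).continuous
  have i1 : IntegrableOn (fun y => F k (tPart B.le y) * B.ht i k y) (ball 0 T) (B.m k) :=
    B.intOn (((hF k).comp hc).mul (B.continuous_ht i k)) k T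
  have i2 : IntegrableOn (fun y => G (tPart B.le y) * B.ht i k y) (ball 0 T) (B.m k) :=
    B.intOn ((hG.comp hc).mul (B.continuous_ht i k)) k T
  have h3 : |(∫ y in ball 0 T, F k (tPart B.le y) * B.ht i k y ∂B.m k) -
      ∫ y in ball 0 T, G (tPart B.le y) * B.ht i k y ∂B.m k| ≤ ε / 2 := by
    rw [← integral_sub i1 i2]
    refine abs_integral_le_integral_abs.trans ((setIntegral_mono_on
      (g := fun y => ε / (2 * K) * |B.ht i k y|) (i1.sub i2).abs
      ((B.intOn (f := fun y => |B.ht i k y|) (B.continuous_ht i k).abs k T).const_mul _)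
      measurableSet_ball fun y _ => ?_).trans ?_)
    · simp only [Pi.sub_apply]
      rw [← sub_mul, abs_mul]
      exact mul_le_mul_of_nonneg_right (h1 _) (abs_nonneg _)
    · rw [integral_const_mul]
      refine (mul_le_mul_of_nonneg_left ((B.integral_abs_ht hi k (by linarith)).trans
        ((le_abs_self _).trans (le_add_of_nonneg_right zero_le_one))) (by positivity)).trans_eq ?_
      rw [← hK]
      field_simp
  rw [abs_lt] at h2 ⊢
  rw [abs_le] at h3
  constructor <;> linarith

/-- The cut off pairings converge. -/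
lemma tendsto_near {S δ : ℝ} (hS : 1 ≤ S) (hδ : 0 < δ) {φ : Sp n → ℝ} (hφ : Continuous φ)
    {M : ℝ} (hM : ∀ x, |φ x| ≤ M) {c : ℕ → ℝ} (hc : Tendsto c U (𝓝 0)) :
    Tendsto (fun k => ∫ q in ball 0 (2 * (S + 1)) ×ˢ ball 0 (2 * (S + 1)),
        wlin S δ (fun x => φ x - c k * tent 1 x) (tPart B.le q.1, tPart B.le q.2) *
          (B.ht i k q.1 - B.ht i k q.2) ∂(B.m k).prod (B.m k)) U
      (𝓝 (a * a * ∫ q in ball 0 (2 * (S + 1)) ×ˢ ball 0 (2 * (S + 1)),
        wlin S δ φ q * (B.vlim U a i q.1 - B.vlim U a i q.2)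
          ∂(volume : Measure (Sp n)).prod volume)) := by
  set T := 2 * (S + 1) with hT
  have hT0 : 0 < T := by linarith
  have hC := B.C₀_pos
  have hct := (lipschitz_tPart (n := n) B.le).continuous
  set f : ℕ → Sp n → ℝ := fun k x => φ x - c k * tent 1 x with hf
  have hfc : ∀ k, Continuous (f k) := fun k =>
    hφ.sub (continuous_const.mul (continuous_tent 1))
  set G : Sp n → ℝ := fun x => a * ∫ x', wlin S δ φ (x, x') with hG
  have hGc : Continuous G :=
    continuous_const.mul (continuous_partial_integral (continuous_wlin hδ hφ) (wlin_eq_zero δ φ))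
  have hG0 : ∀ x, S + 1 ≤ ‖x‖ → G x = 0 := fun x hx => by
    have h0 : ∀ x', wlin S δ φ (x, x') = 0 := fun x' =>
      wlin_eq_zero δ φ _ (hx.trans (by simp [Prod.norm_def]))
    simp [hG, h0]
  have hu : ∀ ε : ℝ, 0 < ε → ∀ᶠ k in (U : Filter ℕ), ∀ x,
      |B.inner₂ T (wlin S δ (f k)) k x - G x| ≤ ε := fun ε hε => by
    set D := (δ ^ (n + 1))⁻¹ with hD
    have hD0 : 0 < D := by positivity
    set ε' := ε / (2 * (2 * D * (C₀ * T ^ n))) with hε'
    filter_upwards [B.inner₂_tendsto hU hlim (show 1 ≤ S + 1 by linarith) (T := T) le_rfl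
      (continuous_wlin hδ hφ) (wlin_eq_zero δ φ) (half_pos hε),
      hc.eventually (closedBall_mem_nhds (0 : ℝ) (show 0 < ε' by positivity))] with k h1 h2 x
    rw [Real.dist_eq, sub_zero] at h2
    have h3 : |B.inner₂ T (wlin S δ (f k)) k x - B.inner₂ T (wlin S δ φ) k x| ≤ ε / 2 := by
      have := continuous_wlin (S := S) hδ (hfc k)
      have := continuous_wlin (S := S) hδ hφ
      rw [inner₂, inner₂, ← integral_sub (B.intOn (by fun_prop) k T) (B.intOn (by fun_prop) k T)]
      refine (B.abs_setIntegral_le k hT0 (M := 2 * ε' * D) fun z _ => ?_).trans_eq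
        (by rw [hε']; field_simp)
      set x' := tPart B.le z
      have e : wlin S δ (f k) (x, x') - wlin S δ φ (x, x') =
          -(c k) * wlin S δ (tent 1) (x, x') := by simp only [wlin, hf]; ring
      rw [e, abs_mul, abs_neg]
      calc |c k| * |wlin S δ (tent 1) (x, x')| ≤ ε' * (2 * 1 * D) :=
            mul_le_mul h2 (abs_wlin_le hδ (fun x => by
              rw [abs_of_nonneg (tent_nonneg _ _)]; exact tent_le_one one_pos x) _)
              (abs_nonneg _) (by positivity)
        _ = _ := by ring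
    have := h1 x
    rw [abs_le] at h3 this ⊢
    constructor <;> linarith
  have hmain := (B.weak_uniform hU ha hlim hi (show 1 ≤ S + 1 by linarith) (T := T) le_rfl
    (F := fun k => B.inner₂ T (wlin S δ (f k)) k)
    (fun k => B.continuous_inner₂ hT0 (continuous_wlin hδ (hfc k)) (wlin_eq_zero δ (f k)) k)
    hGc hG0 hu).const_mul 2
  have : IsFiniteMeasure (volume.restrict (ball (0 : Sp n) T)) :=
    isFiniteMeasure_restrict.2 measure_ball_lt_top.ne
  have hv : IntegrableOn (B.vlim U a i) (ball 0 T) := by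
    refine Integrable.mono' ((integrable_const (1 : ℝ)).add (B.vlim_sq_intOn hU ha hlim hi T))
      (B.stronglyMeasurable_vlim hU ha hi).aestronglyMeasurable (Eventually.of_forall fun x => ?_)
    simp only [Pi.add_apply, Real.norm_eq_abs]
    nlinarith [sq_nonneg (|B.vlim U a i x| - 1), sq_abs (B.vlim U a i x),
      abs_nonneg (B.vlim U a i x)]
  have evol : a * a * ∫ q in ball 0 T ×ˢ ball 0 T, wlin S δ φ q *
      (B.vlim U a i q.1 - B.vlim U a i q.2) ∂(volume : Measure (Sp n)).prod volume =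
      2 * (a * ∫ x, G x * B.vlim U a i x) := by
    rw [← Measure.prod_restrict, anti_double (continuous_wlin hδ hφ).measurable
      (abs_wlin_le hδ hM) (wlin_swap S δ φ) hv,
      integral_eq_ball (A := T) (g := fun x => G x * B.vlim U a i x)
        (fun x hx => by rw [hG0 x (by linarith), zero_mul])]
    have e : ∀ x, B.vlim U a i x * ∫ z in ball (0 : Sp n) T, wlin S δ φ (x, z) =
        a⁻¹ * (G x * B.vlim U a i x) := fun x => by
      rw [← integral_eq_ball (A := T) (g := fun z => wlin S δ φ (x, z)) (fun z hz =>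
        wlin_eq_zero δ φ _ (le_trans (by linarith) (le_max_right ‖x‖ ‖z‖))), hG]
      field_simp
    simp only [e, integral_const_mul]
    field_simp
  rw [evol]
  refine hmain.congr' (Eventually.of_forall fun k => ?_)
  beta_reduce
  have := B.lf k
  have : IsFiniteMeasure ((B.m k).restrict (ball (0 : Sp d) T)) :=
    isFiniteMeasure_restrict.2 ((B.reg k).fin _ _)
  have hMk : ∀ x, |f k x| ≤ M + |c k| := fun x => by
    refine (abs_sub _ _).trans (add_le_add (hM x) ?_)
    rw [abs_mul, abs_of_nonneg (tent_nonneg _ _)]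
    exact mul_le_of_le_one_right (abs_nonneg _) (tent_le_one one_pos x)
  rw [← Measure.prod_restrict, anti_double
    (w := fun q : Sp d × Sp d => wlin S δ (f k) (tPart B.le q.1, tPart B.le q.2))
    ((continuous_wlin hδ (hfc k)).comp
      ((hct.comp continuous_fst).prodMk (hct.comp continuous_snd))).measurable
    (fun q => abs_wlin_le hδ hMk _) (fun q => wlin_swap S δ (f k) (tPart B.le q.1, tPart B.le q.2))
    (B.intOn (B.continuous_ht i k) k T)]
  simp only [inner₂, mul_comm (B.ht i k _)]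

/-- **The limit solves the linear equation.** -/
theorem equation (hn : 1 ≤ n) {φ : Sp n → ℝ} {L : ℝ≥0} (hφ : LipschitzWith L φ) {R : ℝ}
    (hR : 0 < R) (hφ0 : ∀ x, R ≤ ‖x‖ → φ x = 0) (hint : ∫ x, φ x = 0) :
    Jform n (volume : Measure (Sp n)) (B.vlim U a i) R φ = 0 := by
  set R₁ := max R 1 with hR₁
  have hR1 : 1 ≤ R₁ := le_max_right _ _
  have hφ1 : ∀ x, R₁ ≤ ‖x‖ → φ x = 0 := fun x hx => hφ0 x ((le_max_left R 1).trans hx)
  obtain ⟨M₀, hM₀⟩ := (isCompact_closedBall (0 : Sp n) R).exists_bound_of_continuousOn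
    hφ.continuous.continuousOn
  set M := |M₀| with hMdef
  have hM : ∀ x, |φ x| ≤ M := fun x => by
    rcases le_or_gt R ‖x‖ with h | h
    · rw [hφ0 x h, abs_zero]; exact abs_nonneg _
    · exact (hM₀ x (mem_closedBall_zero_iff.2 h.le)).trans (le_abs_self _)
  obtain ⟨Cgv, Dv, hvol⟩ := B.heights_vlim hn hU ha hlim hi
  obtain ⟨K1, hK1⟩ := split n d C₀ B.D (R₁ + 2) (M + 1) (by linarith)
  obtain ⟨K2, hK2⟩ := split n n (Linear.unitVol n) Dv R M hR
  set L' : ℝ≥0 := L + 1 + Real.toNNReal (M + 1)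
  set J := Jform n (volume : Measure (Sp n)) (B.vlim U a i) R φ
  have hmain : ∀ S : ℝ, 2 * (R₁ + 2) + 1 ≤ S → a * a * |J| ≤ (|K1| + a * a * |K2|) / √S := by
    intro S hS
    have hS1 : 1 ≤ S := by linarith
    have hSR : 2 * R + 1 ≤ S := by linarith [le_max_left R 1]
    obtain ⟨E, hE⟩ := B.quot_energy (T := 2 * (S + 1)) (by linarith)
    set Ev := ∫ q in ball 0 (2 * (S + 1)) ×ˢ ball 0 (2 * (S + 1)),
      (B.vlim U a i q.1 - B.vlim U a i q.2) ^ 2 / ‖q.1 - q.2‖ ^ (n + 1)
        ∂(volume : Measure (Sp n)).prod volume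
    obtain ⟨K3, hK3⟩ := compare n d C₀ B.Cg E (2 * (S + 1)) L' (by linarith)
    obtain ⟨K4, hK4⟩ := compare n n (Linear.unitVol n) Cgv Ev (2 * (S + 1)) L (by linarith)
    have hbig : ∀ δ : ℝ, 0 < δ → δ ≤ 1 →
        a * a * |J| ≤ (|K1| + a * a * |K2|) / √S + (|K3| + a * a * |K4|) * √δ := by
      intro δ hδ hδ1
      set W := 2 * (S + 1)
      set I := ∫ q in ball 0 W ×ˢ ball 0 W, wlin S δ φ q *
        (B.vlim U a i q.1 - B.vlim U a i q.2) ∂(volume : Measure (Sp n)).prod volume
      -- on the plane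
      have hvolI : |J - 2⁻¹ * I| ≤ |K2| / √S + |K4| * √δ := by
        have hb : Measurable (cut (n := n) S) := (continuous_cut S).measurable
        have h1 := hK2 volume (B.vlim U a i) Cgv hvol φ L hφ hφ0 hM hint S hSR W (by linarith) (cut S) hb
          (fun x => ⟨cut_nonneg _ _, cut_le_one _ _⟩) fun x hx => cut_eq_one hx
        have h2 := hK4 volume (B.vlim U a i) Dv hvol le_rfl id continuous_id (fun y z => le_rfl) φ hφ
          (fun q => cut S q.1 * cut S q.2) ((hb.comp measurable_fst).mul (hb.comp measurable_snd))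
          (fun q => by
            rw [abs_of_nonneg (mul_nonneg (cut_nonneg _ _) (cut_nonneg _ _))]
            exact mul_le_one₀ (cut_le_one _ _) (cut_nonneg _ _) (cut_le_one _ _))
          δ hδ hδ1 (Eventually.of_forall fun q => le_add_of_nonneg_right (sq_nonneg δ))
        have e : (∫ q in ball 0 W ×ˢ ball 0 W, cut S q.1 * cut S q.2 * (φ q.1 - φ q.2) *
            ((B.vlim U a i q.1 - B.vlim U a i q.2) * kcut n δ (id q.1 - id q.2))
              ∂(volume : Measure (Sp n)).prod volume) = I :=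
          integral_congr_ae (Eventually.of_forall fun q => by simp only [wlin, id_eq]; ring)
        rw [e] at h2
        have h3 : K2 / √S ≤ |K2| / √S := by gcongr; exact le_abs_self _
        have h4 : K4 * √δ ≤ |K4| * √δ := by gcongr; exact le_abs_self _
        rw [abs_le] at h1 h2 ⊢
        constructor <;> linarith [abs_nonneg K4, mul_nonneg (abs_nonneg K4) (Real.sqrt_nonneg δ)]
      -- along the sequence
      have hlimI : |2⁻¹ * (a * a * I)| ≤ |K1| / √S + |K3| * √δ := by
        refine le_of_forall_pos_le_add fun ε hε => ?_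
        have hcorr := B.tendsto_corr hU ha hlim hφ.continuous hR1 hφ1 hint
        have hlimit := ((B.tendsto_near hU ha hlim hi hS1 hδ hφ.continuous hM hcorr).const_mul
          (2⁻¹ : ℝ)).abs
        refine le_of_tendsto hlimit ?_
        filter_upwards [B.jform_small hU ha hlim hφ hR1 hφ1 hM hint (i := i) hε, hU hE,
          hU (B.thin (A := W) (show 1 ≤ W by linarith) (show 0 < δ ^ 2 / 2 by positivity))]
          with k hk hkE hthin
        obtain ⟨hl, hb1, hm0, -, hJ⟩ := hk
        have := B.lf k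
        have hct := (lipschitz_tPart (n := n) B.le).continuous
        have hb : Measurable fun y => cut S (tPart B.le y) :=
          ((continuous_cut S).comp hct).measurable
        have hH := B.heights hi k
        have h1 := hK1 (B.m k) (B.ht i k) B.Cg hH (B.psi φ R₁ k) L' hl
          (fun y hy => B.psi_eq_zero φ k hy) hb1 hm0 S hS W (by linarith) (fun y => cut S (tPart B.le y)) hb
          (fun y => ⟨cut_nonneg _ _, cut_le_one _ _⟩)
          fun y hy => cut_eq_one ((norm_tPart_le B.le y).trans hy)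
        have hsupp : ∀ᵐ q ∂((B.m k).prod (B.m k)).restrict (ball 0 W ×ˢ ball 0 W),
            (q.1 ∈ (B.m k).support ∧ ‖q.1‖ < W) ∧ q.2 ∈ (B.m k).support ∧ ‖q.2‖ < W := by
          rw [← Measure.prod_restrict]
          have h0 : ∀ᵐ y ∂(B.m k).restrict (ball 0 W), y ∈ (B.m k).support ∧ ‖y‖ < W :=
            (ae_restrict_of_ae (B.ae_support k)).and
              ((ae_restrict_mem measurableSet_ball).mono fun y hy => mem_ball_zero_iff.1 hy)
          exact (Measure.quasiMeasurePreserving_fst.ae h0).and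
            (Measure.quasiMeasurePreserving_snd.ae h0)
        have h2 := hK3 (B.m k) (B.ht i k) B.D hH (((B.gag_le i k W).2).trans_le (hkE i hi))
          (tPart B.le) hct (fun y z => by rw [← tPart_sub]; exact norm_tPart_le B.le _)
          (B.psi φ R₁ k) hl (fun q => cut S (tPart B.le q.1) * cut S (tPart B.le q.2))
          ((hb.comp measurable_fst).mul (hb.comp measurable_snd))
          (fun q => by
            rw [abs_of_nonneg (mul_nonneg (cut_nonneg _ _) (cut_nonneg _ _))]
            exact mul_le_one₀ (cut_le_one _ _) (cut_nonneg _ _) (cut_le_one _ _))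
          δ hδ hδ1 (hsupp.mono fun q hq => by
            have h1 := norm_le_parts B.le (q.1 - q.2)
            rw [tPart_sub, nPart_sub] at h1
            linarith [norm_sub_le (nPart n q.1) (nPart n q.2), hthin q.1 hq.1.1 hq.1.2,
              hthin q.2 hq.2.1 hq.2.2])
        have e : (∫ q in ball 0 W ×ˢ ball 0 W, cut S (tPart B.le q.1) * cut S (tPart B.le q.2) *
            (B.psi φ R₁ k q.1 - B.psi φ R₁ k q.2) * ((B.ht i k q.1 - B.ht i k q.2) *
              kcut n δ (tPart B.le q.1 - tPart B.le q.2)) ∂(B.m k).prod (B.m k)) =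
            ∫ q in ball 0 W ×ˢ ball 0 W,
              wlin S δ (fun x => φ x - B.corr φ R₁ k * tent 1 x)
                (tPart B.le q.1, tPart B.le q.2) *
                  (B.ht i k q.1 - B.ht i k q.2) ∂(B.m k).prod (B.m k) := by
          refine integral_congr_ae (hsupp.mono fun q hq => ?_)
          have hg : ∀ x : Sp n, R₁ ≤ ‖x‖ → φ x - B.corr φ R₁ k * tent 1 x = 0 := fun x hx => by
            rw [hφ1 x hx, tent_eq_zero one_pos (hR1.trans hx), mul_zero, sub_zero]
          have hd1 : δ ^ 2 / 2 ≤ 1 := by nlinarith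
          have hψ : ∀ y, y ∈ (B.m k).support → ‖y‖ < W → B.psi φ R₁ k y =
              φ (tPart B.le y) - B.corr φ R₁ k * tent 1 (tPart B.le y) := fun y hy hyW =>
            B.cut_mul_eq hg (fun z hz hzW => (hthin z hz hzW).trans hd1) hy hyW
          simp only [hψ q.1 hq.1.1 hq.1.2, hψ q.2 hq.2.1 hq.2.2, wlin]
          ring
        rw [e] at h2
        have h3 : K1 / √S ≤ |K1| / √S := by gcongr; exact le_abs_self _
        have h4 : K3 * √δ ≤ |K3| * √δ := by gcongr; exact le_abs_self _
        rw [abs_le] at h1 h2 hJ ⊢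
        constructor <;> linarith [mul_nonneg (abs_nonneg K3) (Real.sqrt_nonneg δ)]
      have h5 : a * a * |J - 2⁻¹ * I| ≤ a * a * (|K2| / √S + |K4| * √δ) :=
        mul_le_mul_of_nonneg_left hvolI (by positivity)
      have h6 : a * a * |J| ≤ a * a * |J - 2⁻¹ * I| + |2⁻¹ * (a * a * I)| := by
        rw [show 2⁻¹ * (a * a * I) = a * a * (2⁻¹ * I) by ring, abs_mul (a * a),
          abs_of_nonneg (mul_self_nonneg a), ← mul_add]
        refine mul_le_mul_of_nonneg_left ?_ (mul_self_nonneg a)
        calc |J| = |(J - 2⁻¹ * I) + 2⁻¹ * I| := by ring_nf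
          _ ≤ _ := abs_add_le _ _
      refine h6.trans ((add_le_add h5 hlimI).trans_eq ?_)
      ring
    refine le_of_forall_pos_le_add fun ε hε => ?_
    set K := |K3| + a * a * |K4| with hK
    set δ := min 1 ((ε / (K + 1)) ^ 2) with hδdef
    have hK0 : 0 ≤ K := by positivity
    have hδ : 0 < δ := by positivity
    refine (hbig δ hδ (min_le_left _ _)).trans (add_le_add le_rfl ?_)
    calc K * √δ ≤ (K + 1) * (ε / (K + 1)) :=
          mul_le_mul (by linarith) ((Real.sqrt_le_sqrt (min_le_right _ _)).trans_eq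
            (Real.sqrt_sq (by positivity))) (Real.sqrt_nonneg _) (by linarith)
      _ = ε := by field_simp
  by_contra hJ
  have hpos : 0 < a * a * |J| := by positivity
  have hlimS : Tendsto (fun S : ℝ => (|K1| + a * a * |K2|) / √S) atTop (𝓝 0) :=
    tendsto_const_nhds.div_atTop Real.tendsto_sqrt_atTop
  obtain ⟨S, hS, hS'⟩ :=
    ((eventually_ge_atTop (2 * (R₁ + 2) + 1)).and (hlimS.eventually (gt_mem_nhds hpos))).exists
  linarith [hmain S hS]

end Blow

end Vale.Agent.P120
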