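import Vale.Agent.P120.Improve.Key
import Mathlib.MeasureTheory.Constructions.Polish.StronglyMeasurable
import Mathlib.Analysis.SpecificLimits.Basic

/-!
# P120: the limit of the heights

The limit `v` of the averaged heights has growth below two and finite energy, and the heights tend
to it weakly, and in mean square once it is continuous.
-/

open MeasureTheory Metric Filter Topology
open scoped ENNReal NNReal

namespace Vale.Agent.P120

/-- Fatou for nonnegative real functions. -/
lemma fatou_real {α : Type*} [MeasurableSpace α] {μ : Measure α} {f : ℕ → α → ℝ} {g : α → ℝ}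
    (hf : ∀ j, Integrable (f j) μ) (h0 : ∀ j x, 0 ≤ f j x) (hg : AEStronglyMeasurable g μ)
    (h : ∀ᵐ x ∂μ, Tendsto (fun j => f j x) atTop (𝓝 (g x))) {C : ℝ}
    (hC : ∀ ε : ℝ, 0 < ε → ∀ᶠ j in atTop, ∫ x, f j x ∂μ ≤ C + ε) :
    Integrable g μ ∧ ∫ x, g x ∂μ ≤ C := by
  have hg0 : 0 ≤ᵐ[μ] g := h.mono fun x hx => ge_of_tendsto' hx fun j => h0 j x
  have hb : ∀ ε : ℝ, 0 < ε → ∫⁻ x, ENNReal.ofReal (g x) ∂μ ≤ ENNReal.ofReal (C + ε) := fun ε hε =>
    calc ∫⁻ x, ENNReal.ofReal (g x) ∂μ
        = ∫⁻ x, liminf (fun j => ENNReal.ofReal (f j x)) atTop ∂μ :=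
          lintegral_congr_ae (h.mono fun x hx =>
            ((ENNReal.continuous_ofReal.tendsto _).comp hx).liminf_eq.symm)
      _ ≤ liminf (fun j => ∫⁻ x, ENNReal.ofReal (f j x) ∂μ) atTop :=
          lintegral_liminf_le' fun j => (hf j).aemeasurable.ennreal_ofReal
      _ ≤ ENNReal.ofReal (C + ε) := by
          refine liminf_le_of_frequently_le' ((hC ε hε).mono fun j hj => ?_).frequently
          rw [← ofReal_integral_eq_lintegral_ofReal (hf j) (Eventually.of_forall (h0 j))]
          exact ENNReal.ofReal_le_ofReal hj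
  have hgi : Integrable g μ := (lintegral_ofReal_ne_top_iff_integrable hg hg0).1
    ((hb 1 one_pos).trans_lt ENNReal.ofReal_lt_top).ne
  refine ⟨hgi, le_of_forall_pos_le_add fun ε hε => ?_⟩
  obtain ⟨j, hj⟩ := (hC ε hε).exists
  have h1 : 0 ≤ C + ε := (integral_nonneg (h0 j)).trans hj
  rw [← ENNReal.ofReal_le_ofReal_iff h1, ofReal_integral_eq_lintegral_ofReal hgi hg0]
  exact hb ε hε

variable {n d : ℕ}

lemma intOn_vol {f : Sp n → ℝ} (hf : Continuous f) (A : ℝ) : IntegrableOn f (ball 0 A) :=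
  (hf.continuousOn.integrableOn_compact (isCompact_closedBall _ _)).mono_set ball_subset_closedBall

/-- An integral of a function supported in a ball. -/
lemma integral_eq_ball {g : Sp n → ℝ} {A : ℝ} (hg : ∀ x, A ≤ ‖x‖ → g x = 0) :
    ∫ x, g x = ∫ x in ball 0 A, g x :=
  (setIntegral_eq_integral_of_forall_compl_eq_zero fun x hx =>
    hg x (by rw [mem_ball_zero_iff, not_lt] at hx; exact hx)).symm

lemma integrable_of_support {g : Sp n → ℝ} (hgc : Continuous g) {A : ℝ}
    (hg : ∀ x, A ≤ ‖x‖ → g x = 0) : Integrable g :=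
  hgc.integrable_of_hasCompactSupport (HasCompactSupport.intro (isCompact_closedBall 0 A)
    fun x hx => hg x (by rw [mem_closedBall_zero_iff, not_le] at hx; exact hx.le))

/-- The radii of the averages. -/
noncomputable def rad (j : ℕ) : ℝ := (4 : ℝ)⁻¹ ^ j

lemma rad_pos (j : ℕ) : 0 < rad j := by unfold rad; positivity

lemma rad_le_one (j : ℕ) : rad j ≤ 1 := pow_le_one₀ (by norm_num) (by norm_num)

lemma rad_tendsto : Tendsto rad atTop (𝓝 0) :=
  tendsto_pow_atTop_nhds_zero_of_lt_one (by norm_num) (by norm_num)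

lemma rad_eventually {C ε : ℝ} (hε : 0 < ε) : ∀ᶠ j in atTop, C * rad j ≤ ε :=
  ((by simpa using rad_tendsto.const_mul C : Tendsto (fun j => C * rad j) atTop (𝓝 0)).eventually
    (eventually_le_nhds hε))

/-- The kernel cut off at `δ`. -/
noncomputable def kcut (n : ℕ) (δ : ℝ) (z : Sp n) : ℝ := (max ‖z‖ δ ^ (n + 1))⁻¹

lemma kcut_nonneg {δ : ℝ} (hδ : 0 < δ) (z : Sp n) : 0 ≤ kcut n δ z := by unfold kcut; positivity

lemma kcut_le {δ : ℝ} (hδ : 0 < δ) (z : Sp n) : kcut n δ z ≤ (δ ^ (n + 1))⁻¹ :=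
  inv_anti₀ (by positivity) (pow_le_pow_left₀ hδ.le (le_max_right _ _) _)

lemma continuous_kcut {δ : ℝ} (hδ : 0 < δ) : Continuous (kcut n δ) :=
  ((continuous_norm.max continuous_const).pow _).inv₀ fun _ => (pow_pos (lt_max_of_lt_right hδ) _).ne'

/-- A weighted integral against the arithmetic-geometric mean. -/
lemma abs_integral_mul_le {α : Type*} [MeasurableSpace α] {μ : Measure α} [IsFiniteMeasure μ]
    {g f : α → ℝ} {M s : ℝ} (hs : 0 < s) (hM0 : 0 ≤ M) (hg : ∀ x, |g x| ≤ M)
    (hgf : Integrable (fun x => g x * f x) μ) (hf : Integrable (fun x => f x ^ 2) μ) :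
    |∫ x, g x * f x ∂μ| ≤ M * (s * μ.real Set.univ + (∫ x, f x ^ 2 ∂μ) / s) := by
  have h : Integrable (fun x => s + f x ^ 2 / s) μ := (integrable_const s).add (hf.div_const s)
  refine abs_integral_le_integral_abs.trans ((integral_mono (g := fun x => M * (s + f x ^ 2 / s))
    hgf.abs (h.const_mul M) fun x => ?_).trans_eq ?_)
  · simp only []
    rw [abs_mul]
    refine mul_le_mul (hg x) ?_ (abs_nonneg _) hM0
    rw [← sub_le_iff_le_add', le_div_iff₀ hs]
    nlinarith [sq_nonneg (|f x| - s), sq_abs (f x)]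
  · rw [integral_const_mul, integral_add (integrable_const s) (hf.div_const s), integral_const,
      integral_div, smul_eq_mul, mul_comm _ s]

/-- The squared differences against the kernel cut off at `δ`, inside `B (0, R + 1)`. -/
noncomputable def wq (R δ : ℝ) (p : Sp n → ℝ) (q : Sp n × Sp n) : ℝ :=
  cut R q.1 * cut R q.2 * ((p q.1 - p q.2) ^ 2 * kcut n δ (q.1 - q.2))

lemma continuous_wq {R δ : ℝ} (hδ : 0 < δ) {p : Sp n → ℝ} (hp : Continuous p) :
    Continuous (wq R δ p) :=
  (((continuous_cut R).comp continuous_fst).mul ((continuous_cut R).comp continuous_snd)).mul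
    ((((hp.comp continuous_fst).sub (hp.comp continuous_snd)).pow 2).mul
      ((continuous_kcut hδ).comp (continuous_fst.sub continuous_snd)))

lemma wq_eq_zero {R : ℝ} (δ : ℝ) (p : Sp n → ℝ) (q : Sp n × Sp n) (hq : R + 1 ≤ ‖q‖) :
    wq R δ p q = 0 := by
  rw [Prod.norm_def] at hq
  rcases le_max_iff.1 hq with h | h <;> simp [wq, cut_eq_zero h]

lemma sq_sub_le_three (u v s t : ℝ) :
    (s - t) ^ 2 ≤ 3 * (u - s) ^ 2 + 3 * (u - v) ^ 2 + 3 * (v - t) ^ 2 := by
  nlinarith [sq_nonneg ((s - u) - (u - v)), sq_nonneg ((u - v) - (v - t)),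
    sq_nonneg ((s - u) - (v - t))]

namespace Blow

variable {C₀ : ℝ} (B : Blow n d C₀) {U : Ultrafilter ℕ} (hU : (U : Filter ℕ) ≤ atTop) {a : ℝ}
  (ha : 0 < a) (hlim : B.Conv U a) {i : Fin d} (hi : n ≤ (i : ℕ))

/-- The limit of the heights. -/
noncomputable def vlim (U : Ultrafilter ℕ) (a : ℝ) (i : Fin d) (x : Sp n) : ℝ :=
  limUnder atTop fun j => B.mlim U a i (rad j) x

include hU hlim in
/-- The limit for a continuous function of uniformly converging functions. -/
lemma tendsto_comp {A T : ℝ} (hA : 1 ≤ A) (hT : 2 * A ≤ T) {g : Sp n → ℝ} (hg : Continuous g)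
    (hg0 : ∀ x, A ≤ ‖x‖ → g x = 0) {Φ : ℝ → ℝ} (hΦ : Continuous Φ) {P : ℕ → Sp n → ℝ}
    {p : Sp n → ℝ} (hP : ∀ k, Continuous (P k)) (hp : Continuous p)
    (hu : ∀ ε : ℝ, 0 < ε → ∀ᶠ k in (U : Filter ℕ), ∀ x, ‖x‖ ≤ A → |P k x - p x| ≤ ε) :
    Tendsto (fun k => ∫ y in ball 0 T, g (tPart B.le y) * Φ (P k (tPart B.le y)) ∂B.m k) U
      (𝓝 (a * ∫ x, g x * Φ (p x))) := by
  refine B.tendsto_uniform hU hlim hA hT (F := fun k x => g x * Φ (P k x)) (hg.mul (hΦ.comp hp))
    (fun k => hg.mul (hΦ.comp (hP k))) (fun x hx => by simp [hg0 x hx]) fun ε hε => ?_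
  obtain ⟨M, hM⟩ := (isCompact_closedBall (0 : Sp n) A).exists_bound_of_continuousOn hp.continuousOn
  obtain ⟨G, hG⟩ := (isCompact_closedBall (0 : Sp n) A).exists_bound_of_continuousOn hg.continuousOn
  obtain ⟨δ, hδ, hδ'⟩ := Metric.uniformContinuousOn_iff.1
    ((isCompact_Icc (a := -(|M| + 1)) (b := |M| + 1)).uniformContinuousOn_of_continuous
      hΦ.continuousOn) (ε / (|G| + 1)) (by positivity)
  filter_upwards [hu (min 1 (δ / 2)) (by positivity)] with k hk x
  rcases le_or_gt A ‖x‖ with hx | hx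
  · simp [hg0 x hx, hε.le]
  have h1 := hk x hx.le
  have h2 : |p x| ≤ |M| := (hM x (mem_closedBall_zero_iff.2 hx.le)).trans (le_abs_self M)
  have h3 : |g x| ≤ |G| + 1 :=
    (hG x (mem_closedBall_zero_iff.2 hx.le)).trans (by linarith [le_abs_self G])
  have h4 : |P k x - p x| ≤ 1 := h1.trans (min_le_left _ _)
  have h5 : |P k x - p x| ≤ δ / 2 := h1.trans (min_le_right _ _)
  rw [abs_le] at h2 h4
  have h6 := hδ' (P k x) ⟨by linarith, by linarith⟩ (p x) ⟨by linarith, by linarith⟩
    (by rw [Real.dist_eq]; linarith)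
  rw [Real.dist_eq] at h6
  rw [← mul_sub, abs_mul]
  calc |g x| * |Φ (P k x) - Φ (p x)| ≤ (|G| + 1) * (ε / (|G| + 1)) :=
        mul_le_mul h3 h6.le (abs_nonneg _) (by positivity)
    _ = ε := by field_simp

include hU ha hi

lemma continuous_u (j : ℕ) : Continuous (B.mlim U a i (rad j)) :=
  B.continuous_mlim hU ha hi (rad_pos j) (rad_le_one j)

lemma stronglyMeasurable_vlim : StronglyMeasurable (B.vlim U a i) :=
  StronglyMeasurable.limUnder fun j => (B.continuous_u hU ha hi j).stronglyMeasurable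

include hlim

/-- Two averages are close in mean square. -/
lemma diff_le {A : ℝ} (hA : 0 ≤ A) :
    ∃ C : ℝ, 0 ≤ C ∧ ∀ ρ ρ' : ℝ, 0 < ρ → ρ ≤ 1 → 0 < ρ' → ρ' ≤ 1 →
      ∫ x in ball (0 : Sp n) A, (B.mlim U a i ρ x - B.mlim U a i ρ' x) ^ 2 ≤ C * (ρ + ρ') := by
  set T := 2 * (A + 1) with hT
  set T' := 2 * (T + 2) with hT'
  obtain ⟨C, hC0, hC⟩ := B.key hU ha hlim (A := T) (by linarith)
  refine ⟨2 * C / a, by positivity, fun ρ ρ' hρ hρ1 hρ' hρ1' => ?_⟩
  have hP : ∀ r, 0 < r → ∀ k, Continuous (B.moll a i T' r k) := fun r hr k =>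
    B.continuous_moll ha hi k (by linarith) hr
  have hp : Continuous fun x => B.mlim U a i ρ x - B.mlim U a i ρ' x :=
    (B.continuous_mlim hU ha hi hρ hρ1).sub (B.continuous_mlim hU ha hi hρ' hρ1')
  have hlimit := B.tendsto_comp hU hlim (show 1 ≤ A + 1 by linarith) (T := T) le_rfl
    (g := cut A) (continuous_cut A) (fun x hx => cut_eq_zero hx) (Φ := fun s => s ^ 2)
    (continuous_pow 2) (P := fun k x => B.moll a i T' ρ k x - B.moll a i T' ρ' k x)
    (fun k => (hP ρ hρ k).sub (hP ρ' hρ' k)) hp fun ε hε => by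
      filter_upwards [B.mlim_uniform hU ha hi hρ hρ1 (show 0 ≤ A + 1 by linarith) (T := T')
          (by linarith) (half_pos hε), B.mlim_uniform hU ha hi hρ' hρ1'
          (show 0 ≤ A + 1 by linarith) (T := T') (by linarith) (half_pos hε)] with k h1 h2 x hx
      have := h1 x hx
      have := h2 x hx
      rw [abs_le] at *
      constructor <;> linarith
  have hle : a * ∫ x, cut A x * (B.mlim U a i ρ x - B.mlim U a i ρ' x) ^ 2 ≤
      2 * C * (ρ + ρ') := by
    refine le_of_forall_pos_le_add fun ε hε => le_of_tendsto hlimit ?_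
    filter_upwards [hC i hi ρ hρ hρ1 (ε / 4) (by linarith),
      hC i hi ρ' hρ' hρ1' (ε / 4) (by linarith)] with k h1 h2
    have hc := (lipschitz_tPart (n := n) B.le).continuous
    have c1 : Continuous fun y => (B.ht i k y - B.moll a i T' ρ k (tPart B.le y)) ^ 2 :=
      ((B.continuous_ht i k).sub ((hP ρ hρ k).comp hc)).pow 2
    have c2 : Continuous fun y => (B.ht i k y - B.moll a i T' ρ' k (tPart B.le y)) ^ 2 :=
      ((B.continuous_ht i k).sub ((hP ρ' hρ' k).comp hc)).pow 2
    refine (setIntegral_mono_on (g := fun y =>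
      2 * (B.ht i k y - B.moll a i T' ρ k (tPart B.le y)) ^ 2 +
        2 * (B.ht i k y - B.moll a i T' ρ' k (tPart B.le y)) ^ 2) ?_ ?_ measurableSet_ball
      fun y _ => ?_).trans ?_
    · exact B.intOn (((continuous_cut A).comp hc).mul
        ((((hP ρ hρ k).sub (hP ρ' hρ' k)).comp hc).pow 2)) k T
    · exact ((B.intOn c1 k T).const_mul 2).add ((B.intOn c2 k T).const_mul 2)
    · refine (mul_le_of_le_one_left (sq_nonneg _) (cut_le_one A _)).trans ?_
      nlinarith [sq_nonneg ((B.ht i k y - B.moll a i T' ρ k (tPart B.le y)) +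
        (B.ht i k y - B.moll a i T' ρ' k (tPart B.le y)))]
    · rw [integral_add ((B.intOn c1 k T).const_mul 2) ((B.intOn c2 k T).const_mul 2),
        integral_const_mul, integral_const_mul]
      linarith
  have hint : Integrable fun x => cut A x * (B.mlim U a i ρ x - B.mlim U a i ρ' x) ^ 2 :=
    integrable_of_support ((continuous_cut A).mul (hp.pow 2)) (A := A + 1)
      fun x hx => by simp [cut_eq_zero hx]
  calc ∫ x in ball (0 : Sp n) A, (B.mlim U a i ρ x - B.mlim U a i ρ' x) ^ 2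
      = ∫ x in ball (0 : Sp n) A, cut A x * (B.mlim U a i ρ x - B.mlim U a i ρ' x) ^ 2 :=
        setIntegral_congr_fun measurableSet_ball fun x hx => by
          simp only [cut_eq_one (mem_ball_zero_iff.1 hx).le, one_mul]
    _ ≤ ∫ x, cut A x * (B.mlim U a i ρ x - B.mlim U a i ρ' x) ^ 2 :=
        setIntegral_le_integral hint
          (Eventually.of_forall fun x => mul_nonneg (cut_nonneg _ _) (sq_nonneg _))
    _ ≤ 2 * C / a * (ρ + ρ') := by
        rw [div_mul_eq_mul_div, le_div_iff₀ ha, mul_comm]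
        exact hle

/-- The averages converge almost everywhere to the limit. -/
lemma ae_tendsto_vlim :
    ∀ᵐ x : Sp n, Tendsto (fun j => B.mlim U a i (rad j) x) atTop (𝓝 (B.vlim U a i x)) := by
  have hN : ∀ N : ℕ, ∀ᵐ x : Sp n, ‖x‖ < N →
      CauchySeq (fun j => B.mlim U a i (rad j) x) := fun N => by
    obtain ⟨C, hC0, hC⟩ := B.diff_le hU ha hlim hi (Nat.cast_nonneg N)
    let g : ℕ → Sp n → ℝ := fun j x =>
      2 ^ j * (B.mlim U a i (rad j) x - B.mlim U a i (rad (j + 1)) x) ^ 2
    have hgc : ∀ j, Continuous (g j) := fun j =>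
      continuous_const.mul (((B.continuous_u hU ha hi j).sub (B.continuous_u hU ha hi (j + 1))).pow 2)
    have hg : ∀ j, ∫ x in ball (0 : Sp n) N, g j x ≤ 2 * C * (2⁻¹ : ℝ) ^ j := fun j => by
      rw [integral_const_mul]
      refine (mul_le_mul_of_nonneg_left (hC _ _ (rad_pos j) (rad_le_one j) (rad_pos (j + 1))
        (rad_le_one _)) (by positivity)).trans ?_
      have e : (2 : ℝ) ^ j * rad j = (2⁻¹) ^ j := by rw [rad, ← mul_pow]; norm_num
      have h4 : rad (j + 1) ≤ rad j := pow_le_pow_of_le_one (by norm_num) (by norm_num) j.le_succ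
      rw [← e]
      nlinarith [mul_le_mul_of_nonneg_left h4 (by positivity : (0 : ℝ) ≤ 2 ^ j * C)]
    have hfin : ∫⁻ x in ball (0 : Sp n) N, ∑' j, ENNReal.ofReal (g j x) ≠ ∞ := by
      rw [lintegral_tsum fun j => (hgc j).measurable.ennreal_ofReal.aemeasurable]
      refine ne_top_of_le_ne_top (b := ∑' j, ENNReal.ofReal (2 * C * (2⁻¹ : ℝ) ^ j)) ?_
        (ENNReal.tsum_le_tsum fun j => ?_)
      · exact ((summable_geometric_of_lt_one (by norm_num) (by norm_num : (2⁻¹ : ℝ) < 1)).mul_left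
          (2 * C)).tsum_ofReal_ne_top
      · rw [← ofReal_integral_eq_lintegral_ofReal (intOn_vol (hgc j) _)
          (Eventually.of_forall fun x => by positivity)]
        exact ENNReal.ofReal_le_ofReal (hg j)
    have hae := ae_lt_top' (AEMeasurable.tsum fun j =>
      (hgc j).measurable.ennreal_ofReal.aemeasurable) hfin
    rw [ae_restrict_iff' measurableSet_ball] at hae
    filter_upwards [hae] with x hx hxN
    set M := (∑' j, ENNReal.ofReal (g j x)).toReal
    refine cauchySeq_of_le_geometric (√2⁻¹) (√M)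
      ((Real.sqrt_lt' one_pos).2 (by norm_num)) fun j => ?_
    have hj : g j x ≤ M := by
      have := ENNReal.toReal_mono (hx (mem_ball_zero_iff.2 hxN)).ne (ENNReal.le_tsum j)
      rwa [ENNReal.toReal_ofReal (by positivity)] at this
    have hM : 0 ≤ M := ENNReal.toReal_nonneg
    rw [Real.dist_eq, ← Real.sqrt_sq_eq_abs]
    have e : √M * √2⁻¹ ^ j = √(M * 2⁻¹ ^ j) := by
      rw [Real.sqrt_mul hM]
      congr 1
      rw [← Real.sqrt_sq (show (0:ℝ) ≤ √2⁻¹ ^ j by positivity), ← pow_mul, mul_comm j 2, pow_mul,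
        Real.sq_sqrt (by norm_num)]
    rw [e]
    refine Real.sqrt_le_sqrt ?_
    rw [inv_pow, ← div_eq_mul_inv, le_div_iff₀ (by positivity), mul_comm]
    exact hj
  filter_upwards [ae_all_iff.2 hN] with x hx
  obtain ⟨N, hxN⟩ := exists_nat_gt ‖x‖
  exact tendsto_nhds_limUnder (cauchySeq_tendsto_of_complete (hx N hxN))

lemma close {A : ℝ} (hA : 0 ≤ A) :
    ∃ C : ℝ, 0 ≤ C ∧ ∀ j,
      IntegrableOn (fun x => (B.mlim U a i (rad j) x - B.vlim U a i x) ^ 2) (ball 0 A) ∧
      ∫ x in ball (0 : Sp n) A, (B.mlim U a i (rad j) x - B.vlim U a i x) ^ 2 ≤ C * rad j := by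
  obtain ⟨C, hC0, hC⟩ := B.diff_le hU ha hlim hi hA
  refine ⟨C, hC0, fun j => fatou_real
    (f := fun l x => (B.mlim U a i (rad j) x - B.mlim U a i (rad l) x) ^ 2)
    (fun l => intOn_vol (f := fun x => (B.mlim U a i (rad j) x - B.mlim U a i (rad l) x) ^ 2)
      (((B.continuous_u hU ha hi j).sub (B.continuous_u hU ha hi l)).pow 2) A)
    (fun l x => sq_nonneg _)
    (((B.continuous_u hU ha hi j).stronglyMeasurable.sub
      (B.stronglyMeasurable_vlim hU ha hi)).pow 2).aestronglyMeasurable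
    ((ae_restrict_of_ae (B.ae_tendsto_vlim hU ha hlim hi)).mono fun x hx =>
      ((tendsto_const_nhds.sub hx).pow 2)) fun ε hε => ?_⟩
  filter_upwards [rad_eventually (C := C) hε] with l hl
  refine (hC _ _ (rad_pos j) (rad_le_one j) (rad_pos l) (rad_le_one l)).trans ?_
  rw [mul_add]
  linarith

/-- The limit has growth below two. -/
lemma moment_vlim {R : ℝ} (hR : 1 ≤ R) :
    IntegrableOn (fun x => B.vlim U a i x ^ 2) (ball 0 R) ∧
      ∫ x in ball (0 : Sp n) R, B.vlim U a i x ^ 2 ≤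
        2 * |B.D| * 4 ^ (n + 3) / a * R ^ (n + 3) := by
  set T := 2 * (R + 1) with hT
  set T' := 2 * (T + 2) with hT'
  obtain ⟨C, hC0, hC⟩ := B.key hU ha hlim (A := T) (by linarith)
  have hb : ∀ j, ∫ x in ball (0 : Sp n) R, B.mlim U a i (rad j) x ^ 2 ≤
      2 * |B.D| * 4 ^ (n + 3) / a * R ^ (n + 3) + 2 * C / a * rad j := by
    intro j
    have hc' := B.continuous_u hU ha hi j
    have hP : ∀ k, Continuous (B.moll a i T' (rad j) k) := fun k =>
      B.continuous_moll ha hi k (by linarith) (rad_pos j)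
    have hlimit := B.tendsto_comp hU hlim (show 1 ≤ R + 1 by linarith) (T := T) le_rfl
      (g := cut R) (continuous_cut R) (fun x hx => cut_eq_zero hx) (Φ := fun s => s ^ 2)
      (continuous_pow 2) hP hc' fun ε hε =>
        B.mlim_uniform hU ha hi (rad_pos j) (rad_le_one j) (by linarith) (by linarith) hε
    have hle : a * ∫ x, cut R x * B.mlim U a i (rad j) x ^ 2 ≤
        2 * |B.D| * 4 ^ (n + 3) * R ^ (n + 3) + 2 * C * rad j := by
      refine le_of_forall_pos_le_add fun ε hε => le_of_tendsto hlimit ?_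
      filter_upwards [hC i hi (rad j) (rad_pos j) (rad_le_one j) (ε / 2) (half_pos hε)] with k hk
      have hc := (lipschitz_tPart (n := n) B.le).continuous
      have c1 : Continuous fun y => B.ht i k y ^ 2 := (B.continuous_ht i k).pow 2
      have c2 : Continuous fun y => (B.ht i k y - B.moll a i T' (rad j) k (tPart B.le y)) ^ 2 :=
        ((B.continuous_ht i k).sub ((hP k).comp hc)).pow 2
      refine (setIntegral_mono_on (g := fun y => 2 * B.ht i k y ^ 2 +
        2 * (B.ht i k y - B.moll a i T' (rad j) k (tPart B.le y)) ^ 2) ?_ ?_ measurableSet_ball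
        fun y _ => ?_).trans ?_
      · exact B.intOn (((continuous_cut R).comp hc).mul (((hP k).comp hc).pow 2)) k T
      · exact ((B.intOn c1 k T).const_mul 2).add ((B.intOn c2 k T).const_mul 2)
      · refine (mul_le_of_le_one_left (sq_nonneg _) (cut_le_one R _)).trans ?_
        nlinarith [sq_nonneg (2 * B.ht i k y - B.moll a i T' (rad j) k (tPart B.le y))]
      · rw [integral_add ((B.intOn c1 k T).const_mul 2) ((B.intOn c2 k T).const_mul 2),
          integral_const_mul, integral_const_mul]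
        have h1 := B.integral_ht_sq hi k (show 1 ≤ T by linarith)
        have h2 : B.D * T ^ (n + 3) ≤ |B.D| * 4 ^ (n + 3) * R ^ (n + 3) := by
          rw [mul_assoc, ← mul_pow]
          exact mul_le_mul (le_abs_self _) (pow_le_pow_left₀ (by linarith) (by linarith) _)
            (by positivity) (abs_nonneg _)
        linarith
    calc ∫ x in ball (0 : Sp n) R, B.mlim U a i (rad j) x ^ 2
        = ∫ x in ball (0 : Sp n) R, cut R x * B.mlim U a i (rad j) x ^ 2 :=
          setIntegral_congr_fun measurableSet_ball fun x hx => by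
            simp only [cut_eq_one (mem_ball_zero_iff.1 hx).le, one_mul]
      _ ≤ ∫ x, cut R x * B.mlim U a i (rad j) x ^ 2 :=
          setIntegral_le_integral
            (integrable_of_support ((continuous_cut R).mul (hc'.pow 2)) (A := R + 1)
              fun x hx => by simp [cut_eq_zero hx])
            (Eventually.of_forall fun x => mul_nonneg (cut_nonneg _ _) (sq_nonneg _))
      _ ≤ (2 * |B.D| * 4 ^ (n + 3) * R ^ (n + 3) + 2 * C * rad j) / a := by
          rw [le_div_iff₀ ha, mul_comm]; exact hle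
      _ = _ := by ring
  refine fatou_real (f := fun j x => B.mlim U a i (rad j) x ^ 2)
    (fun j => intOn_vol (f := fun x => B.mlim U a i (rad j) x ^ 2)
      ((B.continuous_u hU ha hi j).pow 2) R) (fun j x => sq_nonneg _)
    ((B.stronglyMeasurable_vlim hU ha hi).pow 2).aestronglyMeasurable
    ((ae_restrict_of_ae (B.ae_tendsto_vlim hU ha hlim hi)).mono fun x hx => hx.pow 2)
    fun ε hε => ?_
  filter_upwards [rad_eventually (C := 2 * C / a) hε] with j hj
  linarith [hb j]

lemma vlim_sq_intOn (A : ℝ) : IntegrableOn (fun x => B.vlim U a i x ^ 2) (ball 0 A) :=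
  ((B.moment_vlim hU ha hlim hi (le_max_left 1 A)).1).mono_set (ball_subset_ball (le_max_right _ _))

/-- **The heights tend weakly to the limit.** -/
theorem weak {g : Sp n → ℝ} (hg : Continuous g) {A : ℝ} (hA : 1 ≤ A)
    (hg0 : ∀ x, A ≤ ‖x‖ → g x = 0) {T : ℝ} (hT : 2 * A ≤ T) :
    Tendsto (fun k => ∫ y in ball 0 T, g (tPart B.le y) * B.ht i k y ∂B.m k) U
      (𝓝 (a * ∫ x, g x * B.vlim U a i x)) := by
  set T' := 2 * (T + 2) with hT'
  obtain ⟨C, hC0, hC⟩ := B.key hU ha hlim (A := T) (by linarith)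
  obtain ⟨C', hC0', hC'⟩ := B.close hU ha hlim hi (show 0 ≤ A by linarith)
  obtain ⟨M, hM⟩ := (isCompact_closedBall (0 : Sp n) A).exists_bound_of_continuousOn hg.continuousOn
  have hM' : ∀ x, |g x| ≤ |M| := fun x => by
    rcases le_or_gt A ‖x‖ with h | h
    · simp [hg0 x h]
    · exact (hM x (mem_closedBall_zero_iff.2 h.le)).trans (le_abs_self M)
  have hC₀ := B.C₀_pos
  have hT0 : 0 < T := by linarith
  have hc := (lipschitz_tPart (n := n) B.le).continuous
  set V := (volume : Measure (Sp n)).real (ball 0 A)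
  rw [Metric.tendsto_nhds]
  intro ε hε
  -- the scale of averaging
  set s := ε / (4 * ((|M| + 1) * (C₀ * T ^ n + a * (V + 1) + 1))) with hs
  have hV : 0 ≤ V := measureReal_nonneg
  have hs0 : 0 < s := by positivity
  obtain ⟨j, hj, hj'⟩ := ((rad_eventually (C := C) (mul_pos hs0 hs0)).and
    (rad_eventually (C := C') (mul_pos hs0 hs0))).exists
  have hu := B.continuous_u hU ha hi j
  have hP : ∀ k, Continuous (B.moll a i T' (rad j) k) := fun k =>
    B.continuous_moll ha hi k (by linarith) (rad_pos j)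
  have hlimit := B.tendsto_comp hU hlim hA hT hg hg0 (Φ := id) continuous_id hP hu fun ε hε =>
    B.mlim_uniform hU ha hi (rad_pos j) (rad_le_one j) (by linarith) (by linarith) hε
  -- the error on the plane
  have hI : |(∫ x, g x * B.mlim U a i (rad j) x) - ∫ x, g x * B.vlim U a i x| ≤
      |M| * (s * V + s) := by
    have hsq := hC' j
    have hv1 : IntegrableOn (B.vlim U a i) (ball 0 A) := by
      refine Integrable.mono' (((integrableOn_const (C := (1 : ℝ)) measure_ball_lt_top.ne).add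
        (B.vlim_sq_intOn hU ha hlim hi A)))
        (B.stronglyMeasurable_vlim hU ha hi).aestronglyMeasurable (Eventually.of_forall fun x => ?_)
      simp only [Pi.add_apply, Real.norm_eq_abs]
      nlinarith [sq_nonneg (|B.vlim U a i x| - 1), sq_abs (B.vlim U a i x),
        abs_nonneg (B.vlim U a i x)]
    have h1 : IntegrableOn (fun x => g x * B.mlim U a i (rad j) x) (ball 0 A) :=
      intOn_vol (hg.mul hu) A
    have h2 : IntegrableOn (fun x => g x * B.vlim U a i x) (ball 0 A) :=
      hv1.bdd_mul hg.aestronglyMeasurable (Eventually.of_forall hM')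
    have : IsFiniteMeasure (volume.restrict (ball (0 : Sp n) A)) :=
      isFiniteMeasure_restrict.2 measure_ball_lt_top.ne
    rw [integral_eq_ball (A := A) (fun x hx => by simp [hg0 x hx]),
      integral_eq_ball (A := A) (fun x hx => by simp [hg0 x hx]), ← integral_sub h1 h2]
    simp only [← mul_sub]
    refine (abs_integral_mul_le hs0 (abs_nonneg M) hM' ?_ hsq.1).trans ?_
    · exact (h1.sub h2).congr (Eventually.of_forall fun x => (mul_sub _ _ _).symm)
    · rw [measureReal_restrict_apply MeasurableSet.univ, Set.univ_inter]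
      refine mul_le_mul_of_nonneg_left (add_le_add le_rfl ?_) (abs_nonneg _)
      rw [div_le_iff₀ hs0]
      exact hsq.2.trans hj'
  filter_upwards [hC i hi (rad j) (rad_pos j) (rad_le_one j) (s * s) (mul_pos hs0 hs0),
    Metric.tendsto_nhds.1 hlimit (ε / 4) (by linarith)] with k hk hk'
  simp only [id_eq] at hk'
  -- the error on the measure
  have hJ : |(∫ y in ball 0 T, g (tPart B.le y) * B.ht i k y ∂B.m k) -
      ∫ y in ball 0 T, g (tPart B.le y) * B.moll a i T' (rad j) k (tPart B.le y) ∂B.m k| ≤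
        |M| * (s * (C₀ * T ^ n) + 2 * s) := by
    have c1 : Continuous fun y => g (tPart B.le y) * B.ht i k y :=
      (hg.comp hc).mul (B.continuous_ht i k)
    have c2 : Continuous fun y => g (tPart B.le y) * B.moll a i T' (rad j) k (tPart B.le y) :=
      (hg.comp hc).mul ((hP k).comp hc)
    have c3 : Continuous fun y =>
        (B.ht i k y - B.moll a i T' (rad j) k (tPart B.le y)) ^ 2 :=
      ((B.continuous_ht i k).sub ((hP k).comp hc)).pow 2
    have hfin := (B.reg k).fin (0 : Sp d) T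
    have : IsFiniteMeasure ((B.m k).restrict (ball (0 : Sp d) T)) :=
      isFiniteMeasure_restrict.2 hfin
    rw [← integral_sub (B.intOn c1 k T) (B.intOn c2 k T)]
    simp only [← mul_sub]
    refine (abs_integral_mul_le hs0 (abs_nonneg M) (fun y => hM' _) ?_ (B.intOn c3 k T)).trans ?_
    · exact ((B.intOn c1 k T).sub (B.intOn c2 k T)).congr
        (Eventually.of_forall fun y => (mul_sub _ _ _).symm)
    · rw [measureReal_restrict_apply MeasurableSet.univ, Set.univ_inter]
      refine mul_le_mul_of_nonneg_left (add_le_add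
        (mul_le_mul_of_nonneg_left (B.mass_le k hT0) hs0.le) ?_) (abs_nonneg _)
      rw [div_le_iff₀ hs0]
      nlinarith
  rw [Real.dist_eq] at hk' ⊢
  have e : (|M| + 1) * (C₀ * T ^ n + a * (V + 1) + 1) * s = ε / 4 := by rw [hs]; field_simp
  have ha' : |a * (∫ x, g x * B.mlim U a i (rad j) x) - a * ∫ x, g x * B.vlim U a i x| ≤
      a * (|M| * (s * V + s)) := by
    rw [← mul_sub, abs_mul, abs_of_pos ha]
    exact mul_le_mul_of_nonneg_left hI ha.le
  have hA' : 0 ≤ C₀ * T ^ n := by positivity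
  have hV' : 0 ≤ a * (V + 1) := by positivity
  have b1 : |M| * (s * (C₀ * T ^ n) + 2 * s) ≤ ε / 2 := by
    nlinarith [mul_nonneg (mul_nonneg (abs_nonneg M) hs0.le) hV', mul_nonneg hs0.le hA',
      mul_nonneg hs0.le hV', mul_nonneg (mul_nonneg (abs_nonneg M) hs0.le) hA']
  have b2 : a * (|M| * (s * V + s)) ≤ ε / 4 := by
    nlinarith [mul_nonneg (mul_nonneg (abs_nonneg M) hs0.le) hA', mul_nonneg hs0.le hA',
      mul_nonneg hs0.le hV', mul_nonneg (abs_nonneg M) hs0.le]
  rw [abs_lt] at hk' ⊢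
  rw [abs_le] at hJ ha'
  constructor <;> linarith

/-- **Where the limit is continuous the heights tend to it in mean square.** -/
theorem strong {ℓ : Sp n → ℝ} (hℓ : Continuous ℓ) (hv : B.vlim U a i =ᵐ[volume] ℓ) {ε : ℝ}
    (hε : 0 < ε) :
    ∀ᶠ k in (U : Filter ℕ),
      ∫ y in ball 0 2, (B.ht i k y - ℓ (tPart B.le y)) ^ 2 ∂B.m k ≤ ε := by
  obtain ⟨C, hC0, hC⟩ := B.key hU ha hlim (A := 6) (by norm_num)
  obtain ⟨C', hC0', hC'⟩ := B.close hU ha hlim hi (show (0:ℝ) ≤ 3 by norm_num)
  obtain ⟨j, hj, hj'⟩ := ((rad_eventually (C := C) (show 0 < ε / 16 by linarith)).and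
    (rad_eventually (C := a * C') (show 0 < ε / 16 by linarith))).exists
  have hu := B.continuous_u hU ha hi j
  have hP : ∀ k, Continuous (B.moll a i (2 * (6 + 2)) (rad j) k) := fun k =>
    B.continuous_moll ha hi k (by norm_num) (rad_pos j)
  have hlimit := B.tendsto_comp hU hlim (show (1:ℝ) ≤ 2 + 1 by norm_num) (T := 6) (by norm_num)
    (g := cut 2) (continuous_cut 2) (fun x hx => cut_eq_zero hx) (Φ := fun s => s ^ 2)
    (continuous_pow 2) (P := fun k x => B.moll a i (2 * (6 + 2)) (rad j) k x - ℓ x)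
    (fun k => (hP k).sub hℓ) (hu.sub hℓ) fun ε hε => by
      filter_upwards [B.mlim_uniform hU ha hi (rad_pos j) (rad_le_one j)
        (show (0:ℝ) ≤ 2 + 1 by norm_num) (T := 2 * (6 + 2)) (by norm_num) hε] with k hk x hx
      simpa using hk x hx
  have hI : ∫ x, cut 2 x * (B.mlim U a i (rad j) x - ℓ x) ^ 2 ≤ C' * rad j := by
    rw [integral_eq_ball (A := 3) (fun x hx => by
      rw [cut_eq_zero (by linarith), zero_mul])]
    refine le_trans ?_ (hC' j).2
    refine integral_mono_ae (intOn_vol ((continuous_cut 2).mul ((hu.sub hℓ).pow 2)) 3) (hC' j).1 ?_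
    filter_upwards [ae_restrict_of_ae hv] with x hx
    rw [hx]
    exact mul_le_of_le_one_left (sq_nonneg _) (cut_le_one 2 x)
  filter_upwards [hC i hi (rad j) (rad_pos j) (rad_le_one j) (ε / 16) (by linarith),
    Metric.tendsto_nhds.1 hlimit (ε / 16) (by linarith)] with k hk hk'
  rw [Real.dist_eq, abs_lt] at hk'
  have hc := (lipschitz_tPart (n := n) B.le).continuous
  have c1 : Continuous fun y => (B.ht i k y - B.moll a i (2 * (6 + 2)) (rad j) k (tPart B.le y)) ^ 2 :=
    ((B.continuous_ht i k).sub ((hP k).comp hc)).pow 2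
  have c2 : Continuous fun y => cut 2 (tPart B.le y) *
      (B.moll a i (2 * (6 + 2)) (rad j) k (tPart B.le y) - ℓ (tPart B.le y)) ^ 2 :=
    ((continuous_cut 2).comp hc).mul ((((hP k).sub hℓ).comp hc).pow 2)
  have hsub : ball (0 : Sp d) 2 ⊆ ball 0 6 := ball_subset_ball (by norm_num)
  have i1 : IntegrableOn (fun y =>
      2 * (B.ht i k y - B.moll a i (2 * (6 + 2)) (rad j) k (tPart B.le y)) ^ 2 +
        2 * (cut 2 (tPart B.le y) *
          (B.moll a i (2 * (6 + 2)) (rad j) k (tPart B.le y) - ℓ (tPart B.le y)) ^ 2))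
      (ball 0 2) (B.m k) :=
    B.intOn ((continuous_const.mul c1).add (continuous_const.mul c2)) k 2
  have i0 : IntegrableOn (fun y => (B.ht i k y - ℓ (tPart B.le y)) ^ 2) (ball 0 2) (B.m k) :=
    B.intOn (((B.continuous_ht i k).sub (hℓ.comp hc)).pow 2) k 2
  refine (setIntegral_mono_on i0 i1 measurableSet_ball fun y hy => ?_).trans ?_
  · rw [cut_eq_one ((norm_tPart_le B.le y).trans (mem_ball_zero_iff.1 hy).le), one_mul]
    nlinarith [sq_nonneg ((B.ht i k y - B.moll a i (2 * (6 + 2)) (rad j) k (tPart B.le y)) -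
      (B.moll a i (2 * (6 + 2)) (rad j) k (tPart B.le y) - ℓ (tPart B.le y)))]
  · rw [integral_add ((B.intOn c1 k 2).const_mul 2) ((B.intOn c2 k 2).const_mul 2),
      integral_const_mul, integral_const_mul]
    have m1 := setIntegral_mono_set (B.intOn c1 k 6) (Eventually.of_forall fun y => sq_nonneg _)
      hsub.eventuallyLE
    have m2 := setIntegral_mono_set (B.intOn c2 k 6)
      (Eventually.of_forall fun y => mul_nonneg (cut_nonneg _ _) (sq_nonneg _)) hsub.eventuallyLE
    simp only [Pi.sub_apply] at hk'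
    have h3 : a * ∫ x, cut 2 x * (B.mlim U a i (rad j) x - ℓ x) ^ 2 ≤ ε / 16 := by
      refine (mul_le_mul_of_nonneg_left hI ha.le).trans ?_
      rw [← mul_assoc]; exact hj'
    have q1 : ∫ y in ball 0 2,
        (B.ht i k y - B.moll a i (2 * (6 + 2)) (rad j) k (tPart B.le y)) ^ 2 ∂B.m k ≤ ε / 8 :=
      m1.trans (hk.trans (by linarith))
    have q2 : ∫ y in ball 0 2, cut 2 (tPart B.le y) *
        (B.moll a i (2 * (6 + 2)) (rad j) k (tPart B.le y) - ℓ (tPart B.le y)) ^ 2 ∂B.m k ≤ ε / 8 :=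
      m2.trans (by
        have h4 := hk'.2
        rw [sub_lt_iff_lt_add] at h4
        exact h4.le.trans (by linarith))
    exact (add_le_add (mul_le_mul_of_nonneg_left q1 zero_le_two)
      (mul_le_mul_of_nonneg_left q2 zero_le_two)).trans (by linarith)

omit hU ha hlim hi in
/-- The energy of the averages, cut off near the diagonal, against that of the heights. -/
lemma double_le (k : ℕ) {T δ R : ℝ} (hT : 0 < T) (hδ : 0 < δ) {P : Sp n → ℝ} (hP : Continuous P)
    (hthin : ∀ y ∈ (B.m k).support, ‖y‖ < T → ‖nPart n y‖ ≤ δ / 2) :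
    ∫ y in ball 0 T, ∫ z in ball 0 T, wq R δ P (tPart B.le y, tPart B.le z) ∂B.m k ∂B.m k ≤
      3 * 2 ^ (n + 1) * (∫ y in ball 0 T, ∫ z in ball 0 T, B.quot i k y z ∂B.m k ∂B.m k) +
        6 * (C₀ * T ^ n) * (δ ^ (n + 1))⁻¹ *
          ∫ y in ball 0 T, (B.ht i k y - P (tPart B.le y)) ^ 2 ∂B.m k := by
  have hc := (lipschitz_tPart (n := n) B.le).continuous
  set e := fun y => (B.ht i k y - P (tPart B.le y)) ^ 2 with he
  have hec : Continuous e := ((B.continuous_ht i k).sub (hP.comp hc)).pow 2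
  have he0 : ∀ y, 0 ≤ e y := fun y => sq_nonneg _
  set D := (δ ^ (n + 1))⁻¹ with hD
  have hD0 : 0 < D := by positivity
  set Se := ∫ y in ball 0 T, e y ∂B.m k with hSe
  have hSe0 : 0 ≤ Se := integral_nonneg he0
  have hfin := (B.reg k).fin (0 : Sp d) T
  have hin : ∀ᵐ y ∂(B.m k).restrict (ball 0 T),
      ∫ z in ball 0 T, wq R δ P (tPart B.le y, tPart B.le z) ∂B.m k ≤
        3 * D * (C₀ * T ^ n) * e y + 3 * 2 ^ (n + 1) * (∫ z in ball 0 T, B.quot i k y z ∂B.m k)
          + 3 * D * Se := by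
    rw [ae_restrict_iff' measurableSet_ball]
    filter_upwards [B.ae_support k] with y hys hyT
    rw [mem_ball_zero_iff] at hyT
    have i1 : IntegrableOn (fun _ : Sp d => 3 * D * e y) (ball 0 T) (B.m k) :=
      integrableOn_const hfin
    have i2 := (B.integrableOn_quot i k y T).const_mul (3 * 2 ^ (n + 1))
    have i3 := (B.intOn hec k T).const_mul (3 * D)
    have i12 : Integrable (fun z => 3 * D * e y + 3 * 2 ^ (n + 1) * B.quot i k y z)
        ((B.m k).restrict (ball 0 T)) := i1.add i2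
    refine (integral_mono_ae (g := fun z => 3 * D * e y + 3 * 2 ^ (n + 1) * B.quot i k y z +
      3 * D * e z) (B.intOn ((continuous_wq hδ hP).comp (continuous_const.prodMk hc)) k T)
      (i12.add i3) ?_).trans ?_
    · rw [EventuallyLE, ae_restrict_iff' measurableSet_ball]
      filter_upwards [B.ae_support k] with z hzs hzT
      rw [mem_ball_zero_iff] at hzT
      set x := tPart B.le y
      set x' := tPart B.le z
      have hK0 : 0 ≤ kcut n δ (x - x') := kcut_nonneg hδ _
      have hq : (B.ht i k y - B.ht i k z) ^ 2 * kcut n δ (x - x') ≤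
          2 ^ (n + 1) * B.quot i k y z := by
        rcases eq_or_ne y z with rfl | hne
        · simp [quot]
        have h0 : 0 < ‖y - z‖ := norm_pos_iff.2 (sub_ne_zero.2 hne)
        rw [quot, mul_div_assoc', kcut, ← div_eq_mul_inv,
          div_le_div_iff₀ (pow_pos (lt_max_of_lt_right hδ) _) (by positivity),
          mul_comm (2 ^ (n + 1) : ℝ), mul_assoc, ← mul_pow]
        refine mul_le_mul_of_nonneg_left (pow_le_pow_left₀ h0.le ?_ _) (sq_nonneg _)
        have h1 := norm_le_parts B.le (y - z)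
        rw [tPart_sub, nPart_sub] at h1
        linarith [le_max_left ‖x - x'‖ δ, le_max_right ‖x - x'‖ δ,
          norm_sub_le (nPart n y) (nPart n z), hthin y hys hyT, hthin z hzs hzT]
      have hcut : cut R x * cut R x' ≤ 1 :=
        mul_le_one₀ (cut_le_one _ _) (cut_nonneg _ _) (cut_le_one _ _)
      calc wq R δ P (x, x') ≤ (P x - P x') ^ 2 * kcut n δ (x - x') :=
            mul_le_of_le_one_left (mul_nonneg (sq_nonneg _) hK0) hcut
        _ ≤ (3 * e y + 3 * (B.ht i k y - B.ht i k z) ^ 2 + 3 * e z) * kcut n δ (x - x') := by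
            refine mul_le_mul_of_nonneg_right ?_ hK0
            exact sq_sub_le_three _ _ _ _
        _ ≤ _ := by
            rw [add_mul, add_mul, mul_assoc 3 D, mul_assoc 3 D, mul_assoc 3 (e y),
              mul_assoc 3 ((B.ht i k y - B.ht i k z) ^ 2), mul_assoc 3 (e z),
              mul_assoc 3 ((2:ℝ) ^ (n + 1))]
            refine add_le_add (add_le_add (mul_le_mul_of_nonneg_left ?_ (by norm_num))
              (mul_le_mul_of_nonneg_left hq (by norm_num)))
              (mul_le_mul_of_nonneg_left ?_ (by norm_num))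
            · rw [mul_comm D]; exact mul_le_mul_of_nonneg_left (kcut_le hδ _) (he0 y)
            · rw [mul_comm D]; exact mul_le_mul_of_nonneg_left (kcut_le hδ _) (he0 z)
    · rw [integral_add i12 i3, integral_add i1 i2, setIntegral_const, integral_const_mul,
        integral_const_mul, smul_eq_mul]
      refine add_le_add (add_le_add ?_ le_rfl) le_rfl
      nlinarith [mul_le_mul_of_nonneg_left (B.mass_le k hT)
        (mul_nonneg (mul_nonneg (show (0:ℝ) ≤ 3 by norm_num) hD0.le) (he0 y))]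
  have j1 := (B.intOn hec k T).const_mul (3 * D * (C₀ * T ^ n))
  have j2 := (B.integrableOn_quot_inner i k T).const_mul (3 * 2 ^ (n + 1))
  have j3 : IntegrableOn (fun _ : Sp d => 3 * D * Se) (ball 0 T) (B.m k) :=
    integrableOn_const hfin
  have j12 : Integrable (fun y => 3 * D * (C₀ * T ^ n) * e y +
      3 * 2 ^ (n + 1) * ∫ z in ball 0 T, B.quot i k y z ∂B.m k)
      ((B.m k).restrict (ball 0 T)) := j1.add j2
  refine (integral_mono_ae (B.intOn ((B.continuous_inner₂ hT (continuous_wq hδ hP)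
    (wq_eq_zero δ P) k).comp hc) k T) (j12.add j3) hin).trans ?_
  simp only [Pi.add_apply]
  rw [integral_add j12 j3, integral_add j1 j2, setIntegral_const, integral_const_mul,
    integral_const_mul, smul_eq_mul]
  nlinarith [mul_le_mul_of_nonneg_left (B.mass_le k hT)
    (mul_nonneg (mul_nonneg (show (0:ℝ) ≤ 3 by norm_num) hD0.le) hSe0)]

omit hU ha hlim hi in
lemma wq_uniform {R δ : ℝ} (hδ : 0 < δ) {P : ℕ → Sp n → ℝ} {p : Sp n → ℝ}
    (hp : Continuous p) (hu : ∀ ε : ℝ, 0 < ε → ∀ᶠ k in (U : Filter ℕ), ∀ x, ‖x‖ ≤ R + 1 →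
      |P k x - p x| ≤ ε) {ε : ℝ} (hε : 0 < ε) :
    ∀ᶠ k in (U : Filter ℕ), ∀ q, |wq R δ (P k) q - wq R δ p q| ≤ ε := by
  obtain ⟨M, hM⟩ :=
    (isCompact_closedBall (0 : Sp n) (R + 1)).exists_bound_of_continuousOn hp.continuousOn
  set c := (δ ^ (n + 1))⁻¹ * (4 * |M| + 2) + 1 with hc
  have hc0 : 0 < c := by positivity
  filter_upwards [hu (min 1 (ε / (2 * c))) (by positivity)] with k hk q
  rcases le_or_gt (R + 1) ‖q‖ with h | h
  · rw [wq_eq_zero δ _ q h, wq_eq_zero δ _ q h, sub_zero, abs_zero]; exact hε.le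
  rw [Prod.norm_def, max_lt_iff] at h
  have a1 := hk q.1 h.1.le
  have a2 := hk q.2 h.2.le
  have b1 := (hM q.1 (mem_closedBall_zero_iff.2 h.1.le)).trans (le_abs_self M)
  have b2 := (hM q.2 (mem_closedBall_zero_iff.2 h.2.le)).trans (le_abs_self M)
  rw [Real.norm_eq_abs] at b1 b2
  have hm := min_le_left (1 : ℝ) (ε / (2 * c))
  have hd1 : |(P k q.1 - P k q.2) - (p q.1 - p q.2)| ≤ 2 * (ε / (2 * c)) := by
    have := min_le_right (1 : ℝ) (ε / (2 * c))
    rw [abs_le] at a1 a2 ⊢; constructor <;> linarith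
  have hd2 : |(P k q.1 - P k q.2) + (p q.1 - p q.2)| ≤ 4 * |M| + 2 := by
    rw [abs_le] at a1 a2 b1 b2 ⊢; constructor <;> linarith
  have h3 : |(P k q.1 - P k q.2) - (p q.1 - p q.2)| * |(P k q.1 - P k q.2) + (p q.1 - p q.2)| *
      kcut n δ (q.1 - q.2) ≤ 2 * (ε / (2 * c)) * (4 * |M| + 2) * (δ ^ (n + 1))⁻¹ :=
    mul_le_mul (mul_le_mul hd1 hd2 (abs_nonneg _) (by positivity)) (kcut_le hδ _)
      (kcut_nonneg hδ _) (by positivity)
  calc |wq R δ (P k) q - wq R δ p q|
      = cut R q.1 * cut R q.2 * (|(P k q.1 - P k q.2) - (p q.1 - p q.2)| *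
          |(P k q.1 - P k q.2) + (p q.1 - p q.2)| * kcut n δ (q.1 - q.2)) := by
        simp only [wq]
        rw [← mul_sub, abs_mul, abs_of_nonneg (mul_nonneg (cut_nonneg _ _) (cut_nonneg _ _)),
          ← sub_mul, abs_mul, abs_of_nonneg (kcut_nonneg hδ _), ← abs_mul]
        congr 3; ring
    _ ≤ 1 * (2 * (ε / (2 * c)) * (4 * |M| + 2) * (δ ^ (n + 1))⁻¹) :=
        mul_le_mul (mul_le_one₀ (cut_le_one _ _) (cut_nonneg _ _) (cut_le_one _ _)) h3
          (mul_nonneg (mul_nonneg (abs_nonneg _) (abs_nonneg _)) (kcut_nonneg hδ _)) zero_le_one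
    _ ≤ ε / c * c := by
        rw [hc, one_mul, show 2 * (ε / (2 * c)) = ε / c by field_simp, mul_assoc]
        exact mul_le_mul_of_nonneg_left (by nlinarith) (by positivity)
    _ = ε := by field_simp

lemma energy_avg {R : ℝ} (hR : 0 ≤ R) :
    ∃ E : ℝ, ∀ δ : ℝ, 0 < δ → ∃ K : ℝ, ∀ j,
      ∫ q in ball 0 R ×ˢ ball 0 R,
        (B.mlim U a i (rad j) q.1 - B.mlim U a i (rad j) q.2) ^ 2 * kcut n δ (q.1 - q.2)
          ∂(volume : Measure (Sp n)).prod volume ≤ E + K * rad j := by
  set T := 2 * (R + 1) with hT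
  set T' := 2 * (T + 2) with hT'
  obtain ⟨C, hC0, hC⟩ := B.key hU ha hlim (A := T) (by linarith)
  obtain ⟨E, hE⟩ := B.quot_energy (T := T) (by linarith)
  have hT0 : 0 < T := by linarith
  refine ⟨3 * 2 ^ (n + 1) * E / a ^ 2, fun δ hδ =>
    ⟨6 * (C₀ * T ^ n) * (δ ^ (n + 1))⁻¹ * C / a ^ 2, fun j => ?_⟩⟩
  have hu := B.continuous_u hU ha hi j
  have hP : ∀ k, Continuous (B.moll a i T' (rad j) k) := fun k =>
    B.continuous_moll ha hi k (by linarith) (rad_pos j)
  have hlimit := B.tendsto_double hU hlim (show 1 ≤ R + 1 by linarith) (T := T) le_rfl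
    (W := fun k => wq R δ (B.moll a i T' (rad j) k)) (W₀ := wq R δ (B.mlim U a i (rad j)))
    (fun k => continuous_wq hδ (hP k)) (continuous_wq hδ hu) (fun k => wq_eq_zero δ _)
    (wq_eq_zero δ _) fun ε hε => wq_uniform hδ hu
      (fun ε hε => B.mlim_uniform hU ha hi (rad_pos j) (rad_le_one j) (by linarith) (by linarith)
        hε) hε
  have hC₀ := B.C₀_pos
  have hle : a * ∫ x, a * ∫ x', wq R δ (B.mlim U a i (rad j)) (x, x') ≤
      3 * 2 ^ (n + 1) * E + 6 * (C₀ * T ^ n) * (δ ^ (n + 1))⁻¹ * C * rad j := by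
    refine le_of_forall_pos_le_add fun ε hε => le_of_tendsto hlimit ?_
    filter_upwards [hC i hi (rad j) (rad_pos j) (rad_le_one j)
        (ε / (6 * (C₀ * T ^ n) * (δ ^ (n + 1))⁻¹)) (by positivity), hU hE,
      hU (B.thin (A := T) (show 1 ≤ T by linarith) (half_pos hδ))] with k hk hkE hthin
    refine (B.double_le (i := i) k hT0 hδ (hP k) hthin).trans ?_
    refine (add_le_add (mul_le_mul_of_nonneg_left (hkE i hi) (by positivity))
      (mul_le_mul_of_nonneg_left hk (by positivity))).trans_eq ?_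
    field_simp
    ring
  set W := wq R δ (B.mlim U a i (rad j))
  set S : Set (Sp n × Sp n) := ball 0 R ×ˢ ball 0 R
  have hWi : Integrable W ((volume : Measure (Sp n)).prod volume) :=
    (continuous_wq hδ hu).integrable_of_hasCompactSupport (HasCompactSupport.intro
      (isCompact_closedBall 0 (R + 1)) fun q hq =>
        wq_eq_zero δ _ q (by rw [mem_closedBall_zero_iff, not_le] at hq; exact hq.le))
  rw [integral_const_mul, ← mul_assoc, ← integral_prod _ hWi, ← pow_two] at hle
  calc ∫ q in S, (B.mlim U a i (rad j) q.1 - B.mlim U a i (rad j) q.2) ^ 2 * kcut n δ (q.1 - q.2)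
        ∂(volume : Measure (Sp n)).prod volume
      = ∫ q in S, W q ∂(volume : Measure (Sp n)).prod volume :=
        setIntegral_congr_fun (measurableSet_ball.prod measurableSet_ball) fun q hq => by
          simp only [W, wq, cut_eq_one (mem_ball_zero_iff.1 hq.1).le,
            cut_eq_one (mem_ball_zero_iff.1 hq.2).le, one_mul]
    _ ≤ ∫ q, W q ∂(volume : Measure (Sp n)).prod volume :=
        setIntegral_le_integral hWi (Eventually.of_forall fun q =>
          mul_nonneg (mul_nonneg (cut_nonneg _ _) (cut_nonneg _ _))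
            (mul_nonneg (sq_nonneg _) (kcut_nonneg hδ _)))
    _ ≤ (3 * 2 ^ (n + 1) * E + 6 * (C₀ * T ^ n) * (δ ^ (n + 1))⁻¹ * C * rad j) / a ^ 2 := by
        rw [le_div_iff₀ (by positivity), mul_comm]; exact hle
    _ = _ := by ring

lemma energy_cut {R : ℝ} (hR : 0 ≤ R) :
    ∃ E : ℝ, ∀ δ : ℝ, 0 < δ →
      IntegrableOn (fun q : Sp n × Sp n =>
          (B.vlim U a i q.1 - B.vlim U a i q.2) ^ 2 * kcut n δ (q.1 - q.2))
        (ball 0 R ×ˢ ball 0 R) ((volume : Measure (Sp n)).prod volume) ∧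
      ∫ q in ball 0 R ×ˢ ball 0 R, (B.vlim U a i q.1 - B.vlim U a i q.2) ^ 2 *
        kcut n δ (q.1 - q.2) ∂(volume : Measure (Sp n)).prod volume ≤ E := by
  obtain ⟨E, hE⟩ := B.energy_avg hU ha hlim hi hR
  refine ⟨E, fun δ hδ => ?_⟩
  obtain ⟨K, hK⟩ := hE δ hδ
  have hk : Continuous fun q : Sp n × Sp n => kcut n δ (q.1 - q.2) :=
    (continuous_kcut hδ).comp (continuous_fst.sub continuous_snd)
  have hs := B.stronglyMeasurable_vlim hU ha hi
  refine fatou_real (f := fun j (q : Sp n × Sp n) =>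
    (B.mlim U a i (rad j) q.1 - B.mlim U a i (rad j) q.2) ^ 2 * kcut n δ (q.1 - q.2))
    (fun j => ?_) (fun j q => mul_nonneg (sq_nonneg _) (kcut_nonneg hδ _))
    ((((hs.comp_measurable measurable_fst).sub (hs.comp_measurable measurable_snd)).pow 2).mul
      hk.stronglyMeasurable).aestronglyMeasurable ?_ fun ε hε => ?_
  · have hu := B.continuous_u hU ha hi j
    have hcont : Continuous fun q : Sp n × Sp n =>
        (B.mlim U a i (rad j) q.1 - B.mlim U a i (rad j) q.2) ^ 2 * kcut n δ (q.1 - q.2) :=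
      (((hu.comp continuous_fst).sub (hu.comp continuous_snd)).pow 2).mul hk
    exact (hcont.continuousOn.integrableOn_compact
      ((isCompact_closedBall 0 R).prod (isCompact_closedBall 0 R))).mono_set
      (Set.prod_mono ball_subset_closedBall ball_subset_closedBall)
  · have hae := B.ae_tendsto_vlim hU ha hlim hi
    have h1 : ∀ᵐ q : Sp n × Sp n ∂(volume : Measure (Sp n)).prod volume,
        Tendsto (fun j => B.mlim U a i (rad j) q.1) atTop (𝓝 (B.vlim U a i q.1)) :=
      Measure.quasiMeasurePreserving_fst.ae hae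
    have h2 : ∀ᵐ q : Sp n × Sp n ∂(volume : Measure (Sp n)).prod volume,
        Tendsto (fun j => B.mlim U a i (rad j) q.2) atTop (𝓝 (B.vlim U a i q.2)) :=
      Measure.quasiMeasurePreserving_snd.ae hae
    refine ae_restrict_of_ae ?_
    filter_upwards [h1, h2] with q a1 a2 using ((a1.sub a2).pow 2).mul_const _
  · filter_upwards [rad_eventually (C := K) hε] with j hj
    linarith [hK j]

/-- The limit has locally finite energy. -/
theorem energy_vlim (R : ℝ) :
    IntegrableOn (fun q : Sp n × Sp n =>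
      (B.vlim U a i q.1 - B.vlim U a i q.2) ^ 2 / ‖q.1 - q.2‖ ^ (n + 1))
      (ball 0 R ×ˢ ball 0 R) (volume.prod volume) := by
  refine IntegrableOn.mono_set ?_ (Set.prod_mono (ball_subset_ball (le_max_left R 0))
    (ball_subset_ball (le_max_left R 0)))
  obtain ⟨E, hE⟩ := B.energy_cut hU ha hlim hi (le_max_right R 0)
  have hs := B.stronglyMeasurable_vlim hU ha hi
  have hm : AEStronglyMeasurable (fun q : Sp n × Sp n =>
      (B.vlim U a i q.1 - B.vlim U a i q.2) ^ 2 / ‖q.1 - q.2‖ ^ (n + 1))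
      (((volume : Measure (Sp n)).prod volume).restrict
        (ball 0 (max R 0) ×ˢ ball 0 (max R 0))) :=
    ((((hs.comp_measurable measurable_fst).sub (hs.comp_measurable measurable_snd)).pow
      2).measurable.div ((measurable_fst.sub measurable_snd).norm.pow_const _)).aestronglyMeasurable
  refine (fatou_real (f := fun (l : ℕ) (q : Sp n × Sp n) =>
      (B.vlim U a i q.1 - B.vlim U a i q.2) ^ 2 * kcut n (1 / ((l : ℝ) + 1)) (q.1 - q.2))
    (fun l => (hE _ (by positivity)).1)
    (fun l q => mul_nonneg (sq_nonneg _) (kcut_nonneg (by positivity) _)) hm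
    (Eventually.of_forall fun q => ?_) (C := E)
    fun ε hε => Eventually.of_forall fun l => (hE _ (by positivity)).2.trans (by linarith)).1
  rcases eq_or_ne q.1 q.2 with h | h
  · simp [h]
  · rw [div_eq_mul_inv]
    have h0 : Tendsto (fun l : ℕ => max ‖q.1 - q.2‖ (1 / ((l : ℝ) + 1))) atTop
        (𝓝 ‖q.1 - q.2‖) := by
      simpa [max_eq_left (norm_nonneg (q.1 - q.2))] using
        (tendsto_const_nhds (x := ‖q.1 - q.2‖)).max tendsto_one_div_add_atTop_nhds_zero_nat
    exact Tendsto.const_mul _ ((h0.pow (n + 1)).inv₀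
      (pow_ne_zero _ (norm_ne_zero_iff.2 (sub_ne_zero.2 h))))

end Blow

end Vale.Agent.P120
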