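import Vale.Agent.P120.Improve.Mollify

/-!
# P120: the averaged heights are close to the heights and converge
-/

open MeasureTheory Metric Filter Topology
open scoped ENNReal NNReal

namespace Vale.Agent.P120

/-- A bounded sequence converges along an ultrafilter. -/
lemma exists_ultrafilter_lim (U : Ultrafilter ℕ) {f : ℕ → ℝ} {M : ℝ} (h : ∀ k, |f k| ≤ M) :
    ∃ L, Tendsto f U (𝓝 L) := by
  obtain ⟨L, -, hL⟩ := (isCompact_Icc (a := -M) (b := M)).ultrafilter_le_nhds (U.map f) <| by
    rw [le_principal_iff]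
    exact mem_map.2 (univ_mem' fun k => ⟨(abs_le.1 (h k)).1, (abs_le.1 (h k)).2⟩)
  exact ⟨L, hL⟩

namespace Blow

variable {n d : ℕ} {C₀ : ℝ} (B : Blow n d C₀)

lemma moll_change {A T : ℝ} (hA : 0 ≤ A) (hT : 2 * (A + 1) ≤ T) (a : ℝ) (i : Fin d) {ρ : ℝ}
    (hρ : 0 < ρ) (hρ1 : ρ ≤ 1) :
    ∀ᶠ k in atTop, ∀ x : Sp n, ‖x‖ ≤ A →
      B.moll a i T ρ k x = B.moll a i (2 * (A + 1)) ρ k x := by
  filter_upwards [B.ball_change' (show 1 ≤ A + 1 by linarith) hT] with k hk x hx
  rw [moll, moll, hk _ fun y hy => ?_]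
  rw [tent_eq_zero hρ, zero_mul]
  linarith [norm_sub_norm_le (tPart B.le y) x, norm_sub_rev (tPart B.le y) x]

/-- The limit of the averaged heights. -/
noncomputable def mlim (U : Ultrafilter ℕ) (a : ℝ) (i : Fin d) (ρ : ℝ) (x : Sp n) : ℝ :=
  limUnder (U : Filter ℕ) fun k => B.moll a i (8 * (‖x‖ + 1)) ρ k x

section

variable {U : Ultrafilter ℕ} (hU : (U : Filter ℕ) ≤ atTop) {a : ℝ} (ha : 0 < a) {i : Fin d}
  (hi : n ≤ (i : ℕ)) {ρ : ℝ} (hρ : 0 < ρ) (hρ1 : ρ ≤ 1)
include hU ha hi hρ hρ1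

lemma tendsto_mlim {A T : ℝ} (hT : 2 * (A + 1) ≤ T) {x : Sp n} (hx : ‖x‖ ≤ A) :
    Tendsto (fun k => B.moll a i T ρ k x) U (𝓝 (B.mlim U a i ρ x)) := by
  have h0 := norm_nonneg x
  have h := tendsto_nhds_limUnder
    (exists_ultrafilter_lim U fun k => B.abs_moll_le ha hi k (T := 8 * (‖x‖ + 1)) (ρ := ρ)
      (by linarith) hρ x)
  refine h.congr' ?_
  filter_upwards [hU (B.moll_change h0 (T := 8 * (‖x‖ + 1)) (by linarith) a i hρ hρ1),
    hU (B.moll_change h0 (T := T) (by linarith) a i hρ hρ1)] with k h1 h2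
  rw [h1 x le_rfl, h2 x le_rfl]

lemma continuous_mlim : Continuous (B.mlim U a i ρ) := by
  rw [continuous_iff_continuousAt]
  intro x
  set A := ‖x‖ + 1 with hA
  have hA0 := norm_nonneg x
  set K := (a * tentMass n ρ)⁻¹ *
    (ρ⁻¹ * (C₀ * (2 * (A + 1)) ^ n + B.D * (2 * (A + 1)) ^ (n + 3))) with hK
  have h : LipschitzOnWith K.toNNReal (B.mlim U a i ρ) (closedBall 0 A) := by
    refine LipschitzOnWith.of_dist_le_mul fun y hy z hz => ?_
    rw [mem_closedBall_zero_iff] at hy hz
    refine le_of_tendsto ((B.tendsto_mlim hU ha hi hρ hρ1 le_rfl hy).dist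
      (B.tendsto_mlim hU ha hi hρ hρ1 le_rfl hz)) (Eventually.of_forall fun k => ?_)
    rw [Real.dist_eq, dist_eq_norm]
    refine (B.abs_moll_sub_le ha hi k (by linarith) hρ y z).trans ?_
    calc (a * tentMass n ρ)⁻¹ * (ρ⁻¹ * ‖y - z‖ *
          (C₀ * (2 * (A + 1)) ^ n + B.D * (2 * (A + 1)) ^ (n + 3))) = K * ‖y - z‖ := by
          rw [hK]; ring
      _ ≤ _ := mul_le_mul_of_nonneg_right (Real.le_coe_toNNReal K) (norm_nonneg _)
  exact h.continuousOn.continuousAt (mem_of_superset (isOpen_ball.mem_nhds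
    (mem_ball_zero_iff.2 (lt_add_one ‖x‖))) ball_subset_closedBall)

/-- The averaged heights converge uniformly on balls. -/
lemma mlim_uniform {A T : ℝ} (hA : 0 ≤ A) (hT : 2 * (A + 1) ≤ T) {ε : ℝ} (hε : 0 < ε) :
    ∀ᶠ k in (U : Filter ℕ), ∀ x : Sp n, ‖x‖ ≤ A →
      |B.moll a i T ρ k x - B.mlim U a i ρ x| ≤ ε := by
  set K := (a * tentMass n ρ)⁻¹ * (ρ⁻¹ * (C₀ * T ^ n + B.D * T ^ (n + 3))) with hK
  have hu := uniform_of_equi (l := (U : Filter ℕ)) (isCompact_closedBall (0 : Sp n) A)
    (F := fun k => B.moll a i T ρ k) (B.continuous_mlim hU ha hi hρ hρ1).continuousOn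
    (fun x hx => B.tendsto_mlim hU ha hi hρ hρ1 hT (mem_closedBall_zero_iff.1 hx))
    (fun ε' hε' => ⟨ε' / (|K| + 1), by positivity, Eventually.of_forall fun k x _ y _ hxy => ?_⟩) hε
  · exact hu.mono fun k hk x hx => hk x (mem_closedBall_zero_iff.2 hx)
  · rw [dist_eq_norm] at hxy
    calc |B.moll a i T ρ k x - B.moll a i T ρ k y|
        ≤ (a * tentMass n ρ)⁻¹ * (ρ⁻¹ * ‖x - y‖ * (C₀ * T ^ n + B.D * T ^ (n + 3))) :=
          B.abs_moll_sub_le ha hi k (by linarith) hρ x y
      _ = K * ‖x - y‖ := by rw [hK]; ring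
      _ ≤ (|K| + 1) * (ε' / (|K| + 1)) :=
          mul_le_mul (by linarith [le_abs_self K]) hxy.le (norm_nonneg _) (by positivity)
      _ = ε' := by field_simp

end

section

variable {U : Filter ℕ} (hU : U ≤ atTop) {a : ℝ} (ha : 0 < a) (hlim : B.Conv U a)
include hU ha hlim

omit ha in
/-- The total weights of the averages tend to one, uniformly on balls. -/
lemma den_uniform {A : ℝ} (hA : 0 ≤ A) {ρ : ℝ} (hρ : 0 < ρ) (hρ1 : ρ ≤ 1) {ε : ℝ} (hε : 0 < ε) :
    ∀ᶠ k in U, ∀ x : Sp n, ‖x‖ ≤ A →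
      |(∫ z in ball 0 (2 * (A + 2)), tent ρ (x - tPart B.le z) ∂B.m k) - a * tentMass n ρ| ≤ ε := by
  let W : Sp n × Sp n → ℝ := fun p => cut A p.1 * tent ρ (p.1 - p.2)
  have hW : Continuous W :=
    ((continuous_cut A).comp continuous_fst).mul
      ((continuous_tent ρ).comp (continuous_fst.sub continuous_snd))
  have hW0 : ∀ p : Sp n × Sp n, A + 2 ≤ ‖p‖ → W p = 0 := fun p hp => by
    rcases le_or_gt (A + 1) ‖p.1‖ with h | h
    · simp [W, cut_eq_zero h]
    · have h2 : A + 2 ≤ ‖p.2‖ := by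
        rw [Prod.norm_def] at hp
        rcases le_max_iff.1 hp with h' | h'
        · linarith
        · exact h'
      rw [show W p = cut A p.1 * tent ρ (p.1 - p.2) from rfl, tent_eq_zero hρ, mul_zero]
      linarith [norm_sub_norm_le p.2 p.1, norm_sub_rev p.2 p.1]
  filter_upwards [B.inner₂_tendsto hU hlim (show 1 ≤ A + 2 by linarith)
    (T := 2 * (A + 2)) le_rfl hW hW0 hε] with k hk x hx
  have h1 := hk x
  simp only [inner₂, W, cut_eq_one hx, one_mul, integral_tent_sub] at h1
  exact h1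

/-- **The averages over `ρ` differ from the heights by `√ρ` in mean square.** -/
theorem key {A : ℝ} (hA : 1 ≤ A) :
    ∃ C : ℝ, 0 ≤ C ∧ ∀ i : Fin d, n ≤ (i : ℕ) → ∀ ρ : ℝ, 0 < ρ → ρ ≤ 1 → ∀ ε : ℝ, 0 < ε →
      ∀ᶠ k in U, ∫ y in ball 0 A,
        (B.ht i k y - B.moll a i (2 * (A + 2)) ρ k (tPart B.le y)) ^ 2 ∂B.m k ≤ C * ρ + ε := by
  set T := 2 * (A + 2) with hTdef
  obtain ⟨E, hE⟩ := B.quot_energy (T := T) (by linarith)
  obtain ⟨c, hc, hcI⟩ := tentMass_ge n
  have hC := B.C₀_pos
  refine ⟨2 * (C₀ * 2 ^ (n + 1) * 3 ^ n / (a * c) ^ 2) * max E 0, by positivity,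
    fun i hi ρ hρ hρ1 ε hε => ?_⟩
  set I := tentMass n ρ with hIdef
  have hI : 0 < I := tentMass_pos hρ
  set ε' := a * I * min 1 (√(ε / (2 * (|B.D * A ^ (n + 3)| + 1)))) with hε'
  have hε'0 : 0 < ε' := by positivity
  filter_upwards [hU hE, B.den_uniform hU hlim (show 0 ≤ A by linarith) hρ hρ1 hε'0,
    hU (B.thin (A := T) (show 1 ≤ T by linarith) (half_pos hρ))] with k hEk hden hthin
  set Q := fun y => ∫ z in ball 0 T, B.quot i k y z ∂B.m k with hQdef
  set K := C₀ * 2 ^ (n + 1) * 3 ^ n / (a * c) ^ 2 with hK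
  have hc' := (lipschitz_tPart (n := n) B.le).continuous
  have hsubT : ball (0 : Sp d) A ⊆ ball 0 T := ball_subset_ball (by linarith)
  have hpt : ∀ᵐ y ∂(B.m k).restrict (ball 0 A),
      (B.ht i k y - B.moll a i T ρ k (tPart B.le y)) ^ 2 ≤
        2 * K * ρ * Q y + 2 * (ε' / (a * I)) ^ 2 * B.ht i k y ^ 2 := by
    rw [ae_restrict_iff' measurableSet_ball]
    filter_upwards [B.ae_support k] with y hys hyA
    rw [mem_ball_zero_iff] at hyA
    set x := tPart B.le y with hx
    set den := ∫ z in ball 0 T, tent ρ (x - tPart B.le z) ∂B.m k with hdendef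
    set J := ∫ z in ball 0 T, tent ρ (x - tPart B.le z) * (B.ht i k y - B.ht i k z) ∂B.m k with hJ
    have hct : Continuous fun z => tent ρ (x - tPart B.le z) :=
      (continuous_tent ρ).comp (continuous_const.sub hc')
    have hcd : Continuous fun z => B.ht i k y - B.ht i k z :=
      continuous_const.sub (B.continuous_ht i k)
    have e1 : B.ht i k y - B.moll a i T ρ k x =
        (a * I)⁻¹ * J + B.ht i k y * (1 - den / (a * I)) := by
      have e2 : J = B.ht i k y * den -
          ∫ z in ball 0 T, tent ρ (x - tPart B.le z) * B.ht i k z ∂B.m k := by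
        rw [hJ, hdendef, ← integral_const_mul, ← integral_sub
          (B.intOn (f := fun z => B.ht i k y * tent ρ (x - tPart B.le z))
            (continuous_const.mul hct) k T)
          (B.intOn (f := fun z => tent ρ (x - tPart B.le z) * B.ht i k z)
            (hct.mul (B.continuous_ht i k)) k T)]
        congr 1; funext z; ring
      rw [moll, e2, ← hIdef]; field_simp; ring
    have hd : |1 - den / (a * I)| ≤ ε' / (a * I) := by
      rw [one_sub_div (by positivity), abs_div, abs_of_pos (mul_pos ha hI), abs_sub_comm]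
      gcongr
      exact hden x ((norm_tPart_le B.le y).trans hyA.le)
    have hJ2 : J ^ 2 ≤ C₀ * 2 ^ (n + 1) * 3 ^ n * (ρ ^ n * ρ ^ n * ρ) * Q y := by
      set f := fun z => tent ρ (x - tPart B.le z) * √(‖y - z‖ ^ (n + 1))
      set g := fun z => (B.ht i k y - B.ht i k z) / √(‖y - z‖ ^ (n + 1))
      have efg : ∀ z, f z * g z = tent ρ (x - tPart B.le z) * (B.ht i k y - B.ht i k z) := by
        intro z
        rcases eq_or_ne y z with rfl | hne
        · simp [f, g]
        · have : 0 < √(‖y - z‖ ^ (n + 1)) :=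
            Real.sqrt_pos.2 (pow_pos (norm_pos_iff.2 (sub_ne_zero.2 hne)) _)
          simp only [f, g]; field_simp
      have eg : ∀ z, g z ^ 2 = B.quot i k y z := fun z => by
        simp only [g, div_pow, Real.sq_sqrt (show (0:ℝ) ≤ ‖y - z‖ ^ (n + 1) by positivity)]
        rfl
      have hf : Continuous fun z => f z ^ 2 := by
        refine (hct.mul ?_).pow 2
        exact Real.continuous_sqrt.comp ((continuous_const.sub continuous_id).norm.pow _)
      have hcs := sq_integral_mul_le (μ := (B.m k).restrict (ball 0 T)) (f := f) (g := g)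
        (B.intOn hf k T) (by simp only [eg]; exact B.integrableOn_quot i k y T)
        (by simp only [efg]; exact B.intOn (hct.mul hcd) k T)
      simp only [efg, eg] at hcs
      refine hcs.trans (mul_le_mul_of_nonneg_right ?_
        (integral_nonneg fun z => B.quot_nonneg i k y z))
      have hb : ∀ᵐ z ∂(B.m k).restrict (ball 0 T),
          f z ^ 2 ≤ (ball y (3 * ρ)).indicator (fun _ => (2 * ρ) ^ (n + 1)) z := by
        rw [ae_restrict_iff' measurableSet_ball]
        filter_upwards [B.ae_support k] with z hzs hzT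
        rw [mem_ball_zero_iff] at hzT
        rcases le_or_gt ρ ‖x - tPart B.le z‖ with h | h
        · simp only [f, tent_eq_zero hρ h, zero_mul, ne_eq, OfNat.ofNat_ne_zero, not_false_eq_true,
            zero_pow]
          exact Set.indicator_nonneg (fun _ _ => by positivity) _
        · have hn : ‖y - z‖ ≤ 2 * ρ := by
            have h1 := norm_le_parts B.le (y - z)
            rw [tPart_sub, nPart_sub] at h1
            linarith [norm_sub_le (nPart n y) (nPart n z), hthin y hys (hyA.trans_le (by linarith)),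
              hthin z hzs hzT]
          rw [Set.indicator_of_mem (mem_ball'.2 (by rw [dist_eq_norm]; linarith))]
          simp only [f, mul_pow, Real.sq_sqrt (show (0:ℝ) ≤ ‖y - z‖ ^ (n + 1) by positivity)]
          calc tent ρ (x - tPart B.le z) ^ 2 * ‖y - z‖ ^ (n + 1)
              ≤ 1 * (2 * ρ) ^ (n + 1) := by
                gcongr
                exact pow_le_one₀ (tent_nonneg _ _) (tent_le_one hρ _)
            _ = 2 ^ (n + 1) * ρ ^ (n + 1) := by rw [one_mul, mul_pow]
      calc ∫ z in ball 0 T, f z ^ 2 ∂B.m k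
          ≤ ∫ z in ball 0 T, (ball y (3 * ρ)).indicator (fun _ => (2 * ρ) ^ (n + 1)) z ∂B.m k :=
            integral_mono_ae (B.intOn hf k T)
              ((integrableOn_const ((B.reg k).fin 0 T)).indicator measurableSet_ball) hb
        _ ≤ (2 * ρ) ^ (n + 1) * (B.m k).real (ball y (3 * ρ)) := by
            rw [integral_indicator_const _ measurableSet_ball, smul_eq_mul, mul_comm]
            refine mul_le_mul_of_nonneg_left ?_ (by positivity)
            rw [measureReal_restrict_apply measurableSet_ball]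
            exact measureReal_mono Set.inter_subset_left ((B.reg k).fin _ _)
        _ ≤ (2 * ρ) ^ (n + 1) * (C₀ * (3 * ρ) ^ n) :=
            mul_le_mul_of_nonneg_left ((B.reg k).upper y _ (by linarith)) (by positivity)
        _ = _ := by rw [mul_pow, mul_pow, pow_succ ρ n]; ring
    have hJ3 : ((a * I)⁻¹ * J) ^ 2 ≤ K * ρ * Q y := by
      have hQ : 0 ≤ Q y := integral_nonneg fun z => B.quot_nonneg i k y z
      calc ((a * I)⁻¹ * J) ^ 2 = J ^ 2 / (a * I) ^ 2 := by rw [mul_pow, inv_pow, inv_mul_eq_div]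
        _ ≤ C₀ * 2 ^ (n + 1) * 3 ^ n * (ρ ^ n * ρ ^ n * ρ) * Q y / (a * (c * ρ ^ n)) ^ 2 := by
            gcongr
            exact hcI ρ hρ
        _ = _ := by rw [hK]; field_simp
    have h4 : (B.ht i k y * (1 - den / (a * I))) ^ 2 ≤ (ε' / (a * I)) ^ 2 * B.ht i k y ^ 2 := by
      rw [mul_pow, mul_comm]
      refine mul_le_mul_of_nonneg_right ?_ (sq_nonneg _)
      rw [← sq_abs]
      exact pow_le_pow_left₀ (abs_nonneg _) hd 2
    rw [e1]
    nlinarith [sq_nonneg ((a * I)⁻¹ * J - B.ht i k y * (1 - den / (a * I)))]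
  have hQint : IntegrableOn Q (ball 0 T) (B.m k) := B.integrableOn_quot_inner i k T
  have hsq : Continuous fun y => B.ht i k y ^ 2 := (B.continuous_ht i k).pow 2
  have hKnn : 0 ≤ K := by positivity
  calc ∫ y in ball 0 A, (B.ht i k y - B.moll a i T ρ k (tPart B.le y)) ^ 2 ∂B.m k
      ≤ ∫ y in ball 0 A, (2 * K * ρ * Q y + 2 * (ε' / (a * I)) ^ 2 * B.ht i k y ^ 2) ∂B.m k :=
        integral_mono_ae (B.intOn
          (f := fun y => (B.ht i k y - B.moll a i T ρ k (tPart B.le y)) ^ 2)
          (((B.continuous_ht i k).sub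
            ((B.continuous_moll ha hi k (T := T) (by linarith) hρ).comp hc')).pow 2) k A)
          (((hQint.mono_set hsubT).const_mul _).add ((B.intOn hsq k A).const_mul _)) hpt
    _ = 2 * K * ρ * (∫ y in ball 0 A, Q y ∂B.m k) +
          2 * (ε' / (a * I)) ^ 2 * ∫ y in ball 0 A, B.ht i k y ^ 2 ∂B.m k := by
        rw [integral_add ((hQint.mono_set hsubT).const_mul _) ((B.intOn hsq k A).const_mul _),
          integral_const_mul, integral_const_mul]
    _ ≤ 2 * K * ρ * max E 0 +
          2 * (ε / (2 * (|B.D * A ^ (n + 3)| + 1))) * (|B.D * A ^ (n + 3)| + 1) := by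
        refine add_le_add (mul_le_mul_of_nonneg_left ?_ (by positivity)) ?_
        · exact ((setIntegral_mono_set hQint
            (Eventually.of_forall fun y => integral_nonneg fun z => B.quot_nonneg i k y z)
            hsubT.eventuallyLE).trans (hEk i hi)).trans (le_max_left _ _)
        · refine mul_le_mul (mul_le_mul_of_nonneg_left ?_ two_pos.le)
            ((B.integral_ht_sq hi k hA).trans (by linarith [le_abs_self (B.D * A ^ (n + 3))]))
            (integral_nonneg fun y => sq_nonneg _) (by positivity)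
          rw [show ε' / (a * I) = min 1 √(ε / (2 * (|B.D * A ^ (n + 3)| + 1))) by
            rw [hε']; field_simp]
          exact (pow_le_pow_left₀ (by positivity) (min_le_right _ _) 2).trans_eq
            (Real.sq_sqrt (by positivity))
    _ = _ := by rw [hK]; field_simp

end

end Blow

end Vale.Agent.P120
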