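import Vale.Agent.P120.Improve.Equation
import Vale.Agent.P120.Planes
import Mathlib.Analysis.InnerProductSpace.PiL2
import Mathlib.Order.Filter.Ultrafilter.Basic
import Mathlib.Analysis.Calculus.ContDiff.RCLike
import Mathlib.Analysis.InnerProductSpace.Calculus

/-!
# P120: the linearised flatness vanishes

The limits of the heights are affine, so the graph of `G` times them is a plane of small defect.
-/

open MeasureTheory Metric Filter Topology
open scoped ENNReal NNReal RealInnerProductSpace

namespace Vale.Agent.P120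

variable {n d : ℕ}

/-- The linear part of a graph over the plane of the first `n` coordinates. -/
noncomputable def graphMap (b : Fin d → Sp n) (G : ℝ) : Sp n →ₗ[ℝ] Sp d where
  toFun x := WithLp.toLp 2 fun j => if h : (j : ℕ) < n then x ⟨j, h⟩ else G * ⟪b j, x⟫
  map_add' x y := by
    ext j; by_cases h : (j : ℕ) < n <;> simp [h, inner_add_right, mul_add]
  map_smul' c x := by
    ext j; by_cases h : (j : ℕ) < n <;> simp [h, inner_smul_right, mul_left_comm]

lemma graphMap_injective (h : n ≤ d) (b : Fin d → Sp n) (G : ℝ) :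
    Function.Injective (graphMap b G) := fun x y e => by
  ext j
  have := congrArg (fun v : Sp d => v (Fin.castLE h j)) e
  simpa [graphMap] using this

/-- A graph over the plane of the first `n` coordinates is a plane. -/
lemma exists_graph (h : n ≤ d) (α : Fin d → ℝ) (b : Fin d → Sp n) (G : ℝ) :
    ∃ P : Plane n d, P.base = (WithLp.toLp 2 fun j : Fin d => if (j : ℕ) < n then 0 else G * α j) ∧
      ∀ (x : Sp n) (y : Sp d), ‖P.nrm y‖ ≤ ‖y - (P.base + graphMap b G x)‖ := by
  have hr : Module.finrank ℝ (LinearMap.range (graphMap b G)) = n := by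
    rw [LinearMap.finrank_range_of_inj (graphMap_injective h b G), finrank_euclideanSpace_fin]
  let o : OrthonormalBasis (Fin n) ℝ (LinearMap.range (graphMap b G)) :=
    (stdOrthonormalBasis ℝ _).reindex (finCongr hr)
  let P : Plane n d :=
    { base := WithLp.toLp 2 fun j => if (j : ℕ) < n then 0 else G * α j
      frame := fun j => (o j : Sp d)
      ortho := o.orthonormal.comp_linearIsometry
        (LinearMap.range (graphMap b G)).subtypeₗᵢ }
  refine ⟨P, rfl, fun x y => ?_⟩
  set q := P.base + graphMap b G x with hq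
  have hq0 : P.nrm q = 0 := by
    have hs := congrArg Subtype.val
      (o.sum_repr' ⟨graphMap b G x, LinearMap.mem_range_self _ x⟩)
    simp only [Submodule.coe_sum, Submodule.coe_smul, Submodule.coe_inner] at hs
    simp only [Plane.nrm, hq, add_sub_cancel_left]
    rw [sub_eq_zero]
    exact hs.symm
  rw [← Planes.nrm_foot P q y]
  exact (Planes.norm_nrm_le _ y).trans_eq (by simp only [Planes.foot, hq0, sub_zero])

/-- **The linearised flatness vanishes.** -/
theorem linearise (hn : 1 ≤ n) (hlimit : LimitSpec n d) (hlin : LinearSpec n) :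
    LineariseSpec n d := by
  intro C₀ B δ hδ
  by_contra hcon
  rw [not_frequently] at hcon
  set U := Ultrafilter.of (atTop : Filter ℕ)
  have hU : (U : Filter ℕ) ≤ atTop := Ultrafilter.of_le _
  obtain ⟨a, ha, hlim⟩ := hlimit C₀ B U hU
  have hconv : B.Conv U a := hlim
  have hlinear : ∀ i : Fin d, ∃ (α : ℝ) (b : Sp n), n ≤ (i : ℕ) →
      B.vlim U a i =ᵐ[volume] fun x => α + ⟪b, x⟫ := fun i => by
    by_cases hi : n ≤ (i : ℕ)
    · obtain ⟨α, b, hb⟩ := hlin (B.vlim U a i) (2 * |B.D| * 4 ^ (n + 3) / a)
        (B.stronglyMeasurable_vlim hU ha hi).measurable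
        (fun R hR => B.moment_vlim hU ha hconv hi hR) (B.energy_vlim hU ha hconv hi)
        fun R φ hR hφ hφ0 hint => by
          have hφ0' : ∀ x, R ≤ ‖x‖ → φ x = 0 := fun x hx => hφ0 x (by rwa [dist_zero_right])
          have hc : HasCompactSupport φ := HasCompactSupport.intro (isCompact_closedBall 0 R)
            fun x hx => hφ0' x (by rw [mem_closedBall_zero_iff, not_le] at hx; exact hx.le)
          obtain ⟨L, hL⟩ := ContDiff.lipschitzWith_of_hasCompactSupport hc hφ (by simp)
          exact B.equation hU ha hconv hi hn hL hR hφ0' hint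
      exact ⟨α, b, fun _ => hb⟩
    · exact ⟨0, 0, fun h => absurd h hi⟩
  choose α b hαb using hlinear
  set ε := δ * 2 ^ (n + 2) / (d + 1) with hε
  have hstrong : ∀ᶠ k in (U : Filter ℕ), ∀ i : Fin d, n ≤ (i : ℕ) →
      ∫ y in ball 0 2, (B.ht i k y - (α i + ⟪b i, tPart B.le y⟫)) ^ 2 ∂B.m k ≤ ε :=
    eventually_all.2 fun i => by
      by_cases hi : n ≤ (i : ℕ)
      · exact (B.strong hU ha hconv hi (ℓ := fun x => α i + ⟪b i, x⟫) (by fun_prop) (hαb i hi)
          (by positivity)).mono fun k hk _ => hk
      · exact Eventually.of_forall fun k h => absurd h hi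
  set A := ∑ i : Fin d, |α i| with hA
  have hA0 : 0 ≤ A := Finset.sum_nonneg fun i _ => abs_nonneg _
  have hsmall : ∀ᶠ k in atTop, B.G k * A ≤ 1 / 2 :=
    ((by simpa using B.G_lim.mul_const A : Tendsto (fun k => B.G k * A) atTop (𝓝 0)).eventually
      (eventually_le_nhds (by norm_num)))
  obtain ⟨k, hk1, hk2, hk3⟩ := (hstrong.and ((hsmall.filter_mono hU).and (hcon.filter_mono hU))).exists
  obtain ⟨P, hbase, hP⟩ := exists_graph B.le α b (B.G k)
  refine hk3 ⟨P, ?_, ?_⟩
  · rw [dist_zero_right, hbase]
    refine le_trans ?_ hk2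
    refine (pow_le_pow_iff_left₀ (norm_nonneg _) (mul_nonneg (B.G_pos k).le hA0) two_ne_zero).1 ?_
    rw [EuclideanSpace.norm_sq_eq, hA, Finset.mul_sum]
    refine le_trans (Finset.sum_le_sum fun i _ => ?_)
      (Finset.sum_sq_le_sq_sum_of_nonneg fun i _ => mul_nonneg (B.G_pos k).le (abs_nonneg (α i)))
    rw [Real.norm_eq_abs]
    refine pow_le_pow_left₀ (abs_nonneg _) ?_ 2
    by_cases hi : (i : ℕ) < n
    · simp [hi, mul_nonneg (B.G_pos k).le (abs_nonneg (α i))]
    · simp [hi, abs_of_pos (B.G_pos k)]
  · have hG := B.G_pos k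
    have hc := (lipschitz_tPart (n := n) B.le).continuous
    set ℓ : Fin d → Sp d → ℝ := fun i y => α i + ⟪b i, tPart B.le y⟫ with hℓ
    set F : Fin d → Sp d → ℝ := fun i y =>
      if n ≤ (i : ℕ) then (B.ht i k y - ℓ i y) ^ 2 else 0 with hF
    have hFi : ∀ i, IntegrableOn (F i) (ball 0 2) (B.m k) := fun i => by
      refine B.intOn ?_ k 2
      by_cases hi : n ≤ (i : ℕ)
      · simp only [hF, hi, if_true]
        exact ((B.continuous_ht i k).sub
          (continuous_const.add (continuous_const.inner hc))).pow 2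
      · simp only [hF, hi, if_false]
        exact continuous_const
    have hpt : ∀ y, (‖P.nrm y‖ / 2) ^ 2 ≤ B.G k ^ 2 / 4 * ∑ i, F i y := fun y => by
      rw [div_pow, show (2:ℝ) ^ 2 = 4 by norm_num, div_le_iff₀ (by norm_num : (0:ℝ) < 4),
        mul_right_comm, div_mul_cancel₀ _ (by norm_num : (4:ℝ) ≠ 0)]
      refine (pow_le_pow_left₀ (norm_nonneg _) (hP (tPart B.le y) y) 2).trans_eq ?_
      rw [EuclideanSpace.norm_sq_eq, Finset.mul_sum]
      refine Finset.sum_congr rfl fun i _ => ?_
      rw [Real.norm_eq_abs, sq_abs, PiLp.sub_apply, PiLp.add_apply, hbase]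
      by_cases hi : (i : ℕ) < n
      · simp [graphMap, hF, hi, not_le.2 hi, tPart]
      · simp only [graphMap, LinearMap.coe_mk, AddHom.coe_mk, hi, dif_neg, if_neg,
          not_false_eq_true, hF, not_lt.1 hi, if_pos, hℓ, Blow.ht]
        field_simp
    have hint : IntegrableOn (fun y => B.G k ^ 2 / 4 * ∑ i, F i y) (ball 0 2) (B.m k) :=
      (integrable_finsetSum _ fun i _ => hFi i).const_mul _
    have hnint : IntegrableOn (fun y => (‖P.nrm y‖ / 2) ^ 2) (ball 0 2) (B.m k) :=
      B.intOn (((Planes.continuous_nrm P).norm.div_const 2).pow 2) k 2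
    rw [defect, div_le_iff₀ (by positivity)]
    refine (setIntegral_mono_on hnint hint measurableSet_ball fun y _ => hpt y).trans ?_
    rw [integral_const_mul, integral_finsetSum _ fun i _ => hFi i]
    have hsum : ∑ i, ∫ y in ball 0 2, F i y ∂B.m k ≤ (d + 1) * ε := by
      refine (Finset.sum_le_sum (g := fun _ => ε) fun i _ => ?_).trans ?_
      · by_cases hi : n ≤ (i : ℕ)
        · simp only [hF, hi, if_true]; exact hk1 i hi
        · simp only [hF, hi, if_false, integral_zero]; positivity
      · rw [Finset.sum_const, Finset.card_univ, Fintype.card_fin, nsmul_eq_mul]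
        nlinarith [show 0 ≤ ε by positivity]
    refine (mul_le_mul_of_nonneg_left hsum (by positivity)).trans_eq ?_
    rw [hε, pow_add]
    field_simp
    ring

end Vale.Agent.P120
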