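import Vale.Agent.P120.Improve.Scale
import Vale.Agent.P120.Improve.Linearise

/-!
# P120: linearisation improves the flatness

A failing sequence of chains blows up to a normalised sequence, whose heights have an affine limit.
-/

open MeasureTheory Metric Filter Finset
open scoped ENNReal NNReal

namespace Vale.Agent.P120

variable {n d : ℕ}

/-- **Small geometric flatness decays up to the two pairings.** -/
theorem improve [Nonempty (Plane n d)] (hn : 1 ≤ n) (hd : n < d) (hP : PlaneSpec n d)
    (hG : GrowthSpec n d) (hK : CaccioppoliSpec n d) (hPr : PairSpec n d) (hT : TouchSpec n d)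
    (hlimit : LimitSpec n d) (hlin : LinearSpec n) : ImproveSpec n d := by
  intro μ _ C₀ hμ θ hθ
  by_contra hcon
  simp only [not_exists, not_and, not_forall, not_le] at hcon
  have hc : ∀ k : ℕ, ∃ c : Chain μ, geo n μ c ≤ 1 / ((k : ℝ) + 1) ∧
      θ * geo n μ c + k * (bT n μ k (c.p 0) c.R +
        √(∑ j ∈ range (k + 1), aT n μ (c.p j) (c.R * 8 ^ j))) < flatness n μ (c.p 0) c.R :=
    fun k => by
      obtain ⟨c, h1, h2⟩ := hcon (1 / ((k : ℝ) + 1)) (by positivity) k k (Nat.cast_nonneg k)
      exact ⟨c, h1, h2⟩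
  choose c hgeo hfail using hc
  obtain ⟨C₁, B, c₁, hc₁, hev⟩ := exists_blow hn hd hP hG hK hPr hT μ C₀ hμ hθ c hgeo hfail
  obtain ⟨k, ⟨L, hL, hdef⟩, hlow⟩ :=
    ((linearise hn hlimit hlin C₁ B (c₁ / 2) (half_pos hc₁)).and_eventually hev).exists
  nlinarith [hlow L hL, B.G_pos k, mul_pos hc₁ (mul_pos (B.G_pos k) (B.G_pos k))]

end Vale.Agent.P120
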