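import Vale.Agent.P120.Improve.Weak
import Mathlib.MeasureTheory.Measure.Lebesgue.EqHaar
import Mathlib.MeasureTheory.Integral.Prod
import Mathlib.Algebra.QuadraticDiscriminant
import Mathlib.MeasureTheory.Group.Integral
import Mathlib.MeasureTheory.Measure.Haar.Unique

/-!
# P120: the averaged heights of a normalised sequence

The heights over `G` are averaged over balls of radius `ρ` of the plane. By the energy they differ
from the heights by `√ρ` in mean square, and they converge uniformly along an ultrafilter.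
-/

open MeasureTheory Metric Filter Topology
open scoped ENNReal NNReal

namespace Vale.Agent.P120

/-- Cauchy–Schwarz for integrals. -/
lemma sq_integral_mul_le {α : Type*} [MeasurableSpace α] {μ : Measure α} {f g : α → ℝ}
    (hf : Integrable (fun x => f x ^ 2) μ) (hg : Integrable (fun x => g x ^ 2) μ)
    (hfg : Integrable (fun x => f x * g x) μ) :
    (∫ x, f x * g x ∂μ) ^ 2 ≤ (∫ x, f x ^ 2 ∂μ) * ∫ x, g x ^ 2 ∂μ := by
  have h := discrim_le_zero (a := ∫ x, f x ^ 2 ∂μ) (b := 2 * ∫ x, f x * g x ∂μ)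
    (c := ∫ x, g x ^ 2 ∂μ) fun t => by
      have h0 : 0 ≤ ∫ x, (t * f x + g x) ^ 2 ∂μ := integral_nonneg fun x => sq_nonneg _
      have e : ∫ x, (t * f x + g x) ^ 2 ∂μ =
          ∫ x, (t * t * f x ^ 2 + 2 * t * (f x * g x) + g x ^ 2) ∂μ := by
        congr 1; funext x; ring
      rw [e, integral_add (f := fun x => t * t * f x ^ 2 + 2 * t * (f x * g x))
          ((hf.const_mul _).add (hfg.const_mul _)) hg,
        integral_add (hf.const_mul _) (hfg.const_mul _), integral_const_mul, integral_const_mul] at h0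
      linarith
  rw [discrim] at h
  nlinarith

/-- The tent of radius `ρ`. -/
noncomputable def tent {n : ℕ} (ρ : ℝ) (x : Sp n) : ℝ := max 0 (1 - ‖x‖ / ρ)

/-- The integral of the tent. -/
noncomputable def tentMass (n : ℕ) (ρ : ℝ) : ℝ := ∫ x : Sp n, tent ρ x

/-- A cutoff equal to one on `B (0, A)`, zero outside `B (0, A + 1)`. -/
noncomputable def cut {n : ℕ} (A : ℝ) (x : Sp n) : ℝ := max 0 (min 1 (A + 1 - ‖x‖))

section basic

variable {n : ℕ}

lemma continuous_tent (ρ : ℝ) : Continuous (tent (n := n) ρ) :=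
  continuous_const.max (continuous_const.sub (continuous_norm.div_const ρ))

lemma continuous_cut (A : ℝ) : Continuous (cut (n := n) A) :=
  continuous_const.max (continuous_const.min (continuous_const.sub continuous_norm))

lemma cut_nonneg (A : ℝ) (x : Sp n) : 0 ≤ cut A x := le_max_left _ _

lemma cut_le_one (A : ℝ) (x : Sp n) : cut A x ≤ 1 := max_le zero_le_one (min_le_left _ _)

lemma cut_eq_one {A : ℝ} {x : Sp n} (hx : ‖x‖ ≤ A) : cut A x = 1 := by
  rw [cut, min_eq_left (by linarith), max_eq_right zero_le_one]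

lemma cut_eq_zero {A : ℝ} {x : Sp n} (hx : A + 1 ≤ ‖x‖) : cut A x = 0 :=
  max_eq_left ((min_le_right _ _).trans (by linarith))

lemma tent_nonneg (ρ : ℝ) (x : Sp n) : 0 ≤ tent ρ x := le_max_left _ _

lemma tent_le_one {ρ : ℝ} (hρ : 0 < ρ) (x : Sp n) : tent ρ x ≤ 1 :=
  max_le zero_le_one (sub_le_self _ (by positivity))

lemma tent_eq_zero {ρ : ℝ} (hρ : 0 < ρ) {x : Sp n} (hx : ρ ≤ ‖x‖) : tent ρ x = 0 :=
  max_eq_left (sub_nonpos.2 ((le_div_iff₀ hρ).2 (by linarith)))

lemma abs_tent_sub_le {ρ : ℝ} (hρ : 0 < ρ) (x y : Sp n) :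
    |tent ρ x - tent ρ y| ≤ ρ⁻¹ * ‖x - y‖ := by
  refine (abs_max_sub_max_le_max _ _ _ _).trans (max_le (by simp; positivity) ?_)
  rw [sub_sub_sub_cancel_left, ← sub_div, abs_div, abs_of_pos hρ, div_eq_inv_mul]
  refine mul_le_mul_of_nonneg_left ?_ (inv_nonneg.2 hρ.le)
  rw [norm_sub_rev]
  exact abs_norm_sub_norm_le y x

lemma hasCompactSupport_tent {ρ : ℝ} (hρ : 0 < ρ) : HasCompactSupport (tent (n := n) ρ) :=
  HasCompactSupport.intro (isCompact_closedBall 0 ρ) fun x hx =>
    tent_eq_zero hρ (by rw [mem_closedBall_zero_iff, not_le] at hx; exact hx.le)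

lemma integral_tent_sub {ρ : ℝ} (x : Sp n) :
    ∫ x', tent ρ (x - x') = tentMass n ρ :=
  integral_sub_left_eq_self (tent ρ) volume x

/-- The mass of the tent is of the order of `ρ ^ n`. -/
lemma tentMass_ge (n : ℕ) : ∃ c : ℝ, 0 < c ∧ ∀ ρ : ℝ, 0 < ρ → c * ρ ^ n ≤ tentMass n ρ := by
  set V := (volume : Measure (Sp n)).real (ball 0 1)
  have hV : 0 < V := ENNReal.toReal_pos (measure_ball_pos volume 0 one_pos).ne' measure_ball_lt_top.ne
  refine ⟨V / 2 ^ (n + 1), by positivity, fun ρ hρ => ?_⟩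
  have hi : Integrable (tent (n := n) ρ) :=
    (continuous_tent ρ).integrable_of_hasCompactSupport (hasCompactSupport_tent hρ)
  have hb : (volume : Measure (Sp n)).real (ball 0 (ρ / 2)) = (ρ / 2) ^ n * V := by
    rw [measureReal_def, Measure.addHaar_ball_of_pos volume 0 (by linarith),
      finrank_euclideanSpace_fin, ENNReal.toReal_mul, ENNReal.toReal_ofReal (by positivity)]
    rfl
  calc V / 2 ^ (n + 1) * ρ ^ n = (2 : ℝ)⁻¹ * ((ρ / 2) ^ n * V) := by
        rw [div_pow, pow_succ]; field_simp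
    _ = ∫ _ in ball (0 : Sp n) (ρ / 2), (2 : ℝ)⁻¹ := by
        rw [setIntegral_const, hb, smul_eq_mul]; ring
    _ ≤ ∫ x in ball (0 : Sp n) (ρ / 2), tent ρ x :=
        setIntegral_mono_on (integrableOn_const measure_ball_lt_top.ne) hi.integrableOn
          measurableSet_ball fun x hx => le_max_of_le_right (by
            rw [mem_ball_zero_iff] at hx
            have : ‖x‖ / ρ ≤ 2⁻¹ := by rw [div_le_iff₀ hρ]; linarith
            linarith)
    _ ≤ tentMass n ρ :=
        setIntegral_le_integral hi (Eventually.of_forall fun x => tent_nonneg ρ x)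

lemma tentMass_pos {ρ : ℝ} (hρ : 0 < ρ) : 0 < tentMass n ρ := by
  obtain ⟨c, hc, h⟩ := tentMass_ge n
  exact lt_of_lt_of_le (by positivity) (h ρ hρ)

end basic

namespace Blow

variable {n d : ℕ} {C₀ : ℝ} (B : Blow n d C₀)

/-- The height in direction `i` over `G`. -/
noncomputable def ht (i : Fin d) (k : ℕ) (y : Sp d) : ℝ := y i / B.G k

lemma continuous_ht (i : Fin d) (k : ℕ) : Continuous (B.ht i k) :=
  (PiLp.continuous_apply 2 _ i).div_const _

lemma lipschitz_ht (i : Fin d) (k : ℕ) (y z : Sp d) :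
    |B.ht i k y - B.ht i k z| ≤ ‖y - z‖ / B.G k := by
  rw [ht, ht, ← sub_div, abs_div, abs_of_pos (B.G_pos k)]
  refine div_le_div_of_nonneg_right ?_ (B.G_pos k).le
  simpa using PiLp.norm_apply_le (y - z) i

lemma integral_ht_sq {i : Fin d} (hi : n ≤ (i : ℕ)) (k : ℕ) {A : ℝ} (hA : 1 ≤ A) :
    ∫ y in ball 0 A, B.ht i k y ^ 2 ∂B.m k ≤ B.D * A ^ (n + 3) := by
  have hG := B.G_pos k
  refine (setIntegral_mono_on (g := fun y => ‖nPart n y‖ ^ 2 / B.G k ^ 2)
    (B.intOn (f := fun y => B.ht i k y ^ 2) ((B.continuous_ht i k).pow 2) k A)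
    ((B.integrable_moment k A).div_const _) measurableSet_ball fun y _ => ?_).trans ?_
  · rw [ht, div_pow]
    refine div_le_div_of_nonneg_right ?_ (by positivity)
    rw [← sq_abs]
    exact pow_le_pow_left₀ (abs_nonneg _) (abs_coord_le y hi) 2
  · rw [integral_div, div_le_iff₀ (by positivity)]
    exact B.moment k A hA

lemma integral_abs_ht {i : Fin d} (hi : n ≤ (i : ℕ)) (k : ℕ) {A : ℝ} (hA : 1 ≤ A) :
    ∫ y in ball 0 A, |B.ht i k y| ∂B.m k ≤ C₀ * A ^ n + B.D * A ^ (n + 3) := by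
  refine (setIntegral_mono_on (g := fun y => 1 + B.ht i k y ^ 2)
    (B.intOn (f := fun y => |B.ht i k y|) (B.continuous_ht i k).abs k A)
    (B.intOn (f := fun y => 1 + B.ht i k y ^ 2) (continuous_const.add ((B.continuous_ht i k).pow 2))
      k A) measurableSet_ball fun y _ => ?_).trans ?_
  · nlinarith [sq_nonneg (|B.ht i k y| - 1), sq_abs (B.ht i k y), abs_nonneg (B.ht i k y)]
  · rw [integral_add (integrableOn_const (C := (1 : ℝ)) ((B.reg k).fin _ _))
      (B.intOn (f := fun y => B.ht i k y ^ 2) ((B.continuous_ht i k).pow 2) k A),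
      setIntegral_const, smul_eq_mul, mul_one]
    exact add_le_add (B.mass_le k (by linarith)) (B.integral_ht_sq hi k hA)

/-- The squared quotients of height differences. -/
noncomputable def quot (i : Fin d) (k : ℕ) (y z : Sp d) : ℝ :=
  (B.ht i k y - B.ht i k z) ^ 2 / ‖y - z‖ ^ (n + 1)

lemma quot_nonneg (i : Fin d) (k : ℕ) (y z : Sp d) : 0 ≤ B.quot i k y z := by
  unfold quot; positivity

lemma quot_le (i : Fin d) (k : ℕ) (y z : Sp d) :
    B.quot i k y z ≤ ‖y - z‖ / ‖y - z‖ ^ n / B.G k ^ 2 := by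
  rcases eq_or_ne y z with rfl | hne
  · simp [quot]
  have h0 : 0 < ‖y - z‖ := norm_pos_iff.2 (sub_ne_zero.2 hne)
  have hG := B.G_pos k
  calc B.quot i k y z ≤ (‖y - z‖ / B.G k) ^ 2 / ‖y - z‖ ^ (n + 1) := by
        refine div_le_div_of_nonneg_right ?_ (by positivity)
        rw [← sq_abs]
        exact pow_le_pow_left₀ (abs_nonneg _) (B.lipschitz_ht i k y z) 2
    _ = ‖y - z‖ / ‖y - z‖ ^ n / B.G k ^ 2 := by field_simp; ring

lemma measurable_quot (i : Fin d) (k : ℕ) :
    Measurable fun p : Sp d × Sp d => B.quot i k p.1 p.2 := by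
  have h := (B.continuous_ht i k).measurable
  unfold quot
  exact (((h.comp measurable_fst).sub (h.comp measurable_snd)).pow_const 2).div
    ((measurable_fst.sub measurable_snd).norm.pow_const _)

lemma integrableOn_quot (i : Fin d) (k : ℕ) (y : Sp d) (T : ℝ) :
    IntegrableOn (B.quot i k y) (ball 0 T) (B.m k) := by
  have hR : 0 < ‖y‖ + |T| + 1 := by positivity
  have hsub : ball (0 : Sp d) T ⊆ ball y (‖y‖ + |T| + 1) := fun z hz => by
    rw [mem_ball, dist_eq_norm]
    rw [mem_ball_zero_iff] at hz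
    linarith [norm_sub_le z y, le_abs_self T]
  refine Integrable.mono' (((B.near k y _ hR).1.mono_set hsub).div_const (B.G k ^ 2))
    ((B.measurable_quot i k).comp measurable_prodMk_left).aestronglyMeasurable
    (Eventually.of_forall fun z => ?_)
  rw [Real.norm_eq_abs, abs_of_nonneg (B.quot_nonneg i k y z)]
  exact B.quot_le i k y z

lemma integrableOn_quot_inner (i : Fin d) (k : ℕ) (T : ℝ) :
    IntegrableOn (fun y => ∫ z in ball 0 T, B.quot i k y z ∂B.m k) (ball 0 T) (B.m k) := by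
  have := B.lf k
  have hm : StronglyMeasurable fun y => ∫ z in ball 0 T, B.quot i k y z ∂B.m k :=
    (B.measurable_quot i k).stronglyMeasurable.integral_prod_right'
  refine integrableOn_ball_of_bound ((B.reg k).fin _ _) hm.measurable
    (M := B.Cg * (2 * |T| + 1) / B.G k ^ 2) fun y hy => ?_
  rw [abs_of_nonneg (integral_nonneg fun z => B.quot_nonneg i k y z)]
  rw [mem_ball_zero_iff] at hy
  have hR : 0 < 2 * |T| + 1 := by positivity
  have hsub : ball (0 : Sp d) T ⊆ ball y (2 * |T| + 1) := fun z hz => by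
    rw [mem_ball, dist_eq_norm]
    rw [mem_ball_zero_iff] at hz
    linarith [norm_sub_le z y, le_abs_self T]
  obtain ⟨hint, hle⟩ := B.near k y _ hR
  calc ∫ z in ball 0 T, B.quot i k y z ∂B.m k
      ≤ ∫ z in ball 0 T, ‖y - z‖ / ‖y - z‖ ^ n / B.G k ^ 2 ∂B.m k :=
        setIntegral_mono_on (B.integrableOn_quot i k y T)
          ((hint.mono_set hsub).div_const _) measurableSet_ball fun z _ => B.quot_le i k y z
    _ ≤ ∫ z in ball y (2 * |T| + 1), ‖y - z‖ / ‖y - z‖ ^ n / B.G k ^ 2 ∂B.m k :=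
        setIntegral_mono_set (hint.div_const _) (Eventually.of_forall fun z => by positivity)
          hsub.eventuallyLE
    _ ≤ B.Cg * (2 * |T| + 1) / B.G k ^ 2 := by
        rw [integral_div]
        exact div_le_div_of_nonneg_right hle (by positivity)

/-- The energy of the heights over `G`. -/
lemma quot_energy {T : ℝ} (hT : 1 ≤ T) :
    ∃ E : ℝ, ∀ᶠ k in atTop, ∀ i : Fin d, n ≤ (i : ℕ) →
      ∫ y in ball 0 T, ∫ z in ball 0 T, B.quot i k y z ∂B.m k ∂B.m k ≤ E := by
  obtain ⟨E, hE⟩ := B.energy T hT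
  refine ⟨E, hE.mono fun k hk i hi => ?_⟩
  have hG := B.G_pos k
  have e : ∀ y z : Sp d, B.quot i k y z =
      (y i - z i) ^ 2 / ‖y - z‖ ^ (n + 1) / B.G k ^ 2 := fun y z => by
    rw [quot, ht, ht, ← sub_div, div_pow, div_right_comm]
  simp only [e, integral_div]
  rw [div_le_iff₀ (by positivity)]
  exact hk i hi

/-- The heights averaged over `ρ`, with the ball `B (0, T)`. -/
noncomputable def moll (a : ℝ) (i : Fin d) (T ρ : ℝ) (k : ℕ) (x : Sp n) : ℝ :=
  (a * tentMass n ρ)⁻¹ * ∫ y in ball 0 T, tent ρ (x - tPart B.le y) * B.ht i k y ∂B.m k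

section

variable {a : ℝ} (ha : 0 < a) {i : Fin d} (hi : n ≤ (i : ℕ))
include ha hi

lemma abs_moll_le (k : ℕ) {T ρ : ℝ} (hT : 1 ≤ T) (hρ : 0 < ρ) (x : Sp n) :
    |B.moll a i T ρ k x| ≤ (a * tentMass n ρ)⁻¹ * (C₀ * T ^ n + B.D * T ^ (n + 3)) := by
  have h0 : 0 ≤ (a * tentMass n ρ)⁻¹ :=
    inv_nonneg.2 (mul_nonneg ha.le (tentMass_pos hρ).le)
  rw [moll, abs_mul, abs_of_nonneg h0]
  refine mul_le_mul_of_nonneg_left (abs_integral_le_integral_abs.trans
    ((setIntegral_mono_on ?_ (B.intOn (f := fun y => |B.ht i k y|) (B.continuous_ht i k).abs k T)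
      measurableSet_ball fun y _ => ?_).trans (B.integral_abs_ht hi k hT))) h0
  · exact B.intOn (((continuous_tent ρ).comp (continuous_const.sub
      (lipschitz_tPart (n := n) B.le).continuous)).mul (B.continuous_ht i k)).abs k T
  · rw [abs_mul, abs_of_nonneg (tent_nonneg _ _)]
    exact mul_le_of_le_one_left (abs_nonneg _) (tent_le_one hρ _)

lemma abs_moll_sub_le (k : ℕ) {T ρ : ℝ} (hT : 1 ≤ T) (hρ : 0 < ρ) (x x' : Sp n) :
    |B.moll a i T ρ k x - B.moll a i T ρ k x'| ≤
      (a * tentMass n ρ)⁻¹ * (ρ⁻¹ * ‖x - x'‖ * (C₀ * T ^ n + B.D * T ^ (n + 3))) := by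
  have h0 : 0 ≤ (a * tentMass n ρ)⁻¹ :=
    inv_nonneg.2 (mul_nonneg ha.le (tentMass_pos hρ).le)
  have hc : ∀ w : Sp n, Continuous fun y => tent ρ (w - tPart B.le y) * B.ht i k y := fun w =>
    ((continuous_tent ρ).comp (continuous_const.sub
      (lipschitz_tPart (n := n) B.le).continuous)).mul (B.continuous_ht i k)
  rw [moll, moll, ← mul_sub, ← integral_sub (B.intOn (hc x) k T) (B.intOn (hc x') k T), abs_mul,
    abs_of_nonneg h0]
  refine mul_le_mul_of_nonneg_left (abs_integral_le_integral_abs.trans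
    ((setIntegral_mono_on (g := fun y => ρ⁻¹ * ‖x - x'‖ * |B.ht i k y|)
      (B.intOn ((hc x).sub (hc x')).abs k T)
      (B.intOn (continuous_const.mul (B.continuous_ht i k).abs) k T) measurableSet_ball
      fun y _ => ?_).trans ?_)) h0
  · simp only [Pi.sub_apply]
    rw [← sub_mul, abs_mul]
    refine mul_le_mul_of_nonneg_right ((abs_tent_sub_le hρ _ _).trans_eq ?_) (abs_nonneg _)
    rw [sub_sub_sub_cancel_right]
  · rw [integral_const_mul]
    exact mul_le_mul_of_nonneg_left (B.integral_abs_ht hi k hT) (by positivity)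

lemma continuous_moll (k : ℕ) {T ρ : ℝ} (hT : 1 ≤ T) (hρ : 0 < ρ) :
    Continuous (B.moll a i T ρ k) := by
  rw [Metric.continuous_iff]
  intro x ε hε
  set K := (a * tentMass n ρ)⁻¹ * (ρ⁻¹ * (C₀ * T ^ n + B.D * T ^ (n + 3))) with hK
  refine ⟨ε / (|K| + 1), by positivity, fun y hy => ?_⟩
  rw [Real.dist_eq]
  rw [dist_eq_norm] at hy
  refine (B.abs_moll_sub_le ha hi k hT hρ y x).trans_lt ?_
  calc (a * tentMass n ρ)⁻¹ * (ρ⁻¹ * ‖y - x‖ * (C₀ * T ^ n + B.D * T ^ (n + 3)))
      = K * ‖y - x‖ := by rw [hK]; ring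
    _ ≤ (|K| + 1) * ‖y - x‖ := by gcongr; linarith [le_abs_self K]
    _ < (|K| + 1) * (ε / (|K| + 1)) := mul_lt_mul_of_pos_left hy (by positivity)
    _ = ε := by field_simp

end

end Blow

end Vale.Agent.P120
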