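import Vale.Agent.P120.Improve.Height
import Mathlib.MeasureTheory.Integral.Prod

/-!
# P120: the pairing of heights with a scalar test, for measures on either space
-/

open MeasureTheory Metric Filter Topology
open scoped ENNReal NNReal

namespace Vale.Agent.P120

variable {n N : ℕ}

/-- A function on the support of a measure of growth `n`, of growth below two and of locally
finite energy. -/
structure Heights (n : ℕ) {N : ℕ} (m : Measure (Sp N)) (h : Sp N → ℝ) (C₀ Cg D : ℝ) : Prop where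
  meas : Measurable h
  mass : ∀ (x : Sp N) (r : ℝ), 0 < r → m.real (ball x r) ≤ C₀ * r ^ n
  near : ∀ (x : Sp N) (R : ℝ), 0 < R →
    IntegrableOn (fun z => ‖x - z‖ / ‖x - z‖ ^ n) (ball x R) m ∧
      ∫ z in ball x R, ‖x - z‖ / ‖x - z‖ ^ n ∂m ≤ Cg * R
  moment : ∀ A : ℝ, 1 ≤ A → IntegrableOn (fun y => h y ^ 2) (ball 0 A) m ∧
    ∫ y in ball 0 A, h y ^ 2 ∂m ≤ D * A ^ (n + 3)
  gag : ∀ W : ℝ, IntegrableOn (fun q : Sp N × Sp N => (h q.1 - h q.2) ^ 2 / ‖q.1 - q.2‖ ^ (n + 1))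
    (ball 0 W ×ˢ ball 0 W) (m.prod m)

/-- The quotient of a height difference. -/
noncomputable def slope' (n : ℕ) (h : Sp N → ℝ) (q : Sp N × Sp N) : ℝ :=
  (h q.1 - h q.2) / ‖q.1 - q.2‖ ^ (n + 1)

/-- The pairing of `h` with a test supported in `B (0, R)`: the expression of `LinearSpec`. -/
noncomputable def Jform (n : ℕ) (m : Measure (Sp N)) (h : Sp N → ℝ) (R : ℝ) (f : Sp N → ℝ) : ℝ :=
  2⁻¹ * (∫ y in ball 0 (2 * R), ∫ z in ball 0 (2 * R),
      (f y - f z) * (h y - h z) / ‖y - z‖ ^ (n + 1) ∂m ∂m) +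
    ∫ y in ball 0 (2 * R), ∫ z in (ball 0 (2 * R))ᶜ,
      f y * ((h y - h z) / ‖y - z‖ ^ (n + 1) + h z / ‖z‖ ^ (n + 1)) ∂m ∂m

lemma Heights.abs_int {m : Measure (Sp N)} [IsLocallyFiniteMeasure m] {h : Sp N → ℝ}
    {C₀ Cg D : ℝ} (H : Heights n m h C₀ Cg D) (W : ℝ) :
    IntegrableOn (fun y => |h y|) (ball 0 W) m := by
  refine IntegrableOn.mono_set ?_ (ball_subset_ball (le_max_right 1 W))
  refine Integrable.mono' ((integrableOn_const (C := (1 : ℝ)) measure_ball_lt_top.ne).add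
    (H.moment _ (le_max_left 1 W)).1) (continuous_abs.measurable.comp H.meas).aestronglyMeasurable (Eventually.of_forall fun y => ?_)
  simp only [Pi.add_apply, Real.norm_eq_abs, abs_abs]
  nlinarith [sq_nonneg (|h y| - 1), sq_abs (h y), abs_nonneg (h y)]

end Vale.Agent.P120
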