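import Vale.Agent.P120.Improve.Blow
import Vale.Agent.P120.Improve.Scale.Pairings

/-!
# P120: a failing sequence of chains gives a normalised sequence

If the improvement fails along chains of small geometric flatness, their similarities give a
`Blow` whose planes all have defect of the order of the squared top flatness.
-/

open MeasureTheory Metric Filter Topology
open scoped RealInnerProductSpace ENNReal NNReal

namespace Vale.Agent.P120

open Along Planes

variable {n d : ℕ}

/-- A failing sequence of chains, seen from the first balls, is a normalised sequence without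
good planes. -/
theorem exists_blow [Nonempty (Plane n d)] (hn : 1 ≤ n) (hd : n < d) (hP : PlaneSpec n d)
    (hG : GrowthSpec n d) (hK : CaccioppoliSpec n d) (hPr : PairSpec n d) (hT : TouchSpec n d)
    (μ : Measure (Sp d)) [IsLocallyFiniteMeasure μ] (C₀ : ℝ) (hμ : Reg n C₀ μ) {θ : ℝ} (hθ : 0 < θ)
    (c : ℕ → Chain μ) (hgeo : ∀ k, geo n μ (c k) ≤ 1 / (k + 1))
    (hfail : ∀ k, θ * geo n μ (c k) + k * (bT n μ k ((c k).p 0) (c k).R +
      √(∑ j ∈ Finset.range (k + 1), aT n μ ((c k).p j) ((c k).R * 8 ^ j))) <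
        flatness n μ ((c k).p 0) (c k).R) :
    ∃ (C₁ : ℝ) (B : Blow n d C₁) (c₁ : ℝ), 0 < c₁ ∧ ∀ᶠ k in atTop, ∀ L : Plane n d,
      dist L.base 0 ≤ 1 / 2 → c₁ * B.G k ^ 2 ≤ defect n (B.m k) 0 2 L := by
  have _ := hn
  have h : n ≤ d := hd.le
  obtain ⟨hbest, ⟨Cb, hfl⟩, -⟩ := hP μ C₀ hμ
  have hgr := hG μ C₀ hμ
  obtain ⟨C1, hC1, hg1⟩ := hgr 1 le_rfl
  obtain ⟨C2, hC2, hg2⟩ := hgr 2 (by norm_num)
  obtain ⟨D, hD⟩ := Along.moment h hμ hbest hfl
  set T : ℕ → Sim d := fun k => sim h (c k) with hTdef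
  set g : ℕ → ℝ := fun k => geo n μ (c k) with hgdef
  have hg0 : ∀ k, 0 ≤ g k := fun k => geo_nonneg hfl _
  have hlim : Tendsto g atTop (𝓝 0) :=
    squeeze_zero hg0 hgeo tendsto_one_div_add_atTop_nhds_zero_nat
  have hsmall : ∀ γ : ℝ, 0 < γ → ∀ᶠ k in atTop, g k < γ := fun γ hγ =>
    hlim.eventually (gt_mem_nhds hγ)
  have hb : ∀ k, 0 ≤ bT n μ k ((c k).p 0) (c k).R := fun k => bT_nonneg k _ (c k).pos.le
  have ha : ∀ k j, 0 ≤ aT n μ ((c k).p j) ((c k).R * 8 ^ j) := fun k j =>
    aT_nonneg _ (radius_pos _ j).le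
  have hsum : ∀ k : ℕ, 0 ≤ √(∑ j ∈ Finset.range (k + 1), aT n μ ((c k).p j) ((c k).R * 8 ^ j)) :=
    fun k => Real.sqrt_nonneg _
  have hflat : ∀ k, flatness n μ ((c k).p 0) (c k).R ≤ g k := fun k => by
    simpa using flat_le_geo hfl (c k) 0
  have hk : ∀ k : ℕ, k * bT n μ k ((c k).p 0) (c k).R ≤ g k ∧
      k * √(∑ j ∈ Finset.range (k + 1), aT n μ ((c k).p j) ((c k).R * 8 ^ j)) ≤ g k := fun k => by
    have h1 := (hfail k).le.trans (hflat k)
    rw [mul_add] at h1
    have h2 := mul_nonneg hθ.le (hg0 k)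
    have h3 := mul_nonneg k.cast_nonneg (hb k)
    have h4 := mul_nonneg k.cast_nonneg (hsum k)
    exact ⟨by linarith, by linarith⟩
  let B : Blow n d C₀ :=
    { le := h
      m := fun k => (T k).push n μ
      G := g
      lf := fun k => (T k).isLocallyFinite μ
      reg := fun k => (T k).reg_push hμ
      point := fun δ hδ => by
        obtain ⟨γ, hγ, hc⟩ := centre h hμ hbest hfl hδ
        filter_upwards [hsmall γ hγ] with k hk
        exact ⟨_, (T k).app_mem_support.2 ((c k).mem 0), hc (c k) hk⟩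
      diam := fun A => by
        obtain ⟨j, hj⟩ := pow_unbounded_of_one_lt A (by norm_num : (1 : ℝ) < 8)
        filter_upwards [hsmall ((√8 ^ j)⁻¹) (by positivity)] with k hk
        refine le_trans (ENNReal.ofReal_le_ofReal ?_) (((T k).le_ediam_push μ _).2
          (le_diam hfl (c k) (j := j) ((lt_inv_mul_iff₀ (by positivity)).1 (by simpa using hk))))
        show A ≤ (c k).R⁻¹ * ((c k).R * 8 ^ j)
        rw [inv_mul_cancel_left₀ (c k).pos.ne']
        exact hj.le
      G_pos := fun k => by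
        refine lt_of_le_of_ne (hg0 k) fun he => ?_
        have h1 := (hfail k).trans_le (hflat k)
        rw [mul_add, ← he] at h1
        simp only [hgdef] at he
        rw [← he] at h1
        linarith [mul_nonneg k.cast_nonneg (hb k), mul_nonneg k.cast_nonneg (hsum k)]
      G_lim := hlim
      Cg := max C1 C2
      near := fun k x R hR => by
        have h1 := (hg1 ((T k).inv x) (R / (T k).a) (div_pos hR (T k).pos)).1
        have h2 := (T k).near_push (n := n) ⟨h1.1, h1.2.trans (mul_le_mul_of_nonneg_right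
          (le_max_left C1 C2) (div_pos hR (T k).pos).le)⟩
        rwa [(T k).app_inv, mul_div_cancel₀ _ (T k).pos.ne'] at h2
      far := fun a ha k x R hR => by
        have hR' := div_pos hR (T k).pos
        have h1 : IntegrableOn (fun z => (‖(T k).inv x - z‖ ^ (n + a))⁻¹)
            (ball ((T k).inv x) (R / (T k).a))ᶜ μ ∧
          ∫ z in (ball ((T k).inv x) (R / (T k).a))ᶜ, (‖(T k).inv x - z‖ ^ (n + a))⁻¹ ∂μ ≤
            max C1 C2 / (R / (T k).a) ^ a := by
          rcases ha with rfl | rfl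
          · exact ⟨(hg1 _ _ hR').2.1, (hg1 _ _ hR').2.2.trans
              (div_le_div_of_nonneg_right (le_max_left _ _) (by positivity))⟩
          · exact ⟨(hg2 _ _ hR').2.1, (hg2 _ _ hR').2.2.trans
              (div_le_div_of_nonneg_right (le_max_right _ _) (by positivity))⟩
        have h2 := (T k).far_push h1
        rwa [(T k).app_inv, mul_div_cancel₀ _ (T k).pos.ne'] at h2
      D := D
      moment := fun k A hA => hD (c k) A hA
      energy := fun A hA => by
        obtain ⟨j, E, hE⟩ := energy_bound h hμ hbest hfl (fun x R hR => (hg1 x R hR).1) hK hA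
        refine ⟨E, ?_⟩
        filter_upwards [hsmall ((√8 ^ j)⁻¹) (by positivity), eventually_ge_atTop (j + 1)]
          with k hk' hkj
        refine hE (c k) ((lt_inv_mul_iff₀ (by positivity)).1 (by simpa using hk')) ?_
        have h1 : √(∑ i ∈ Finset.range (k + 1), aT n μ ((c k).p i) ((c k).R * 8 ^ i)) ≤ g k :=
          le_trans (le_mul_of_one_le_left (hsum k) (by exact_mod_cast (by omega : 1 ≤ k))) (hk k).2
        rw [Real.sqrt_le_left (hg0 k)] at h1
        exact le_trans (Finset.single_le_sum (fun i _ => ha k i)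
          (Finset.mem_range.2 (by omega : j < k + 1))) h1
      test := fun A L δ hA hδ => by
        filter_upwards [tendsto_natCast_atTop_atTop.eventually_ge_atTop (A + L),
          tendsto_natCast_atTop_atTop.eventually_ge_atTop δ⁻¹] with k hkA hkδ φ hs h1 hL hm
        refine (test_bound h hμ hbest hPr (c k) hA hkA hs h1 hL hm).trans ?_
        have h2 := (hk k).1
        have h3 := mul_le_mul_of_nonneg_right hkδ (hb k)
        rw [inv_mul_eq_div] at h3
        rw [← div_le_iff₀' hδ]
        exact h3.trans h2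
      touch := fun η hη => by
        obtain ⟨N, κ, hκ, hN⟩ := hT μ C₀ hμ η hη
        exact ⟨N, κ, hκ, fun k => (T k).touchAt_push hN⟩ }
  refine ⟨C₀, B, θ ^ 2 / 2 ^ (n + 2), by positivity, ?_⟩
  obtain ⟨γ, hγ, hc⟩ := centre h hμ hbest hfl (one_half_pos (α := ℝ))
  filter_upwards [hsmall γ hγ, hsmall 1 one_pos] with k hkγ hk1 L hL
  show θ ^ 2 / 2 ^ (n + 2) * g k ^ 2 ≤ defect n ((T k).push n μ) 0 2 L
  set S := T k
  set R := (c k).R
  have hR : 0 < R := (c k).pos
  have hSa : S.a = R⁻¹ := rfl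
  set P := S.comapPlane L
  have e := S.defect_push (n := n) μ S.p (2 * R) P
  rw [S.map_comap, S.app_p, show S.a * (2 * R) = 2 by rw [hSa]; field_simp] at e
  rw [e]
  have hdist : ∀ y : Sp d, dist y S.p = R * ‖S.app y‖ := fun y => by
    rw [← dist_zero_right, ← S.app_p, S.dist_app, hSa, mul_inv_cancel_left₀ hR.ne']
  have hp0 : dist ((c k).p 0) S.p ≤ R / 2 := by
    rw [hdist]
    exact (mul_le_mul_of_nonneg_left (hc (c k) hkγ) hR.le).trans_eq (by ring)
  have hbase : dist P.base ((c k).p 0) ≤ R := by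
    have h1 : dist P.base S.p ≤ R / 2 := by
      rw [hdist, show S.app P.base = L.base from S.app_inv _, ← dist_zero_right]
      exact (mul_le_mul_of_nonneg_left hL hR.le).trans_eq (by ring)
    linarith [dist_triangle_right P.base ((c k).p 0) S.p]
  have hd0 : ENNReal.ofReal R ≤ Metric.ediam μ.support := by
    simpa using le_diam hfl (c k) (j := 0) (by simpa using hk1)
  have hdef : flatness n μ ((c k).p 0) R ^ 2 ≤ defect n μ ((c k).p 0) R P := by
    rw [← defect_best_le hR (hbest _ _ hR) hd0]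
    exact (hbest _ _ hR).2 P hbase
  have hmono : defect n μ ((c k).p 0) R P * (R ^ n * R ^ 2) ≤
      defect n μ S.p (2 * R) P * ((2 * R) ^ n * (2 * R) ^ 2) := by
    rw [← integral_nrm_eq hR, ← integral_nrm_eq (by positivity : (0 : ℝ) < 2 * R)]
    exact setIntegral_mono_set (integrableOn_ball ((continuous_nrm P).norm.fun_pow 2) _ _)
      (ae_of_all _ fun _ => sq_nonneg _) (ball_subset_ball' (by linarith)).eventuallyLE
  have hθg : (θ * g k) ^ 2 ≤ flatness n μ ((c k).p 0) R ^ 2 := by
    refine pow_le_pow_left₀ (mul_nonneg hθ.le (hg0 k)) ?_ 2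
    linarith [hfail k, mul_nonneg k.cast_nonneg (add_nonneg (hb k) (hsum k))]
  have h3 : (θ * g k) ^ 2 * (R ^ n * R ^ 2) ≤
      defect n μ S.p (2 * R) P * (2 ^ (n + 2) * (R ^ n * R ^ 2)) := by
    refine ((mul_le_mul_of_nonneg_right (hθg.trans hdef) (by positivity)).trans hmono).trans_eq ?_
    rw [mul_pow, mul_pow, pow_add]
    ring
  rw [div_mul_eq_mul_div, div_le_iff₀ (by positivity), ← mul_pow]
  exact le_of_mul_le_mul_right (h3.trans_eq (mul_assoc _ _ _).symm) (by positivity)

end Vale.Agent.P120
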