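import Mathlib.MeasureTheory.Integral.Bochner.ContinuousLinearMap
import Mathlib.Analysis.InnerProductSpace.PiL2
import Vale.Agent.P120.Improve.Blow

/-!
# P120: similarities

`y ↦ a • Q (y - p)` with the mass multiplied by `a ^ n`: regularity, support, flatness, pairings,
tests and the touching statement are unchanged.
-/

open MeasureTheory Metric Set Filter Topology
open scoped RealInnerProductSpace ENNReal NNReal

namespace Vale.Agent.P120

variable {n d : ℕ}

/-- A similarity of `Sp d`. -/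
structure Sim (d : ℕ) where
  a : ℝ
  pos : 0 < a
  p : Sp d
  Q : Sp d ≃ₗᵢ[ℝ] Sp d

namespace Sim

variable (T : Sim d)

/-- The map. -/
noncomputable def app (y : Sp d) : Sp d := T.a • T.Q (y - T.p)

/-- The inverse map. -/
noncomputable def inv (u : Sp d) : Sp d := T.p + T.Q.symm (T.a⁻¹ • u)

lemma inv_app (y : Sp d) : T.inv (T.app y) = y := by
  simp only [inv, app, smul_smul, inv_mul_cancel₀ T.pos.ne', one_smul,
    LinearIsometryEquiv.symm_apply_apply, add_sub_cancel]

lemma app_inv (u : Sp d) : T.app (T.inv u) = u := by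
  simp only [inv, app, add_sub_cancel_left, LinearIsometryEquiv.apply_symm_apply, smul_smul,
    mul_inv_cancel₀ T.pos.ne', one_smul]

lemma continuous_app : Continuous T.app := by unfold app; fun_prop

lemma continuous_inv : Continuous T.inv := by unfold inv; fun_prop

/-- The similarity as a homeomorphism. -/
noncomputable def hom : Sp d ≃ₜ Sp d where
  toFun := T.app
  invFun := T.inv
  left_inv := T.inv_app
  right_inv := T.app_inv
  continuous_toFun := T.continuous_app
  continuous_invFun := T.continuous_inv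

lemma measurableEmbedding_app : MeasurableEmbedding T.app := T.hom.measurableEmbedding

lemma app_p : T.app T.p = 0 := by simp [app]

lemma app_sub (y z : Sp d) : T.app y - T.app z = T.a • T.Q (y - z) := by
  simp only [app, ← smul_sub, ← map_sub, sub_sub_sub_cancel_right]

lemma norm_app_sub (y z : Sp d) : ‖T.app y - T.app z‖ = T.a * ‖y - z‖ := by
  rw [app_sub, norm_smul, Real.norm_of_nonneg T.pos.le, LinearIsometryEquiv.norm_map]

lemma dist_app (y z : Sp d) : dist (T.app y) (T.app z) = T.a * dist y z := by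
  rw [dist_eq_norm, dist_eq_norm, norm_app_sub]

lemma preimage_ball (x : Sp d) (r : ℝ) : T.app ⁻¹' ball (T.app x) (T.a * r) = ball x r := by
  ext y
  simp only [mem_preimage, mem_ball, dist_app]
  exact mul_lt_mul_iff_of_pos_left T.pos

lemma preimage_ball' (u : Sp d) (r : ℝ) : T.app ⁻¹' ball u r = ball (T.inv u) (r / T.a) := by
  conv_lhs => rw [← T.app_inv u, show r = T.a * (r / T.a) by field_simp [T.pos.ne']]
  exact T.preimage_ball _ _

lemma kernel_app (n : ℕ) (w : Sp d) :
    rieszKernel n (T.a • T.Q w) = (T.a ^ n)⁻¹ • T.Q (rieszKernel n w) := by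
  simp only [rieszKernel, norm_smul, Real.norm_of_nonneg T.pos.le, LinearIsometryEquiv.norm_map,
    map_smul, smul_smul]
  congr 1
  rw [mul_pow, mul_inv, pow_succ T.a, mul_inv]
  field_simp [T.pos.ne']

/-- The transported measure. -/
noncomputable def push (n : ℕ) (μ : Measure (Sp d)) : Measure (Sp d) :=
  ENNReal.ofReal (T.a ^ n) • μ.map T.app

lemma push_apply (μ : Measure (Sp d)) (s : Set (Sp d)) :
    T.push n μ s = ENNReal.ofReal (T.a ^ n) * μ (T.app ⁻¹' s) := by
  rw [push, Measure.smul_apply, T.measurableEmbedding_app.map_apply, smul_eq_mul]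

lemma push_real (μ : Measure (Sp d)) (s : Set (Sp d)) :
    (T.push n μ).real s = T.a ^ n * μ.real (T.app ⁻¹' s) := by
  rw [measureReal_def, push_apply, ENNReal.toReal_mul,
    ENNReal.toReal_ofReal (pow_nonneg T.pos.le n), measureReal_def]

lemma ofReal_pow_ne : ENNReal.ofReal (T.a ^ n) ≠ 0 := by
  simp [ENNReal.ofReal_eq_zero, pow_pos T.pos n]

lemma isLocallyFinite (μ : Measure (Sp d)) [IsLocallyFiniteMeasure μ] :
    IsLocallyFiniteMeasure (T.push n μ) := by
  refine ⟨fun u => ⟨ball u 1, ball_mem_nhds u one_pos, ?_⟩⟩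
  rw [push_apply, preimage_ball']
  exact ENNReal.mul_lt_top ENNReal.ofReal_lt_top measure_ball_lt_top

/-! ### Integrals -/

lemma integral_push {E : Type*} [NormedAddCommGroup E] [NormedSpace ℝ E] (μ : Measure (Sp d))
    (f : Sp d → E) : ∫ u, f u ∂T.push n μ = T.a ^ n • ∫ y, f (T.app y) ∂μ := by
  rw [push, integral_smul_measure, T.measurableEmbedding_app.integral_map,
    ENNReal.toReal_ofReal (pow_nonneg T.pos.le n)]

lemma setIntegral_push {E : Type*} [NormedAddCommGroup E] [NormedSpace ℝ E] (μ : Measure (Sp d))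
    (f : Sp d → E) (s : Set (Sp d)) :
    ∫ u in s, f u ∂T.push n μ = T.a ^ n • ∫ y in T.app ⁻¹' s, f (T.app y) ∂μ := by
  rw [push, Measure.restrict_smul, integral_smul_measure,
    T.measurableEmbedding_app.setIntegral_map, ENNReal.toReal_ofReal (pow_nonneg T.pos.le n)]

lemma integrableOn_push {E : Type*} [NormedAddCommGroup E] {μ : Measure (Sp d)} {f : Sp d → E}
    {s : Set (Sp d)} :
    IntegrableOn f s (T.push n μ) ↔ IntegrableOn (fun y => f (T.app y)) (T.app ⁻¹' s) μ := by
  rw [IntegrableOn, push, Measure.restrict_smul,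
    integrable_smul_measure T.ofReal_pow_ne ENNReal.ofReal_ne_top]
  exact T.measurableEmbedding_app.integrableOn_map_iff

/-! ### Support and regularity -/

lemma mem_support_push {μ : Measure (Sp d)} {u : Sp d} :
    u ∈ (T.push n μ).support ↔ T.inv u ∈ μ.support := by
  rw [nhds_basis_ball.mem_measureSupport, nhds_basis_ball.mem_measureSupport]
  have ha := T.pos
  constructor
  · intro h r hr
    have := h (T.a * r) (by positivity)
    rw [push_apply, preimage_ball', mul_div_cancel_left₀ _ ha.ne'] at this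
    exact pos_of_ne_zero (right_ne_zero_of_mul this.ne')
  · intro h r hr
    rw [push_apply, preimage_ball']
    exact ENNReal.mul_pos T.ofReal_pow_ne (h (r / T.a) (by positivity)).ne'

lemma app_mem_support {μ : Measure (Sp d)} {x : Sp d} :
    T.app x ∈ (T.push n μ).support ↔ x ∈ μ.support := by
  rw [mem_support_push, inv_app]

lemma edist_app (y z : Sp d) : edist (T.app y) (T.app z) = ENNReal.ofReal T.a * edist y z := by
  rw [edist_dist, edist_dist, dist_app, ENNReal.ofReal_mul T.pos.le]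

lemma ediam_push (μ : Measure (Sp d)) :
    Metric.ediam (T.push n μ).support = ENNReal.ofReal T.a * Metric.ediam μ.support := by
  have h0 : ENNReal.ofReal T.a ≠ 0 := by simp [T.pos]
  apply le_antisymm
  · refine Metric.ediam_le fun u hu v hv => ?_
    rw [← T.app_inv u, ← T.app_inv v, edist_app]
    exact mul_le_mul' le_rfl
      (Metric.edist_le_ediam_of_mem (T.mem_support_push.1 hu) (T.mem_support_push.1 hv))
  · rw [mul_comm, ← ENNReal.le_div_iff_mul_le (Or.inl h0) (Or.inl ENNReal.ofReal_ne_top)]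
    refine Metric.ediam_le fun y hy z hz => ?_
    rw [ENNReal.le_div_iff_mul_le (Or.inl h0) (Or.inl ENNReal.ofReal_ne_top), mul_comm,
      ← edist_app]
    exact Metric.edist_le_ediam_of_mem (T.app_mem_support.2 hy) (T.app_mem_support.2 hz)

lemma le_ediam_push (μ : Measure (Sp d)) (r : ℝ) :
    ENNReal.ofReal (T.a * r) ≤ Metric.ediam (T.push n μ).support ↔
      ENNReal.ofReal r ≤ Metric.ediam μ.support := by
  rw [ediam_push, ENNReal.ofReal_mul T.pos.le]
  exact ENNReal.mul_le_mul_iff_right (by simp [T.pos]) ENNReal.ofReal_ne_top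

lemma reg_push {μ : Measure (Sp d)} {C : ℝ} (h : Reg n C μ) : Reg n C (T.push n μ) := by
  have ha := T.pos
  have e : ∀ r : ℝ, r = T.a * (r / T.a) := fun r => by field_simp
  refine ⟨h.one_le, fun x r => ?_, fun x r hr => ?_, fun x hx r hr hd => ?_⟩
  · rw [push_apply, preimage_ball']
    exact ENNReal.mul_ne_top ENNReal.ofReal_ne_top (h.fin _ _)
  · rw [push_real, preimage_ball']
    refine (mul_le_mul_of_nonneg_left (h.upper _ _ (by positivity)) (by positivity)).trans_eq ?_
    rw [div_pow]; field_simp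
  · rw [push_real, preimage_ball']
    rw [e r, T.le_ediam_push] at hd
    refine le_trans (le_of_eq ?_) (mul_le_mul_of_nonneg_left
      (h.lower _ (T.mem_support_push.1 hx) _ (by positivity) hd) (by positivity))
    rw [div_pow]; field_simp

/-! ### Planes and flatness -/

/-- The image of a plane. -/
noncomputable def mapPlane (L : Plane n d) : Plane n d where
  base := T.app L.base
  frame i := T.Q (L.frame i)
  ortho := L.ortho.comp_linearIsometryEquiv T.Q

/-- The preimage of a plane. -/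
noncomputable def comapPlane (L : Plane n d) : Plane n d where
  base := T.inv L.base
  frame i := T.Q.symm (L.frame i)
  ortho := L.ortho.comp_linearIsometryEquiv T.Q.symm

lemma map_comap (L : Plane n d) : T.mapPlane (T.comapPlane L) = L := by
  obtain ⟨b, f, o⟩ := L
  simp [mapPlane, comapPlane, app_inv]

lemma nrm_map (L : Plane n d) (y : Sp d) : (T.mapPlane L).nrm (T.app y) = T.a • T.Q (L.nrm y) := by
  simp only [Plane.nrm, mapPlane, app_sub, real_inner_smul_right, LinearIsometryEquiv.inner_map_map]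
  rw [map_sub (T.Q) (y - L.base), smul_sub, map_sum, Finset.smul_sum]
  simp only [map_smul, smul_smul]

lemma defect_push (μ : Measure (Sp d)) (p : Sp d) (R : ℝ) (L : Plane n d) :
    defect n (T.push n μ) (T.app p) (T.a * R) (T.mapPlane L) = defect n μ p R L := by
  have ha : T.a ^ n ≠ 0 := (pow_pos T.pos n).ne'
  simp only [defect, setIntegral_push, preimage_ball, nrm_map, norm_smul,
    Real.norm_of_nonneg T.pos.le, LinearIsometryEquiv.norm_map, smul_eq_mul,
    mul_div_mul_left _ _ T.pos.ne', mul_pow]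
  rw [mul_div_mul_left _ _ ha]

lemma dist_map_base (p : Sp d) (L : Plane n d) :
    dist (T.mapPlane L).base (T.app p) = T.a * dist L.base p := T.dist_app _ _

lemma flatness_push (μ : Measure (Sp d)) (p : Sp d) (R : ℝ) :
    flatness n (T.push n μ) (T.app p) (T.a * R) = flatness n μ p R := by
  have h1 : ∀ L : Plane n d, dist L.base p ≤ R ↔
      dist (T.mapPlane L).base (T.app p) ≤ T.a * R := fun L => by
    rw [dist_map_base]; exact (mul_le_mul_iff_right₀ T.pos).symm
  have hsur : Function.Surjective (fun L : {L : Plane n d // dist L.base p ≤ R} =>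
      (⟨T.mapPlane L.1, (h1 L.1).1 L.2⟩ :
        {L : Plane n d // dist L.base (T.app p) ≤ T.a * R})) := fun L' =>
    ⟨⟨T.comapPlane L'.1, (h1 _).2 (by rw [T.map_comap]; exact L'.2)⟩,
      Subtype.ext (T.map_comap L'.1)⟩
  unfold flatness
  simp only [T.le_ediam_push]
  split_ifs
  · rw [← hsur.iInf_comp]
    simp only [defect_push]
  · rfl

lemma isBest_push {μ : Measure (Sp d)} {p : Sp d} {R : ℝ} {L : Plane n d}
    (h : IsBest n μ p R L) : IsBest n (T.push n μ) (T.app p) (T.a * R) (T.mapPlane L) := by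
  refine ⟨by rw [dist_map_base]; exact mul_le_mul_of_nonneg_left h.1 T.pos.le, fun L' hL' => ?_⟩
  rw [← T.map_comap L', dist_map_base] at hL'
  rw [← T.map_comap L', defect_push, defect_push]
  exact h.2 _ (le_of_mul_le_mul_left hL' T.pos)

/-! ### The pairing -/

lemma pair_push (μ : Measure (Sp d)) (p : Sp d) (R : ℝ) (φ : Sp d → Sp d) :
    pair n (T.push n μ) (T.app p) (T.a * R) φ =
      T.a ^ n * pair n μ p R (fun y => T.Q.symm (φ (T.app y))) := by
  have hb : T.app ⁻¹' ball (T.app p) (2 * (T.a * R)) = ball p (2 * R) := by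
    rw [mul_left_comm]; exact T.preimage_ball _ _
  have hi : ∀ v w : Sp d, ⟪v, T.Q w⟫ = ⟪T.Q.symm v, w⟫ := fun v w => by
    conv_lhs => rw [← T.Q.apply_symm_apply v, LinearIsometryEquiv.inner_map_map]
  have e1 : ∀ y z : Sp d, ⟪φ (T.app y) - φ (T.app z), rieszKernel n (T.app y - T.app z)⟫ =
      (T.a ^ n)⁻¹ *
        ⟪T.Q.symm (φ (T.app y)) - T.Q.symm (φ (T.app z)), rieszKernel n (y - z)⟫ := fun y z => by
    rw [app_sub, kernel_app, real_inner_smul_right, hi, map_sub]
  have e2 : ∀ y z : Sp d, ⟪φ (T.app y),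
      rieszKernel n (T.app y - T.app z) - rieszKernel n (T.app p - T.app z)⟫ =
      (T.a ^ n)⁻¹ * ⟪T.Q.symm (φ (T.app y)), rieszKernel n (y - z) - rieszKernel n (p - z)⟫ :=
    fun y z => by
    rw [app_sub, app_sub, kernel_app, kernel_app, ← smul_sub, ← map_sub, real_inner_smul_right, hi]
  have ha : T.a ^ n ≠ 0 := (pow_pos T.pos n).ne'
  simp only [pair, setIntegral_push, hb, preimage_compl]
  simp only [e1, e2, smul_eq_mul, integral_const_mul]
  field_simp

lemma lipschitz_comp {L : ℝ≥0} {φ : Sp d → Sp d} (hφ : LipschitzWith L φ) :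
    LipschitzWith (L * T.a.toNNReal) fun y => T.Q.symm (φ (T.app y)) := by
  refine LipschitzWith.of_dist_le_mul fun y z => ?_
  rw [T.Q.symm.dist_map, NNReal.coe_mul, Real.coe_toNNReal _ T.pos.le, mul_assoc, ← dist_app]
  exact hφ.dist_le_mul _ _

lemma isTest_push (μ : Measure (Sp d)) (M : ℕ) (p : Sp d) {R : ℝ} (φ : Sp d → Sp d) :
    IsTest (T.push n μ) M (T.app p) (T.a * R) φ ↔
      IsTest μ M p R (fun y => T.Q.symm (φ (T.app y))) := by
  have ha := T.pos
  constructor
  · rintro ⟨h1, h2, h3, h4⟩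
    refine ⟨fun y hy => ?_, fun y => by simpa using h2 (T.app y), ?_, ?_⟩
    · show T.Q.symm (φ (T.app y)) = 0
      rw [h1 (T.app y) (by rw [dist_app]; nlinarith), map_zero]
    · refine (T.lipschitz_comp h3).weaken (le_of_eq ?_)
      rw [mul_comm, ← Real.toNNReal_mul ha.le]
      congr 1
      field_simp
    · rw [show (∫ y, T.Q.symm (φ (T.app y)) ∂μ) = T.Q.symm (∫ y, φ (T.app y) ∂μ) from
        T.Q.symm.toLinearIsometry.integral_comp_comm _]
      rw [integral_push, smul_eq_zero] at h4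
      rw [h4.resolve_left (pow_pos ha n).ne', map_zero]
  · rintro ⟨h1, h2, h3, h4⟩
    refine ⟨fun u hu => ?_, fun u => ?_, LipschitzWith.of_dist_le_mul fun u v => ?_, ?_⟩
    · obtain ⟨y, rfl⟩ : ∃ y, T.app y = u := ⟨_, T.app_inv u⟩
      rw [dist_app, mul_left_comm] at hu
      simpa using h1 y (le_of_mul_le_mul_left hu ha)
    · obtain ⟨y, rfl⟩ : ∃ y, T.app y = u := ⟨_, T.app_inv u⟩
      simpa using h2 y
    · obtain ⟨y, rfl⟩ : ∃ y, T.app y = u := ⟨_, T.app_inv u⟩
      obtain ⟨z, rfl⟩ : ∃ z, T.app z = v := ⟨_, T.app_inv v⟩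
      rw [← T.Q.symm.dist_map]
      refine (h3.dist_le_mul y z).trans_eq ?_
      rw [dist_app, div_mul_eq_div_div, div_right_comm, Real.toNNReal_div' ha.le, NNReal.coe_div,
        Real.coe_toNNReal _ ha.le]
      field_simp
    · rw [show (∫ y, T.Q.symm (φ (T.app y)) ∂μ) = T.Q.symm (∫ y, φ (T.app y) ∂μ) from
        T.Q.symm.toLinearIsometry.integral_comp_comm _] at h4
      rw [integral_push, T.Q.symm.map_eq_zero_iff.1 h4, smul_zero]

lemma bT_push (μ : Measure (Sp d)) (M : ℕ) (p : Sp d) (R : ℝ) :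
    bT n (T.push n μ) M (T.app p) (T.a * R) = bT n μ M p R := by
  have ha : T.a ^ n ≠ 0 := (pow_pos T.pos n).ne'
  have hv : ∀ φ : Sp d → Sp d,
      |pair n (T.push n μ) (T.app p) ((M + 1) * (T.a * R)) φ| / (T.a * R) ^ n =
        |pair n μ p ((M + 1) * R) fun y => T.Q.symm (φ (T.app y))| / R ^ n := fun φ => by
    rw [mul_left_comm, pair_push, abs_mul, abs_of_pos (pow_pos T.pos n), mul_pow,
      mul_div_mul_left _ _ ha]
  unfold bT
  congr 1
  ext t
  constructor
  · rintro ⟨φ, hφ, rfl⟩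
    exact ⟨_, (T.isTest_push μ M p φ).1 hφ, hv φ⟩
  · rintro ⟨ψ, hψ, rfl⟩
    have e : (fun y => T.Q.symm ((fun u => T.Q (ψ (T.inv u))) (T.app y))) = ψ :=
      funext fun y => by simp [inv_app]
    refine ⟨fun u => T.Q (ψ (T.inv u)), (T.isTest_push μ M p _).2 (e.symm ▸ hψ), ?_⟩
    rw [hv, e]

lemma touchAt_push {μ : Measure (Sp d)} {η κ : ℝ} {N : ℕ} (h : TouchAt n μ η N κ) :
    TouchAt n (T.push n μ) η N κ := by
  intro u v ρ hρ hd hv huv hdis hb
  obtain ⟨z, rfl⟩ : ∃ z, T.app z = u := ⟨_, T.app_inv u⟩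
  obtain ⟨x, rfl⟩ : ∃ x, T.app x = v := ⟨_, T.app_inv v⟩
  have ha := T.pos
  obtain ⟨r, rfl⟩ : ∃ r, ρ = T.a * r := ⟨ρ / T.a, by field_simp⟩
  have hr : 0 < r := pos_of_mul_pos_right hρ ha.le
  obtain ⟨k, hk, hk'⟩ := h z x r hr ((T.le_ediam_push μ r).1 hd) (T.app_mem_support.1 hv)
    (mul_left_cancel₀ ha.ne' (by rw [← dist_app]; exact huv))
    (Set.disjoint_left.2 fun y hy hy' => Set.disjoint_left.1 hdis
      (by rw [mem_ball, dist_app]; exact mul_lt_mul_of_pos_left hy ha) (T.app_mem_support.2 hy'))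
    (fun k hk => by have := hb k hk; rwa [mul_div_assoc, bT_push] at this)
  refine ⟨k, hk, fun w hw => ?_⟩
  obtain ⟨y, rfl⟩ : ∃ y, T.app y = w := ⟨_, T.app_inv w⟩
  rw [mul_div_assoc] at hw
  have := hk' y ⟨T.app_mem_support.1 hw.1, by
    have h2 := hw.2
    rw [mem_ball, dist_app] at h2
    exact lt_of_mul_lt_mul_left h2 ha.le⟩
  rw [app_sub, app_sub, mul_inv, ← smul_smul, smul_comm r⁻¹ T.a, inv_smul_smul₀ ha.ne', ← map_smul,
    real_inner_smul_right, LinearIsometryEquiv.inner_map_map, abs_mul, abs_of_pos ha]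
  refine (mul_le_mul_of_nonneg_left this ha.le).trans_eq ?_
  ring

/-! ### Energy and growth -/

lemma energy_push (μ : Measure (Sp d)) (p : Sp d) (R : ℝ) (e : Sp d) :
    energy n (T.push n μ) (T.app p) (T.a * R) (T.Q e) = T.a ^ n * energy n μ p R e / T.a ^ n := by
  have ha := T.pos
  have hb : T.app ⁻¹' ball (T.app p) (T.a * R / 2) = ball p (R / 2) := by
    rw [mul_div_assoc]; exact T.preimage_ball _ _
  have e1 : ∀ y z : Sp d, ⟪T.Q e, T.app y - T.app z⟫ ^ 2 / ‖T.app y - T.app z‖ ^ (n + 1) =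
      (T.a ^ 2 / T.a ^ (n + 1)) * (⟪e, y - z⟫ ^ 2 / ‖y - z‖ ^ (n + 1)) := fun y z => by
    rw [norm_app_sub, app_sub, real_inner_smul_right, LinearIsometryEquiv.inner_map_map, mul_pow,
      mul_pow]
    field_simp
  simp only [energy, setIntegral_push, hb, e1, smul_eq_mul, integral_const_mul]
  rw [mul_pow]
  field_simp
  ring

lemma near_push {μ : Measure (Sp d)} {x : Sp d} {R C : ℝ}
    (h : IntegrableOn (fun z => ‖x - z‖ / ‖x - z‖ ^ n) (ball x R) μ ∧
      ∫ z in ball x R, ‖x - z‖ / ‖x - z‖ ^ n ∂μ ≤ C * R) :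
    IntegrableOn (fun z => ‖T.app x - z‖ / ‖T.app x - z‖ ^ n) (ball (T.app x) (T.a * R))
        (T.push n μ) ∧
      ∫ z in ball (T.app x) (T.a * R), ‖T.app x - z‖ / ‖T.app x - z‖ ^ n ∂T.push n μ ≤
        C * (T.a * R) := by
  have ha := T.pos
  have e1 : ∀ y : Sp d, ‖T.app x - T.app y‖ / ‖T.app x - T.app y‖ ^ n =
      (T.a / T.a ^ n) * (‖x - y‖ / ‖x - y‖ ^ n) := fun y => by
    rw [norm_app_sub, mul_pow, div_mul_div_comm]
  simp only [integrableOn_push, setIntegral_push, preimage_ball, e1, smul_eq_mul,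
    integral_const_mul]
  refine ⟨h.1.const_mul _, ?_⟩
  rw [← mul_assoc, show T.a ^ n * (T.a / T.a ^ n) = T.a by field_simp, mul_left_comm C]
  exact mul_le_mul_of_nonneg_left h.2 ha.le

lemma far_push {μ : Measure (Sp d)} {x : Sp d} {R C : ℝ} {a : ℕ}
    (h : IntegrableOn (fun z => (‖x - z‖ ^ (n + a))⁻¹) (ball x R)ᶜ μ ∧
      ∫ z in (ball x R)ᶜ, (‖x - z‖ ^ (n + a))⁻¹ ∂μ ≤ C / R ^ a) :
    IntegrableOn (fun z => (‖T.app x - z‖ ^ (n + a))⁻¹) (ball (T.app x) (T.a * R))ᶜ
        (T.push n μ) ∧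
      ∫ z in (ball (T.app x) (T.a * R))ᶜ, (‖T.app x - z‖ ^ (n + a))⁻¹ ∂T.push n μ ≤
        C / (T.a * R) ^ a := by
  have ha := T.pos
  have e1 : ∀ y : Sp d, (‖T.app x - T.app y‖ ^ (n + a))⁻¹ =
      (T.a ^ (n + a))⁻¹ * (‖x - y‖ ^ (n + a))⁻¹ := fun y => by
    rw [norm_app_sub, mul_pow, mul_inv]
  simp only [integrableOn_push, setIntegral_push, preimage_compl, preimage_ball, e1, smul_eq_mul,
    integral_const_mul]
  refine ⟨h.1.const_mul _, ?_⟩
  rw [← mul_assoc, show T.a ^ n * (T.a ^ (n + a))⁻¹ = (T.a ^ a)⁻¹ by rw [pow_add]; field_simp,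
    mul_pow, div_mul_eq_div_div_swap]
  refine (mul_le_mul_of_nonneg_left h.2 (by positivity)).trans_eq ?_
  field_simp

/-! ### Normal coordinates -/

/-- A rotation taking a frame to the first `n` unit vectors. -/
lemma exists_rotation (h : n ≤ d) (L : Plane n d) :
    ∃ Q : Sp d ≃ₗᵢ[ℝ] Sp d, ∀ i : Fin n,
      Q (L.frame i) = EuclideanSpace.single (Fin.castLE h i) 1 := by
  classical
  have hv : Orthonormal ℝ ((Set.range (Fin.castLE h)).domRestrict
      (Function.extend (Fin.castLE h) L.frame 0)) := by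
    have e : (Set.range (Fin.castLE h)).domRestrict (Function.extend (Fin.castLE h) L.frame 0) =
        L.frame ∘ (Equiv.ofInjective _ (Fin.castLE_injective h)).symm := funext fun x => by
      obtain ⟨_, i, rfl⟩ := x
      simp only [Function.comp_apply, Equiv.ofInjective_symm_apply]
      exact (Fin.castLE_injective h).extend_apply _ _ i
    rw [e]
    exact L.ortho.comp _ (Equiv.injective _)
  obtain ⟨b, hb⟩ := hv.exists_orthonormalBasis_extension_of_card_eq
    (ι := Fin d) (by simp)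
  refine ⟨b.repr, fun i => ?_⟩
  rw [← (Fin.castLE_injective h).extend_apply L.frame 0 i, ← hb _ (Set.mem_range_self i),
    b.repr_self]

/-- In rotated coordinates centred on the plane the normal part is the last coordinates. -/
lemma nPart_app (h : n ≤ d) {L : Plane n d}
    (hQ : ∀ i : Fin n, T.Q (L.frame i) = EuclideanSpace.single (Fin.castLE h i) 1)
    (hp : L.nrm T.p = 0) (y : Sp d) : nPart n (T.app y) = T.a • T.Q (L.nrm y) := by
  have hy : L.nrm y = (y - T.p) - ∑ i, ⟪L.frame i, y - T.p⟫ • L.frame i := by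
    have e : y - L.base = (y - T.p) + (T.p - L.base) := (sub_add_sub_cancel _ _ _).symm
    rw [← add_zero (_ - ∑ i, ⟪L.frame i, y - T.p⟫ • L.frame i), ← hp]
    simp only [Plane.nrm, e, inner_add_right, add_smul, Finset.sum_add_distrib]
    abel
  have hc : ∀ i : Fin n, (T.Q (y - T.p)) (Fin.castLE h i) = ⟪L.frame i, y - T.p⟫ := fun i => by
    rw [← T.Q.inner_map_map (L.frame i), hQ i, EuclideanSpace.inner_single_left]
    simp
  rw [hy, map_sub, map_sum]
  simp only [map_smul, hQ, smul_sub, Finset.smul_sum]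
  ext j
  simp only [nPart, app, PiLp.sub_apply, PiLp.smul_apply, WithLp.ofLp_sum, Finset.sum_apply,
    PiLp.single_apply, smul_eq_mul]
  by_cases hj : (j : ℕ) < n
  · rw [if_pos hj, Finset.sum_eq_single (⟨j, hj⟩ : Fin n)]
    · rw [if_pos (Fin.ext rfl : j = Fin.castLE h ⟨↑j, hj⟩), ← hc, mul_one,
        show Fin.castLE h ⟨↑j, hj⟩ = j from Fin.ext rfl]
      exact (sub_self _).symm
    · intro i _ hi
      rw [if_neg fun e => hi (Fin.ext (by simp [e]))]
      simp
    · simp
  · rw [if_neg hj, Finset.sum_eq_zero fun i _ => ?_, sub_zero]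
    rw [if_neg fun e => hj (by rw [e]; exact i.isLt)]
    simp

end Sim

end Vale.Agent.P120
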