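import Vale.Agent.P120.Improve.Blow

/-!
# P120: the coordinates of a normalised sequence; its support is thin
-/

open MeasureTheory Metric Filter Topology
open scoped ENNReal NNReal

namespace Vale.Agent.P120

variable {n d : ℕ}

lemma tPart_sub (h : n ≤ d) (y z : Sp d) : tPart h (y - z) = tPart h y - tPart h z := by
  ext i; simp [tPart]

lemma nPart_sub (n : ℕ) (y z : Sp d) : nPart n (y - z) = nPart n y - nPart n z := by
  ext i; by_cases hi : (i : ℕ) < n <;> simp [nPart, hi]

lemma norm_sq_split (h : n ≤ d) (y : Sp d) :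
    ‖y‖ ^ 2 = ‖tPart h y‖ ^ 2 + ‖nPart n y‖ ^ 2 := by
  simp only [EuclideanSpace.norm_sq_eq, Real.norm_eq_abs, sq_abs, tPart, nPart]
  have h1 : ∑ i : Fin n, y (Fin.castLE h i) ^ 2 =
      ∑ i ∈ Finset.univ.filter (fun i : Fin d => (i : ℕ) < n), y i ^ 2 := by
    refine Finset.sum_bij (fun i _ => Fin.castLE h i) (fun i _ => ?_) (fun i _ j _ e => ?_)
      (fun i hi => ?_) fun i _ => rfl
    · simp
    · exact Fin.castLE_injective h e
    · exact ⟨⟨i, (Finset.mem_filter.1 hi).2⟩, Finset.mem_univ _, rfl⟩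
  rw [h1, Finset.sum_filter, ← Finset.sum_add_distrib]
  refine Finset.sum_congr rfl fun i _ => ?_
  by_cases hi : (i : ℕ) < n <;> simp [hi]

lemma norm_tPart_le (h : n ≤ d) (y : Sp d) : ‖tPart h y‖ ≤ ‖y‖ :=
  pow_le_pow_iff_left₀ (norm_nonneg _) (norm_nonneg _) two_ne_zero |>.1
    (by nlinarith [norm_sq_split h y])

lemma norm_nPart_le (h : n ≤ d) (y : Sp d) : ‖nPart n y‖ ≤ ‖y‖ :=
  pow_le_pow_iff_left₀ (norm_nonneg _) (norm_nonneg _) two_ne_zero |>.1
    (by nlinarith [norm_sq_split h y])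

lemma norm_le_parts (h : n ≤ d) (y : Sp d) : ‖y‖ ≤ ‖tPart h y‖ + ‖nPart n y‖ :=
  pow_le_pow_iff_left₀ (norm_nonneg _) (by positivity) two_ne_zero |>.1
    (by nlinarith [norm_sq_split h y, norm_nonneg (tPart h y), norm_nonneg (nPart n y)])

lemma lipschitz_tPart (h : n ≤ d) : LipschitzWith 1 (tPart (n := n) h) :=
  LipschitzWith.mk_one fun y z => by
    rw [dist_eq_norm, dist_eq_norm, ← tPart_sub]; exact norm_tPart_le h _

lemma lipschitz_nPart (h : n ≤ d) : LipschitzWith 1 (nPart (d := d) n) :=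
  LipschitzWith.mk_one fun y z => by
    rw [dist_eq_norm, dist_eq_norm, ← nPart_sub]; exact norm_nPart_le h _

lemma abs_coord_le (y : Sp d) {i : Fin d} (hi : n ≤ (i : ℕ)) : |y i| ≤ ‖nPart n y‖ := by
  have := PiLp.norm_apply_le (nPart n y) i
  simpa [nPart, not_lt.2 hi] using this

/-- Bounded functions are integrable on balls. -/
lemma integrableOn_ball_of_bound {μ : Measure (Sp d)} {x : Sp d} {r : ℝ}
    (hfin : μ (ball x r) ≠ ⊤) {f : Sp d → ℝ} (hf : Measurable f) {M : ℝ}
    (hM : ∀ y ∈ ball x r, |f y| ≤ M) : IntegrableOn f (ball x r) μ :=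
  Measure.integrableOn_of_bounded (M := M) hfin hf.aestronglyMeasurable
    ((ae_restrict_iff' measurableSet_ball).2 (Eventually.of_forall hM))

namespace Blow

variable {C₀ : ℝ} (B : Blow n d C₀)

lemma integrable_moment (k : ℕ) (A : ℝ) :
    IntegrableOn (fun y => ‖nPart n y‖ ^ 2) (ball 0 A) (B.m k) := by
  refine integrableOn_ball_of_bound ((B.reg k).fin _ _)
    ((lipschitz_nPart B.le).continuous.norm.pow 2).measurable (M := A ^ 2) fun y hy => ?_
  rw [abs_of_nonneg (by positivity)]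
  exact pow_le_pow_left₀ (norm_nonneg _)
    ((norm_nPart_le B.le y).trans (mem_ball_zero_iff.1 hy).le) 2

/-- **The support is thin**: in a fixed ball its heights tend to zero. -/
theorem thin {A δ : ℝ} (hA : 1 ≤ A) (hδ : 0 < δ) :
    ∀ᶠ k in atTop, ∀ y ∈ (B.m k).support, ‖y‖ < A → ‖nPart n y‖ ≤ δ := by
  set s := min δ A / 2 with hs
  have hs0 : 0 < s := by positivity
  have hC : 0 < C₀ := one_pos.trans_le (B.reg 0).one_le
  have h0 : Tendsto (fun k => B.D * (2 * A) ^ (n + 3) * B.G k ^ 2) atTop (𝓝 0) := by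
    simpa using (B.G_lim.pow 2).const_mul (B.D * (2 * A) ^ (n + 3))
  filter_upwards [h0.eventually (gt_mem_nhds (show (0:ℝ) < C₀⁻¹ * s ^ n * s ^ 2 by positivity)),
    B.diam A] with k hk hdiam y hy hyA
  by_contra hlt
  rw [not_le] at hlt
  have hsA : s ≤ A := by linarith [min_le_right δ A]
  have hsub : ball y s ⊆ ball (0 : Sp d) (2 * A) := fun z hz => by
    rw [mem_ball_zero_iff]
    rw [mem_ball, dist_eq_norm] at hz
    linarith [norm_le_norm_add_norm_sub' z y]
  have hbig : ∀ z ∈ ball y s, s ^ 2 ≤ ‖nPart n z‖ ^ 2 := fun z hz => by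
    refine pow_le_pow_left₀ hs0.le ?_ 2
    have h := (lipschitz_nPart (d := d) B.le).dist_le_mul y z
    rw [NNReal.coe_one, one_mul, dist_eq_norm (nPart n y)] at h
    rw [mem_ball'] at hz
    linarith [norm_le_norm_add_norm_sub' (nPart n y) (nPart n z), min_le_left δ A]
  have hlow := (B.reg k).lower y hy s hs0 ((ENNReal.ofReal_le_ofReal hsA).trans hdiam)
  have h1 : s ^ 2 * (B.m k).real (ball y s) ≤ ∫ z in ball y s, ‖nPart n z‖ ^ 2 ∂B.m k := by
    have := setIntegral_mono_on (f := fun _ => s ^ 2) (integrableOn_const ((B.reg k).fin y s))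
      ((B.integrable_moment k (2 * A)).mono_set hsub) measurableSet_ball hbig
    simpa [mul_comm] using this
  have h2 : ∫ z in ball y s, ‖nPart n z‖ ^ 2 ∂B.m k ≤
      B.D * (2 * A) ^ (n + 3) * B.G k ^ 2 :=
    (setIntegral_mono_set (B.integrable_moment k (2 * A))
      (Eventually.of_forall fun z => by positivity) hsub.eventuallyLE).trans
      (B.moment k (2 * A) (by linarith))
  nlinarith [mul_le_mul_of_nonneg_left hlow (sq_nonneg s)]

end Blow

end Vale.Agent.P120
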