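import Vale.Agent.P120.Improve.Thin
import Mathlib.MeasureTheory.Integral.Bochner.Set
import Mathlib.MeasureTheory.Measure.Haar.InnerProductSpace

/-!
# P120: using the limit of a normalised sequence
-/

open MeasureTheory Metric Filter Topology
open scoped ENNReal NNReal

namespace Vale.Agent.P120

/-- A continuous function supported in a ball is uniformly continuous. -/
lemma exists_modulus {E : Type*} [NormedAddCommGroup E] [ProperSpace E] {F : E → ℝ}
    (hF : Continuous F) {A : ℝ} (h0 : ∀ x, A ≤ ‖x‖ → F x = 0) {ε : ℝ} (hε : 0 < ε) :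
    ∃ δ : ℝ, 0 < δ ∧ ∀ x y, dist x y < δ → |F x - F y| ≤ ε := by
  have hc : IsCompact (closedBall (0 : E) (A + 1)) := isCompact_closedBall _ _
  obtain ⟨δ, hδ, h⟩ :=
    Metric.uniformContinuousOn_iff.1 (hc.uniformContinuousOn_of_continuous hF.continuousOn) ε hε
  refine ⟨min δ 1, lt_min hδ one_pos, fun x y hxy => ?_⟩
  by_cases hx : x ∈ closedBall (0 : E) (A + 1) ∧ y ∈ closedBall (0 : E) (A + 1)
  · have := h x hx.1 y hx.2 (hxy.trans_le (min_le_left _ _))
    rw [Real.dist_eq] at this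
    exact this.le
  · have hd : dist x y < 1 := hxy.trans_le (min_le_right _ _)
    rw [dist_eq_norm] at hd
    rw [mem_closedBall_zero_iff, mem_closedBall_zero_iff, not_and_or, not_le, not_le] at hx
    have h1 := norm_le_norm_add_norm_sub' x y
    have h2 := norm_le_norm_add_norm_sub' y x
    rw [norm_sub_rev] at h2
    have : A ≤ ‖x‖ ∧ A ≤ ‖y‖ := by rcases hx with hx | hx <;> constructor <;> linarith
    rw [h0 x this.1, h0 y this.2, sub_zero, abs_zero]
    exact hε.le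

/-- An equicontinuous family converging at each point of a compact set converges uniformly there. -/
lemma uniform_of_equi {E : Type*} [PseudoMetricSpace E] {l : Filter ℕ} {K : Set E}
    (hK : IsCompact K) {F : ℕ → E → ℝ} {G : E → ℝ} (hG : ContinuousOn G K)
    (hpt : ∀ x ∈ K, Tendsto (fun k => F k x) l (𝓝 (G x)))
    (heq : ∀ ε : ℝ, 0 < ε → ∃ δ : ℝ, 0 < δ ∧ ∀ᶠ k in l, ∀ x ∈ K, ∀ y ∈ K,
      dist x y < δ → |F k x - F k y| ≤ ε)
    {ε : ℝ} (hε : 0 < ε) : ∀ᶠ k in l, ∀ x ∈ K, |F k x - G x| ≤ ε := by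
  obtain ⟨δ1, hδ1, h1⟩ := heq (ε / 3) (by linarith)
  obtain ⟨δ2, hδ2, h2⟩ :=
    Metric.uniformContinuousOn_iff.1 (hK.uniformContinuousOn_of_continuous hG) (ε / 3) (by linarith)
  obtain ⟨t, ht, htf, hcov⟩ := finite_cover_balls_of_compact hK (lt_min hδ1 hδ2)
  have h3 : ∀ᶠ k in l, ∀ c ∈ t, |F k c - G c| ≤ ε / 3 := by
    refine htf.eventually_all.2 fun c hc => ?_
    filter_upwards [(hpt c (ht hc)).eventually (closedBall_mem_nhds _ (show 0 < ε / 3 by linarith))]
      with k hk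
    rwa [Real.dist_eq] at hk
  filter_upwards [h1, h3] with k hk1 hk3 x hx
  obtain ⟨c, hc, hxc⟩ := Set.mem_iUnion₂.1 (hcov hx)
  rw [mem_ball] at hxc
  have e1 := hk1 x hx c (ht hc) (hxc.trans_le (min_le_left _ _))
  have e2 := h2 x hx c (ht hc) (hxc.trans_le (min_le_right _ _))
  rw [Real.dist_eq] at e2
  have e3 := hk3 c hc
  rw [abs_le] at e1 e3 ⊢
  rw [abs_lt] at e2
  constructor <;> linarith

namespace Blow

variable {n d : ℕ} {C₀ : ℝ} (B : Blow n d C₀)

/-- `LimitSpec` along one filter with constant `a`. -/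
def Conv (U : Filter ℕ) (a : ℝ) : Prop :=
  ∀ (g : Sp n → ℝ) (A : ℝ), Continuous g → 1 ≤ A → (∀ x, A ≤ ‖x‖ → g x = 0) →
    Tendsto (fun k => ∫ y in ball 0 (2 * A), g (tPart B.le y) ∂B.m k) U (𝓝 (a * ∫ x, g x))

lemma C₀_pos (B : Blow n d C₀) : 0 < C₀ := one_pos.trans_le (B.reg 0).one_le

lemma ae_support (k : ℕ) : ∀ᵐ y ∂B.m k, y ∈ (B.m k).support := Measure.support_mem_ae

lemma mass_le (k : ℕ) {T : ℝ} (hT : 0 < T) : (B.m k).real (ball 0 T) ≤ C₀ * T ^ n :=
  (B.reg k).upper _ _ hT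

lemma intOn {f : Sp d → ℝ} (hf : Continuous f) (k : ℕ) (T : ℝ) :
    IntegrableOn f (ball 0 T) (B.m k) := by
  obtain ⟨M, hM⟩ := (isCompact_closedBall (0 : Sp d) T).exists_bound_of_continuousOn hf.continuousOn
  exact integrableOn_ball_of_bound ((B.reg k).fin _ _) hf.measurable fun y hy =>
    by simpa using hM y (ball_subset_closedBall hy)

lemma abs_setIntegral_le (k : ℕ) {T : ℝ} (hT : 0 < T) {f : Sp d → ℝ} {M : ℝ}
    (hM : ∀ y ∈ ball (0 : Sp d) T, |f y| ≤ M) :
    |∫ y in ball 0 T, f y ∂B.m k| ≤ M * (C₀ * T ^ n) := by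
  have hM0 : 0 ≤ M := (abs_nonneg _).trans (hM 0 (mem_ball_self hT))
  rw [← Real.norm_eq_abs]
  exact (norm_setIntegral_le_of_norm_le_const (lt_top_iff_ne_top.2 ((B.reg k).fin _ _))
    fun y hy => by rw [Real.norm_eq_abs]; exact hM y hy).trans
    (mul_le_mul_of_nonneg_left (B.mass_le k hT) hM0)

/-- Eventually the radius of the ball does not matter. -/
lemma ball_change' {A T : ℝ} (hA : 1 ≤ A) (hT : 2 * A ≤ T) :
    ∀ᶠ k in atTop, ∀ f : Sp d → ℝ, (∀ y, A ≤ ‖tPart B.le y‖ → f y = 0) →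
      ∫ y in ball 0 T, f y ∂B.m k = ∫ y in ball 0 (2 * A), f y ∂B.m k := by
  filter_upwards [B.thin (show 1 ≤ T by linarith) one_pos] with k hk f hf
  refine setIntegral_eq_of_subset_of_ae_sdiff_eq_zero measurableSet_ball.nullMeasurableSet
    (ball_subset_ball hT) ?_
  filter_upwards [B.ae_support k] with y hy hyd
  obtain ⟨hyT, hyA⟩ := hyd
  rw [mem_ball_zero_iff] at hyT hyA
  refine hf _ ?_
  linarith [hk y hy hyT, norm_le_parts B.le y]

/-- Eventually the radius of the ball does not matter, for functions of the plane point. -/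
lemma ball_change {A T : ℝ} (hA : 1 ≤ A) (hT : 2 * A ≤ T) :
    ∀ᶠ k in atTop, ∀ g : Sp n → ℝ, (∀ x, A ≤ ‖x‖ → g x = 0) →
      ∫ y in ball 0 T, g (tPart B.le y) ∂B.m k =
        ∫ y in ball 0 (2 * A), g (tPart B.le y) ∂B.m k := by
  filter_upwards [B.ball_change' hA hT] with k hk g hg using hk _ fun y hy => hg _ hy

variable {U : Filter ℕ} {a : ℝ}

/-- The limit for a family converging uniformly. -/
theorem tendsto_uniform (hU : U ≤ atTop) (hlim : B.Conv U a) {A T : ℝ} (hA : 1 ≤ A)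
    (hT : 2 * A ≤ T) {F : ℕ → Sp n → ℝ} {G : Sp n → ℝ} (hG : Continuous G)
    (hF : ∀ k, Continuous (F k)) (hG0 : ∀ x, A ≤ ‖x‖ → G x = 0)
    (hu : ∀ ε : ℝ, 0 < ε → ∀ᶠ k in U, ∀ x, |F k x - G x| ≤ ε) :
    Tendsto (fun k => ∫ y in ball 0 T, F k (tPart B.le y) ∂B.m k) U (𝓝 (a * ∫ x, G x)) := by
  rw [Metric.tendsto_nhds]
  intro ε hε
  have hC := B.C₀_pos
  have hT0 : 0 < T := by linarith
  set ε' := ε / (2 * (C₀ * T ^ n)) with hε'
  have hε'0 : 0 < ε' := by positivity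
  filter_upwards [hu ε' hε'0, hU (B.ball_change hA hT),
    Metric.tendsto_nhds.1 (hlim G A hG hA hG0) (ε / 2) (half_pos hε)] with k h1 h2 h3
  have hc := (lipschitz_tPart (n := n) B.le).continuous
  have h4 := B.abs_setIntegral_le k hT0 (f := fun y => F k (tPart B.le y) - G (tPart B.le y))
    (M := ε') fun y _ => h1 _
  rw [integral_sub (B.intOn (f := fun y => F k (tPart B.le y)) ((hF k).comp hc) k T)
    (B.intOn (f := fun y => G (tPart B.le y)) (hG.comp hc) k T), h2 G hG0] at h4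
  rw [Real.dist_eq] at h3 ⊢
  have e : ε' * (C₀ * T ^ n) = ε / 2 := by rw [hε']; field_simp
  rw [e, abs_le] at h4
  rw [abs_lt] at h3 ⊢
  constructor <;> linarith

/-- The inner integral of a continuous two point function. -/
noncomputable def inner₂ (T : ℝ) (W : Sp n × Sp n → ℝ) (k : ℕ) (x : Sp n) : ℝ :=
  ∫ z in ball 0 T, W (x, tPart B.le z) ∂B.m k

lemma inner₂_equi {A T : ℝ} (hT : 0 < T) {W : Sp n × Sp n → ℝ} (hW : Continuous W)
    (hW0 : ∀ p, A ≤ ‖p‖ → W p = 0) {ε : ℝ} (hε : 0 < ε) :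
    ∃ δ : ℝ, 0 < δ ∧ ∀ k x y, dist x y < δ →
      |B.inner₂ T W k x - B.inner₂ T W k y| ≤ ε := by
  have hC := B.C₀_pos
  obtain ⟨δ, hδ, h⟩ := exists_modulus hW hW0 (show 0 < ε / (C₀ * T ^ n) by positivity)
  refine ⟨δ, hδ, fun k x y hxy => ?_⟩
  have hc := (lipschitz_tPart (n := n) B.le).continuous
  rw [inner₂, inner₂, ← integral_sub (B.intOn (by fun_prop) k T) (B.intOn (by fun_prop) k T)]
  refine (B.abs_setIntegral_le k hT (M := ε / (C₀ * T ^ n)) fun z _ => h _ _ ?_).trans_eq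
    (by field_simp)
  simpa [Prod.dist_eq] using hxy

lemma continuous_inner₂ {A T : ℝ} (hT : 0 < T) {W : Sp n × Sp n → ℝ} (hW : Continuous W)
    (hW0 : ∀ p, A ≤ ‖p‖ → W p = 0) (k : ℕ) : Continuous (B.inner₂ T W k) := by
  rw [Metric.continuous_iff]
  intro x ε hε
  obtain ⟨δ, hδ, h⟩ := B.inner₂_equi hT hW hW0 (half_pos hε)
  exact ⟨δ, hδ, fun y hy => by rw [Real.dist_eq]; linarith [h k y x hy]⟩

lemma continuous_partial_integral {A : ℝ} {W : Sp n × Sp n → ℝ} (hW : Continuous W)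
    (hW0 : ∀ p, A ≤ ‖p‖ → W p = 0) : Continuous fun x => ∫ x', W (x, x') := by
  have h : (fun x => ∫ x', W (x, x')) = fun x => ∫ x' in closedBall (0 : Sp n) A, W (x, x') :=
    funext fun x => (setIntegral_eq_integral_of_forall_compl_eq_zero fun x' hx' => hW0 _ <| by
      rw [mem_closedBall_zero_iff, not_le] at hx'
      exact le_trans hx'.le (by simp [Prod.norm_def])).symm
  rw [h]
  exact continuous_parametric_integral_of_continuous
    (show Continuous (Function.uncurry fun x x' => W (x, x')) from hW) (isCompact_closedBall 0 A)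

lemma inner₂_tendsto (hU : U ≤ atTop) (hlim : B.Conv U a) {A T : ℝ} (hA : 1 ≤ A)
    (hT : 2 * A ≤ T) {W : Sp n × Sp n → ℝ} (hW : Continuous W)
    (hW0 : ∀ p, A ≤ ‖p‖ → W p = 0) {ε : ℝ} (hε : 0 < ε) :
    ∀ᶠ k in U, ∀ x, |B.inner₂ T W k x - a * ∫ x', W (x, x')| ≤ ε := by
  have hT0 : 0 < T := by linarith
  have hpt : ∀ x, Tendsto (fun k => B.inner₂ T W k x) U (𝓝 (a * ∫ x', W (x, x'))) := fun x => by
    refine B.tendsto_uniform hU hlim hA hT (F := fun _ x' => W (x, x')) (by fun_prop)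
      (fun _ => by fun_prop) (fun x' hx' => hW0 _ (hx'.trans (by simp [Prod.norm_def])))
      fun ε hε => Eventually.of_forall fun k x' => by simp [hε.le]
  have hu := uniform_of_equi (isCompact_closedBall (0 : Sp n) A)
    (G := fun x => a * ∫ x', W (x, x')) (F := B.inner₂ T W)
    (continuous_const.mul (continuous_partial_integral hW hW0)).continuousOn
    (fun x _ => hpt x) (fun ε hε => ?_) hε
  · filter_upwards [hu] with k hk x
    rcases le_total ‖x‖ A with hx | hx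
    · exact hk x (mem_closedBall_zero_iff.2 hx)
    · have h0 : ∀ x', W (x, x') = 0 := fun x' => hW0 _ (hx.trans (by simp [Prod.norm_def]))
      simp [inner₂, h0, hε.le]
  · obtain ⟨δ, hδ, h⟩ := B.inner₂_equi hT0 hW hW0 hε
    exact ⟨δ, hδ, Eventually.of_forall fun k x _ y _ => h k x y⟩

/-- The limit of a double integral. -/
theorem tendsto_double (hU : U ≤ atTop) (hlim : B.Conv U a) {A T : ℝ} (hA : 1 ≤ A)
    (hT : 2 * A ≤ T) {W : ℕ → Sp n × Sp n → ℝ} {W₀ : Sp n × Sp n → ℝ} (hW : ∀ k, Continuous (W k))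
    (hW₀ : Continuous W₀) (hW0 : ∀ k p, A ≤ ‖p‖ → W k p = 0) (hW₀0 : ∀ p, A ≤ ‖p‖ → W₀ p = 0)
    (hu : ∀ ε : ℝ, 0 < ε → ∀ᶠ k in U, ∀ p, |W k p - W₀ p| ≤ ε) :
    Tendsto (fun k => ∫ y in ball 0 T, ∫ z in ball 0 T,
        W k (tPart B.le y, tPart B.le z) ∂B.m k ∂B.m k) U
      (𝓝 (a * ∫ x, a * ∫ x', W₀ (x, x'))) := by
  have hT0 : 0 < T := by linarith
  have hC := B.C₀_pos
  refine B.tendsto_uniform hU hlim hA hT (F := fun k => B.inner₂ T (W k) k)
    (continuous_const.mul (continuous_partial_integral hW₀ hW₀0))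
    (fun k => B.continuous_inner₂ hT0 (hW k) (hW0 k) k)
    (fun x hx => by
      have h0 : ∀ x', W₀ (x, x') = 0 := fun x' => hW₀0 _ (hx.trans (by simp [Prod.norm_def]))
      simp [h0]) fun ε hε => ?_
  filter_upwards [hu (ε / (2 * (C₀ * T ^ n))) (by positivity),
    B.inner₂_tendsto hU hlim hA hT hW₀ hW₀0 (half_pos hε)] with k h1 h2 x
  have hc := (lipschitz_tPart (n := n) B.le).continuous
  have h3 : |B.inner₂ T (W k) k x - B.inner₂ T W₀ k x| ≤ ε / 2 := by
    have := hW k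
    rw [inner₂, inner₂, ← integral_sub (B.intOn (by fun_prop) k T) (B.intOn (by fun_prop) k T)]
    exact (B.abs_setIntegral_le k hT0 fun z _ => h1 _).trans_eq (by field_simp)
  have := h2 x
  rw [abs_le] at *
  constructor <;> linarith

end Blow

end Vale.Agent.P120
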